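import Vale.Agent.P032X.H892.LtH
import Vale.Agent.P032X.H286.W73
import Vale.Agent.P032X.Cert.X3.A.R0T
import Vale.Agent.P032X.Cert.X3.A.R0Q000
import Vale.Agent.P032X.Cert.X3.A.R0Q001
import Vale.Agent.P032X.Cert.X3.A.R0Q002
import Vale.Agent.P032X.Cert.X3.A.R0Q003
import Vale.Agent.P032X.Cert.X3.A.R0Q004
import Vale.Agent.P032X.Cert.X3.A.R0Q005
import Vale.Agent.P032X.Cert.X3.A.R0Q006

set_option maxRecDepth 1000000

namespace Vale.Agent.P032X.Cert.X3.A.R0H000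

open Vale.Agent.P032.H820.K Vale.Agent.P032.H357.MK Vale.Agent.P032.H286.E Vale.Agent.P032.H61 Vale.Agent.P032X.Cert.X3.A

noncomputable abbrev Fm : ℕ → List ℕ := Vale.Agent.P032.Fam.fam3 (Vale.Agent.P032.Fam.im0)

def CB : List ℕ := [0, 4, 8, 12, 16, 20, 24]

theorem eB : Vale.Agent.P032.Lt.eqLL (CB.map Fm) R0Q000.E = true := by decide +kernel

def C0 : List ℕ := [0, 4, 8, 12, 16, 20, 24, 88065, 93185, 479233, 481281, 486401, 607233, 611329, 13371462603826, 13559354441758, 17842750841874, 17962993148946, 19328054025226, 22218067230750]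
theorem p0 : Pat 73 73 TBm TCm (C0.map Fm) R0Q000.P0 R0Q000.I0 := Vale.Agent.P032.Lt.pat_eq (E' := R0Q000.E0) (by decide +kernel) (pat_step (by decide +kernel) (q_cons (Vale.Agent.P032.Lt.q R0Q000.q0_0) (q_cons (Vale.Agent.P032.Lt.q R0Q000.q0_1) q_nil)))

theorem p1 : Pat 73 73 TBm TCm (CB.map Fm) R0Q000.P1 R0Q000.I1 := Vale.Agent.P032.Lt.pat_eq (E' := R0Q000.E) eB (pat_step (by decide +kernel) (q_cons (Vale.Agent.P032.Lt.q R0Q000.q1_0) (q_cons (Vale.Agent.P032.Lt.q R0Q000.q1_1) (q_cons (Vale.Agent.P032.Lt.q R0Q000.q1_2) q_nil))))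

def C2 : List ℕ := [0, 4, 8, 12, 16, 20, 24, 613377, 744449, 22232120378402, 24275629327394]
theorem p2 : Pat 73 73 TBm TCm (C2.map Fm) R0Q000.P2 R0Q000.I2 := Vale.Agent.P032.Lt.pat_eq (E' := R0Q000.E2) (by decide +kernel) (pat_step (by decide +kernel) (q_cons (Vale.Agent.P032.Lt.q R0Q000.q2_0) (q_cons (Vale.Agent.P032.Lt.q R0Q000.q2_1) q_nil)))

def C3 : List ℕ := [0, 4, 8, 12, 16, 20, 24, 89089, 91137, 93185, 224257, 486401, 606209, 615425, 737281, 4651815228466, 9102318584866, 9170004952098, 13487966213170]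
theorem p3 : Pat 73 73 TBm TCm (C3.map Fm) R0Q000.P3 R0Q000.I3 := Vale.Agent.P032.Lt.pat_eq (E' := R0Q000.E3) (by decide +kernel) (pat_step (by decide +kernel) (q_cons (Vale.Agent.P032.Lt.q R0Q000.q3_0) q_nil))

theorem p4 : Pat 73 73 TBm TCm (CB.map Fm) R0Q000.P4 R0Q000.I4 := Vale.Agent.P032.Lt.pat_eq (E' := R0Q000.E) eB (pat_step (by decide +kernel) (q_cons (Vale.Agent.P032.Lt.q R0Q000.q4_0) (q_cons (Vale.Agent.P032.Lt.q R0Q000.q4_1) (q_cons (Vale.Agent.P032.Lt.q R0Q000.q4_2) (q_cons (Vale.Agent.P032.Lt.q R0Q000.q4_3) (q_cons (Vale.Agent.P032.Lt.q R0Q000.q4_4) (q_cons (Vale.Agent.P032.Lt.q R0Q000.q4_5) (q_cons (Vale.Agent.P032.Lt.q R0Q000.q4_6) (q_cons (Vale.Agent.P032.Lt.q R0Q000.q4_7) (q_cons (Vale.Agent.P032.Lt.q R0Q000.q4_8) q_nil))))))))))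

theorem p5 : Pat 73 73 TBm TCm (CB.map Fm) R0Q000.P5 R0Q000.I5 := Vale.Agent.P032.Lt.pat_eq (E' := R0Q000.E) eB (pat_step (by decide +kernel) (q_cons (Vale.Agent.P032.Lt.q R0Q000.q5_0) (q_cons (Vale.Agent.P032.Lt.q R0Q000.q5_1) (q_cons (Vale.Agent.P032.Lt.q R0Q000.q5_2) (q_cons (Vale.Agent.P032.Lt.q R0Q000.q5_3) (q_cons (Vale.Agent.P032.Lt.q R0Q000.q5_4) (q_cons (Vale.Agent.P032.Lt.q R0Q000.q5_5) q_nil)))))))

theorem p6 : Pat 73 73 TBm TCm (CB.map Fm) R0Q000.P6 R0Q000.I6 := Vale.Agent.P032.Lt.pat_eq (E' := R0Q000.E) eB (pat_step (by decide +kernel) (q_cons (Vale.Agent.P032.Lt.q R0Q000.q6_0) q_nil))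

theorem p7 : Pat 73 73 TBm TCm (CB.map Fm) R0Q000.P7 R0Q000.I7 := Vale.Agent.P032.Lt.pat_eq (E' := R0Q000.E) eB (pat_step (by decide +kernel) (q_cons (Vale.Agent.P032.Lt.q R0Q000.q7_0) (q_cons (Vale.Agent.P032.Lt.q R0Q000.q7_1) (q_cons (Vale.Agent.P032.Lt.q R0Q000.q7_2) (q_cons (Vale.Agent.P032.Lt.q R0Q000.q7_3) (q_cons (Vale.Agent.P032.Lt.q R0Q000.q7_4) (q_cons (Vale.Agent.P032.Lt.q R0Q000.q7_5) (q_cons (Vale.Agent.P032.Lt.q R0Q000.q7_6) (q_cons (Vale.Agent.P032.Lt.q R0Q000.q7_7) q_nil)))))))))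

def C8 : List ℕ := [0, 4, 8, 12, 16, 20, 24, 475137, 745473, 22232171235366, 22782729865254]
theorem p8 : Pat 73 73 TBm TCm (C8.map Fm) R0Q000.P8 R0Q000.I8 := Vale.Agent.P032.Lt.pat_eq (E' := R0Q000.E8) (by decide +kernel) (pat_step (by decide +kernel) (q_cons (Vale.Agent.P032.Lt.q R0Q000.q8_0) (q_cons (Vale.Agent.P032.Lt.q R0Q000.q8_1) (q_cons (Vale.Agent.P032.Lt.q R0Q000.q8_2) (q_cons (Vale.Agent.P032.Lt.q R0Q000.q8_3) (q_cons (Vale.Agent.P032.Lt.q R0Q000.q8_4) (q_cons (Vale.Agent.P032.Lt.q R0Q000.q8_5) (q_cons (Vale.Agent.P032.Lt.q R0Q000.q8_6) q_nil))))))))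

def C9 : List ℕ := [0, 4, 8, 12, 16, 20, 24, 212993, 220161, 606209, 737281, 9715799245858]
theorem p9 : Pat 73 73 TBm TCm (C9.map Fm) R0Q000.P9 R0Q000.I9 := Vale.Agent.P032.Lt.pat_eq (E' := R0Q000.E9) (by decide +kernel) (pat_step (by decide +kernel) (q_cons (Vale.Agent.P032.Lt.q R0Q000.q9_0) (q_cons (Vale.Agent.P032.Lt.q R0Q000.q9_1) (q_cons (Vale.Agent.P032.Lt.q R0Q000.q9_2) q_nil))))

def C10 : List ℕ := [0, 4, 8, 12, 16, 20, 24, 81921, 87041, 218113, 349185, 476161, 607233, 611329, 9038396091418, 9727068564506, 18506048826394, 19595810266122]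
theorem p10 : Pat 73 73 TBm TCm (C10.map Fm) R0Q000.P10 R0Q000.I10 := Vale.Agent.P032.Lt.pat_eq (E' := R0Q000.E10) (by decide +kernel) (pat_step (by decide +kernel) (q_cons (Vale.Agent.P032.Lt.q R0Q000.q10_0) (q_cons (Vale.Agent.P032.Lt.q R0Q000.q10_1) (q_cons (Vale.Agent.P032.Lt.q R0Q000.q10_2) (q_cons (Vale.Agent.P032.Lt.q R0Q000.q10_3) (q_cons (Vale.Agent.P032.Lt.q R0Q000.q10_4) (q_cons (Vale.Agent.P032.Lt.q R0Q000.q10_5) q_nil)))))))

def C11 : List ℕ := [0, 4, 8, 12, 16, 20, 24, 349185, 480257, 611329, 742401, 19044396133402, 22293239000090, 23184849464346, 23193305181210, 23786115525658, 24335737121818]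
theorem p11 : Pat 73 73 TBm TCm (C11.map Fm) R0Q000.P11 R0Q000.I11 := Vale.Agent.P032.Lt.pat_eq (E' := R0Q000.E11) (by decide +kernel) (pat_step (by decide +kernel) (q_cons (Vale.Agent.P032.Lt.q R0Q000.q11_0) q_nil))

def C12 : List ℕ := [0, 4, 8, 12, 16, 20, 24, 606209, 737281, 17962898775050, 17963835409442, 24278467434502, 24338546644998, 24338613753862, 24338622142470]
theorem p12 : Pat 73 73 TBm TCm (C12.map Fm) R0Q000.P12 R0Q000.I12 := Vale.Agent.P032.Lt.pat_eq (E' := R0Q000.E12) (by decide +kernel) (pat_step (by decide +kernel) (q_cons (Vale.Agent.P032.Lt.q R0Q000.q12_0) (q_cons (Vale.Agent.P032.Lt.q R0Q000.q12_1) (q_cons (Vale.Agent.P032.Lt.q R0Q000.q12_2) q_nil))))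

theorem p13 : Pat 73 73 TBm TCm (CB.map Fm) R0Q000.P13 R0Q000.I13 := Vale.Agent.P032.Lt.pat_eq (E' := R0Q000.E) eB (pat_step (by decide +kernel) (q_cons (Vale.Agent.P032.Lt.q R0Q000.q13_0) (q_cons (Vale.Agent.P032.Lt.q R0Q000.q13_1) (q_cons (Vale.Agent.P032.Lt.q R0Q000.q13_2) (q_cons (Vale.Agent.P032.Lt.q R0Q000.q13_3) (q_cons (Vale.Agent.P032.Lt.q R0Q000.q13_4) (q_cons (Vale.Agent.P032.Lt.q R0Q000.q13_5) (q_cons (Vale.Agent.P032.Lt.q R0Q000.q13_6) (q_cons (Vale.Agent.P032.Lt.q R0Q000.q13_7) (q_cons (Vale.Agent.P032.Lt.q R0Q000.q13_8) (q_cons (Vale.Agent.P032.Lt.q R0Q000.q13_9) (q_cons (Vale.Agent.P032.Lt.q R0Q000.q13_10) (q_cons (Vale.Agent.P032.Lt.q R0Q000.q13_11) (q_cons (Vale.Agent.P032.Lt.q R0Q000.q13_12) (q_cons (Vale.Agent.P032.Lt.q R0Q000.q13_13) q_nil)))))))))))))))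

theorem p14 : Pat 73 73 TBm TCm (CB.map Fm) R0Q000.P14 R0Q000.I14 := Vale.Agent.P032.Lt.pat_eq (E' := R0Q000.E) eB (pat_step (by decide +kernel) (q_cons (Vale.Agent.P032.Lt.q R0Q000.q14_0) (q_cons (Vale.Agent.P032.Lt.q R0Q000.q14_1) q_nil)))

def C15 : List ℕ := [0, 4, 8, 12, 16, 20, 24, 82945, 606209, 737281, 13376227859466, 24404314777622, 24412756203526, 24413691795462]
theorem p15 : Pat 73 73 TBm TCm (C15.map Fm) R0Q000.P15 R0Q000.I15 := Vale.Agent.P032.Lt.pat_eq (E' := R0Q000.E15) (by decide +kernel) (pat_step (by decide +kernel) (q_cons (Vale.Agent.P032.Lt.q R0Q000.q15_0) (q_cons (Vale.Agent.P032.Lt.q R0Q000.q15_1) (q_cons (Vale.Agent.P032.Lt.q R0Q000.q15_2) (q_cons (Vale.Agent.P032.Lt.q R0Q000.q15_3) (q_cons (Vale.Agent.P032.Lt.q R0Q000.q15_4) (q_cons (Vale.Agent.P032.Lt.q R0Q000.q15_5) (q_cons (Vale.Agent.P032.Lt.q R0Q000.q15_6) q_nil))))))))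

def C16 : List ℕ := [0, 4, 8, 12, 16, 20, 24, 81921, 212993, 344065, 345089, 476161, 607233, 738305, 9169898395654, 19595810266122, 23184868989962, 24285990050826]
theorem p16 : Pat 73 73 TBm TCm (C16.map Fm) R0Q000.P16 R0Q000.I16 := Vale.Agent.P032.Lt.pat_eq (E' := R0Q000.E16) (by decide +kernel) (pat_step (by decide +kernel) (q_cons (Vale.Agent.P032.Lt.q R0Q000.q16_0) q_nil))

def C17 : List ℕ := [0, 4, 8, 12, 16, 20, 24, 84993, 216065, 347137, 9167088870418, 17842660662282]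
theorem p17 : Pat 73 73 TBm TCm (C17.map Fm) R0Q000.P17 R0Q000.I17 := Vale.Agent.P032.Lt.pat_eq (E' := R0Q000.E17) (by decide +kernel) (pat_step (by decide +kernel) (q_cons (Vale.Agent.P032.Lt.q R0Q000.q17_0) (q_cons (Vale.Agent.P032.Lt.q R0Q000.q17_1) (q_cons (Vale.Agent.P032.Lt.q R0Q000.q17_2) q_nil))))

def C18 : List ℕ := [0, 4, 8, 12, 16, 20, 24, 87041, 212993, 214017, 344065, 476161, 606209, 738305]
theorem p18 : Pat 73 73 TBm TCm (C18.map Fm) R0Q001.P18 R0Q001.I18 := Vale.Agent.P032.Lt.pat_eq (E' := R0Q001.E18) (by decide +kernel) (pat_step (by decide +kernel) (q_cons (Vale.Agent.P032.Lt.q R0Q001.q18_0) (q_cons (Vale.Agent.P032.Lt.q R0Q001.q18_1) (q_cons (Vale.Agent.P032.Lt.q R0Q001.q18_2) (q_cons (Vale.Agent.P032.Lt.q R0Q001.q18_3) (q_cons (Vale.Agent.P032.Lt.q R0Q001.q18_4) (q_cons (Vale.Agent.P032.Lt.q R0Q001.q18_5) (q_cons (Vale.Agent.P032.Lt.q R0Q001.q18_6) (q_cons (Vale.Agent.P032.Lt.q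 R0Q001.q18_7) (q_cons (Vale.Agent.P032.Lt.q R0Q001.q18_8) (q_cons (Vale.Agent.P032.Lt.q R0Q001.q18_9) (q_cons (Vale.Agent.P032.Lt.q R0Q001.q18_10) (q_cons (Vale.Agent.P032.Lt.q R0Q001.q18_11) (q_cons (Vale.Agent.P032.Lt.q R0Q001.q18_12) (q_cons (Vale.Agent.P032.Lt.q R0Q001.q18_13) (q_cons (Vale.Agent.P032.Lt.q R0Q001.q18_14) (q_cons (Vale.Agent.P032.Lt.q R0Q001.q18_15) (q_cons (Vale.Agent.P032.Lt.q R0Q001.q18_16) (q_cons (Vale.Agent.P032.Lt.q R0Q001.q18_17) (q_cons (Vale.Agent.P032.Lt.q R0Q001.q18_18) (q_cons (Vale.Agent.P032.Lt.q R0Q001.q18_19) (q_cons (Vale.Agent.P032.Lt.q R0Q001.q18_20) (q_cons (Vale.Agent.P032.Lt.q R0Q001.q18_21) (q_cons (Vale.Agent.P032.Lt.q R0Q001.q18_22) (q_cons (Vale.Agent.P032.Lt.q R0Q001.q18_23) (q_cons (Vale.Agent.P032.Lt.q R0Q001.q18_24) (q_cons (Vale.Agent.P032.Lt.q R0Q001.q18_25) (q_cons (Vale.Agent.P032.Lt.q R0Q001.q18_26) (q_cons (Vale.Agent.P032.Lt.q R0Q001.q18_27)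 (q_cons (Vale.Agent.P032.Lt.q R0Q001.q18_28) (q_cons (Vale.Agent.P032.Lt.q R0Q001.q18_29) (q_cons (Vale.Agent.P032.Lt.q R0Q001.q18_30) (q_cons (Vale.Agent.P032.Lt.q R0Q001.q18_31) (q_cons (Vale.Agent.P032.Lt.q R0Q001.q18_32) (q_cons (Vale.Agent.P032.Lt.q R0Q001.q18_33) (q_cons (Vale.Agent.P032.Lt.q R0Q001.q18_34) (q_cons (Vale.Agent.P032.Lt.q R0Q001.q18_35) (q_cons (Vale.Agent.P032.Lt.q R0Q001.q18_36) (q_cons (Vale.Agent.P032.Lt.q R0Q001.q18_37) (q_cons (Vale.Agent.P032.Lt.q R0Q001.q18_38) (q_cons (Vale.Agent.P032.Lt.q R0Q001.q18_39) (q_cons (Vale.Agent.P032.Lt.q R0Q001.q18_40) (q_cons (Vale.Agent.P032.Lt.q R0Q001.q18_41) (q_cons (Vale.Agent.P032.Lt.q R0Q001.q18_42) (q_cons (Vale.Agent.P032.Lt.q R0Q001.q18_43) (q_cons (Vale.Agent.P032.Lt.q R0Q001.q18_44) (q_cons (Vale.Agent.P032.Lt.q R0Q001.q18_45) (q_cons (Vale.Agent.P032.Lt.q R0Q001.q18_46) (q_cons (Vale.Agent.P032.Lt.q R0Q001.q18_47) (q_cons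 (Vale.Agent.P032.Lt.q R0Q001.q18_48) (q_cons (Vale.Agent.P032.Lt.q R0Q001.q18_49) (q_cons (Vale.Agent.P032.Lt.q R0Q001.q18_50) (q_cons (Vale.Agent.P032.Lt.q R0Q001.q18_51) (q_cons (Vale.Agent.P032.Lt.q R0Q001.q18_52) (q_cons (Vale.Agent.P032.Lt.q R0Q001.q18_53) (q_cons (Vale.Agent.P032.Lt.q R0Q001.q18_54) (q_cons (Vale.Agent.P032.Lt.q R0Q001.q18_55) (q_cons (Vale.Agent.P032.Lt.q R0Q001.q18_56) (q_cons (Vale.Agent.P032.Lt.q R0Q001.q18_57) (q_cons (Vale.Agent.P032.Lt.q R0Q001.q18_58) (q_cons (Vale.Agent.P032.Lt.q R0Q001.q18_59) (q_cons (Vale.Agent.P032.Lt.q R0Q001.q18_60) (q_cons (Vale.Agent.P032.Lt.q R0Q001.q18_61) (q_cons (Vale.Agent.P032.Lt.q R0Q001.q18_62) (q_cons (Vale.Agent.P032.Lt.q R0Q001.q18_63) (q_cons (Vale.Agent.P032.Lt.q R0Q001.q18_64) (q_cons (Vale.Agent.P032.Lt.q R0Q001.q18_65) (q_cons (Vale.Agent.P032.Lt.q R0Q001.q18_66) (q_cons (Vale.Agent.P032.Lt.q R0Q001.q18_67) (q_cons (Vale.Agent.P032.Lt.q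 R0Q001.q18_68) (q_cons (Vale.Agent.P032.Lt.q R0Q001.q18_69) (q_cons (Vale.Agent.P032.Lt.q R0Q001.q18_70) (q_cons (Vale.Agent.P032.Lt.q R0Q001.q18_71) (q_cons (Vale.Agent.P032.Lt.q R0Q001.q18_72) (q_cons (Vale.Agent.P032.Lt.q R0Q001.q18_73) q_nil)))))))))))))))))))))))))))))))))))))))))))))))))))))))))))))))))))))))))))

def C19 : List ℕ := [0, 4, 8, 12, 16, 20, 24, 84993, 87041, 347137, 478209, 480257, 607233, 609281, 740353, 9102351623186, 13491746597914, 14646382914586, 19044385645586, 19392889840658, 19593916804122]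
theorem p19 : Pat 73 73 TBm TCm (C19.map Fm) R0Q001.P19 R0Q001.I19 := Vale.Agent.P032.Lt.pat_eq (E' := R0Q001.E19) (by decide +kernel) (pat_step (by decide +kernel) (q_cons (Vale.Agent.P032.Lt.q R0Q001.q19_0) (q_cons (Vale.Agent.P032.Lt.q R0Q001.q19_1) (q_cons (Vale.Agent.P032.Lt.q R0Q001.q19_2) q_nil))))

theorem p20 : Pat 73 73 TBm TCm (CB.map Fm) R0Q001.P20 R0Q001.I20 := Vale.Agent.P032.Lt.pat_eq (E' := R0Q001.E) eB (pat_step (by decide +kernel) (q_cons (Vale.Agent.P032.Lt.q R0Q001.q20_0) (q_cons (Vale.Agent.P032.Lt.q R0Q001.q20_1) (q_cons (Vale.Agent.P032.Lt.q R0Q001.q20_2) q_nil))))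

theorem p21 : Pat 73 73 TBm TCm (CB.map Fm) R0Q001.P21 R0Q001.I21 := Vale.Agent.P032.Lt.pat_eq (E' := R0Q001.E) eB (pat_step (by decide +kernel) (q_cons (Vale.Agent.P032.Lt.q R0Q001.q21_0) (q_cons (Vale.Agent.P032.Lt.q R0Q001.q21_1) (q_cons (Vale.Agent.P032.Lt.q R0Q001.q21_2) (q_cons (Vale.Agent.P032.Lt.q R0Q001.q21_3) (q_cons (Vale.Agent.P032.Lt.q R0Q001.q21_4) (q_cons (Vale.Agent.P032.Lt.q R0Q001.q21_5) q_nil)))))))

def C22 : List ℕ := [0, 4, 8, 12, 16, 20, 24, 212993, 223233, 344065, 354305, 485377, 9595513559046, 14124078157870]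
theorem p22 : Pat 73 73 TBm TCm (C22.map Fm) R0Q001.P22 R0Q001.I22 := Vale.Agent.P032.Lt.pat_eq (E' := R0Q001.E22) (by decide +kernel) (pat_step (by decide +kernel) (q_cons (Vale.Agent.P032.Lt.q R0Q001.q22_0) (q_cons (Vale.Agent.P032.Lt.q R0Q001.q22_1) (q_cons (Vale.Agent.P032.Lt.q R0Q001.q22_2) (q_cons (Vale.Agent.P032.Lt.q R0Q001.q22_3) (q_cons (Vale.Agent.P032.Lt.q R0Q001.q22_4) q_nil))))))

def C23 : List ℕ := [0, 4, 8, 12, 16, 20, 24, 84993, 214017, 347137, 478209, 606209, 609281, 737281, 9049744827410, 9169987134482, 9599275981834, 14577830028306, 14582526469138, 18911912223762, 19044295207962, 24278404519942]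
theorem p23 : Pat 73 73 TBm TCm (C23.map Fm) R0Q001.P23 R0Q001.I23 := Vale.Agent.P032.Lt.pat_eq (E' := R0Q001.E23) (by decide +kernel) (pat_step (by decide +kernel) (q_cons (Vale.Agent.P032.Lt.q R0Q001.q23_0) (q_cons (Vale.Agent.P032.Lt.q R0Q001.q23_1) q_nil)))

theorem p24 : Pat 73 73 TBm TCm (CB.map Fm) R0Q001.P24 R0Q001.I24 := Vale.Agent.P032.Lt.pat_eq (E' := R0Q001.E) eB (pat_step (by decide +kernel) (q_cons (Vale.Agent.P032.Lt.q R0Q001.q24_0) (q_cons (Vale.Agent.P032.Lt.q R0Q001.q24_1) (q_cons (Vale.Agent.P032.Lt.q R0Q001.q24_2) (q_cons (Vale.Agent.P032.Lt.q R0Q001.q24_3) (q_cons (Vale.Agent.P032.Lt.q R0Q001.q24_4) (q_cons (Vale.Agent.P032.Lt.q R0Q001.q24_5) (q_cons (Vale.Agent.P032.Lt.q R0Q001.q24_6) (q_cons (Vale.Agent.P032.Lt.q R0Q001.q24_7) (q_cons (Vale.Agent.P032.Lt.q R0Q001.q24_8) (q_cons (Vale.Agent.P032.Lt.q R0Q001.q24_9) (q_cons (Vale.Agent.P032.Lt.q R0Q001.q24_10) q_nil))))))))))))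

theorem p25 : Pat 73 73 TBm TCm (CB.map Fm) R0Q001.P25 R0Q001.I25 := Vale.Agent.P032.Lt.pat_eq (E' := R0Q001.E) eB (pat_step (by decide +kernel) (q_cons (Vale.Agent.P032.Lt.q R0Q001.q25_0) (q_cons (Vale.Agent.P032.Lt.q R0Q001.q25_1) (q_cons (Vale.Agent.P032.Lt.q R0Q001.q25_2) (q_cons (Vale.Agent.P032.Lt.q R0Q001.q25_3) (q_cons (Vale.Agent.P032.Lt.q R0Q001.q25_4) (q_cons (Vale.Agent.P032.Lt.q R0Q001.q25_5) (q_cons (Vale.Agent.P032.Lt.q R0Q001.q25_6) (q_cons (Vale.Agent.P032.Lt.q R0Q001.q25_7) (q_cons (Vale.Agent.P032.Lt.q R0Q001.q25_8) (q_cons (Vale.Agent.P032.Lt.q R0Q001.q25_9) (q_cons (Vale.Agent.P032.Lt.q R0Q001.q25_10) (q_cons (Vale.Agent.P032.Lt.q R0Q001.q25_11) (q_cons (Vale.Agent.P032.Lt.q R0Q001.q25_12) q_nil))))))))))))))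

def C26 : List ℕ := [0, 4, 8, 12, 16, 20, 24, 214017, 345089, 475137, 607233, 738305, 9719602174986, 14405874309126, 14577899493382, 19353401776134, 19355281479686, 19355289868294, 22767624739850, 23188560894986, 24284045335562]
theorem p26 : Pat 73 73 TBm TCm (C26.map Fm) R0Q001.P26 R0Q001.I26 := Vale.Agent.P032.Lt.pat_eq (E' := R0Q001.E26) (by decide +kernel) (pat_step (by decide +kernel) (q_cons (Vale.Agent.P032.Lt.q R0Q001.q26_0) (q_cons (Vale.Agent.P032.Lt.q R0Q001.q26_1) q_nil)))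

def C27 : List ℕ := [0, 4, 8, 12, 16, 20, 24, 82945, 84993, 348161, 479233, 610305, 741377]
theorem p27 : Pat 73 73 TBm TCm (C27.map Fm) R0Q001.P27 R0Q001.I27 := Vale.Agent.P032.Lt.pat_eq (E' := R0Q001.E27) (by decide +kernel) (pat_step (by decide +kernel) (q_cons (Vale.Agent.P032.Lt.q R0Q001.q27_0) (q_cons (Vale.Agent.P032.Lt.q R0Q001.q27_1) (q_cons (Vale.Agent.P032.Lt.q R0Q001.q27_2) (q_cons (Vale.Agent.P032.Lt.q R0Q001.q27_3) q_nil)))))

theorem p28 : Pat 73 73 TBm TCm (CB.map Fm) R0Q001.P28 R0Q001.I28 := Vale.Agent.P032.Lt.pat_eq (E' := R0Q001.E) eB (pat_step (by decide +kernel) (q_cons (Vale.Agent.P032.Lt.q R0Q001.q28_0) (q_cons (Vale.Agent.P032.Lt.q R0Q001.q28_1) q_nil)))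

def C29 : List ℕ := [0, 4, 8, 12, 16, 20, 24, 93185, 344065, 486401, 606209, 748545, 22157940446258, 22782721872946, 23925204145202]
theorem p29 : Pat 73 73 TBm TCm (C29.map Fm) R0Q001.P29 R0Q001.I29 := Vale.Agent.P032.Lt.pat_eq (E' := R0Q001.E29) (by decide +kernel) (pat_step (by decide +kernel) (q_cons (Vale.Agent.P032.Lt.q R0Q001.q29_0) q_nil))

def C30 : List ℕ := [0, 4, 8, 12, 16, 20, 24, 87041, 89089, 611329, 742401, 9177521144866, 14124023237674, 17757255592986, 22157985279002, 22285731972130, 23391507933206]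
theorem p30 : Pat 73 73 TBm TCm (C30.map Fm) R0Q001.P30 R0Q001.I30 := Vale.Agent.P032.Lt.pat_eq (E' := R0Q001.E30) (by decide +kernel) (pat_step (by decide +kernel) (q_cons (Vale.Agent.P032.Lt.q R0Q001.q30_0) q_nil))

def C31 : List ℕ := [0, 4, 8, 12, 16, 20, 24, 87041, 349185, 475137, 611329, 737281, 9724212243482, 17963903577114]
theorem p31 : Pat 73 73 TBm TCm (C31.map Fm) R0Q001.P31 R0Q001.I31 := Vale.Agent.P032.Lt.pat_eq (E' := R0Q001.E31) (by decide +kernel) (pat_step (by decide +kernel) (q_cons (Vale.Agent.P032.Lt.q R0Q001.q31_0) (q_cons (Vale.Agent.P032.Lt.q R0Q001.q31_1) q_nil)))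

theorem p32 : Pat 73 73 TBm TCm (CB.map Fm) R0Q001.P32 R0Q001.I32 := Vale.Agent.P032.Lt.pat_eq (E' := R0Q001.E) eB (pat_step (by decide +kernel) (q_cons (Vale.Agent.P032.Lt.q R0Q001.q32_0) (q_cons (Vale.Agent.P032.Lt.q R0Q001.q32_1) (q_cons (Vale.Agent.P032.Lt.q R0Q001.q32_2) (q_cons (Vale.Agent.P032.Lt.q R0Q001.q32_3) (q_cons (Vale.Agent.P032.Lt.q R0Q001.q32_4) (q_cons (Vale.Agent.P032.Lt.q R0Q001.q32_5) (q_cons (Vale.Agent.P032.Lt.q R0Q001.q32_6) (q_cons (Vale.Agent.P032.Lt.q R0Q001.q32_7) (q_cons (Vale.Agent.P032.Lt.q R0Q001.q32_8) (q_cons (Vale.Agent.P032.Lt.q R0Q001.q32_9) (q_cons (Vale.Agent.P032.Lt.q R0Q001.q32_10) (q_cons (Vale.Agent.P032.Lt.q R0Q001.q32_11) (q_cons (Vale.Agent.P032.Lt.q R0Q001.q32_12) q_nil))))))))))))))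

def C33 : List ℕ := [0, 4, 8, 12, 16, 20, 24, 82945, 89089, 218113, 9169891705890, 13376227859466, 17962898775050, 22780803771418]
theorem p33 : Pat 73 73 TBm TCm (C33.map Fm) R0Q002.P33 R0Q002.I33 := Vale.Agent.P032.Lt.pat_eq (E' := R0Q002.E33) (by decide +kernel) (pat_step (by decide +kernel) (q_cons (Vale.Agent.P032.Lt.q R0Q002.q33_0) (q_cons (Vale.Agent.P032.Lt.q R0Q002.q33_1) (q_cons (Vale.Agent.P032.Lt.q R0Q002.q33_2) (q_cons (Vale.Agent.P032.Lt.q R0Q002.q33_3) (q_cons (Vale.Agent.P032.Lt.q R0Q002.q33_4) (q_cons (Vale.Agent.P032.Lt.q R0Q002.q33_5) (q_cons (Vale.Agent.P032.Lt.q R0Q002.q33_6) (q_cons (Vale.Agent.P032.Lt.q R0Q002.q33_7) (q_cons (Vale.Agent.P032.Lt.q R0Q002.q33_8) (q_cons (Vale.Agent.P032.Lt.q R0Q002.q33_9) (q_cons (Vale.Agent.P032.Lt.q R0Q002.q33_10) (q_cons (Vale.Agent.P032.Lt.q R0Q002.q33_11) (q_cons (Vale.Agent.P032.Lt.q R0Q002.q33_12) (q_cons (Vale.Agent.P032.Lt.q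 R0Q002.q33_13) q_nil)))))))))))))))

def C34 : List ℕ := [0, 4, 8, 12, 16, 20, 24, 91137, 222209, 615425, 13921152097290, 14036672922658, 14409712489522, 18503143214122]
theorem p34 : Pat 73 73 TBm TCm (C34.map Fm) R0Q002.P34 R0Q002.I34 := Vale.Agent.P032.Lt.pat_eq (E' := R0Q002.E34) (by decide +kernel) (pat_step (by decide +kernel) (q_cons (Vale.Agent.P032.Lt.q R0Q002.q34_0) (q_cons (Vale.Agent.P032.Lt.q R0Q002.q34_1) (q_cons (Vale.Agent.P032.Lt.q R0Q002.q34_2) (q_cons (Vale.Agent.P032.Lt.q R0Q002.q34_3) (q_cons (Vale.Agent.P032.Lt.q R0Q002.q34_4) (q_cons (Vale.Agent.P032.Lt.q R0Q002.q34_5) (q_cons (Vale.Agent.P032.Lt.q R0Q002.q34_6) (q_cons (Vale.Agent.P032.Lt.q R0Q002.q34_7) (q_cons (Vale.Agent.P032.Lt.q R0Q002.q34_8) (q_cons (Vale.Agent.P032.Lt.q R0Q002.q34_9) (q_cons (Vale.Agent.P032.Lt.q R0Q002.q34_10) (q_cons (Vale.Agent.P032.Lt.q R0Q002.q34_11) q_nil)))))))))))))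

def C35 : List ℕ := [0, 4, 8, 12, 16, 20, 24, 82945, 221185, 347137, 737281, 4704439458826, 9719578708006, 13556561959946, 13556629068810, 14611683566610, 24278404519942]
theorem p35 : Pat 73 73 TBm TCm (C35.map Fm) R0Q002.P35 R0Q002.I35 := Vale.Agent.P032.Lt.pat_eq (E' := R0Q002.E35) (by decide +kernel) (pat_step (by decide +kernel) (q_cons (Vale.Agent.P032.Lt.q R0Q002.q35_0) (q_cons (Vale.Agent.P032.Lt.q R0Q002.q35_1) (q_cons (Vale.Agent.P032.Lt.q R0Q002.q35_2) (q_cons (Vale.Agent.P032.Lt.q R0Q002.q35_3) (q_cons (Vale.Agent.P032.Lt.q R0Q002.q35_4) q_nil))))))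

def C36 : List ℕ := [0, 4, 8, 12, 16, 20, 24, 84993, 214017, 216065, 349185, 607233, 609281, 4641480465418, 4649953485842, 9666901009426, 9715756526618, 17843690365970, 18325575785482, 18325665965074]
theorem p36 : Pat 73 73 TBm TCm (C36.map Fm) R0Q002.P36 R0Q002.I36 := Vale.Agent.P032.Lt.pat_eq (E' := R0Q002.E36) (by decide +kernel) (pat_step (by decide +kernel) (q_cons (Vale.Agent.P032.Lt.q R0Q002.q36_0) q_nil))

theorem p37 : Pat 73 73 TBm TCm (CB.map Fm) R0Q002.P37 R0Q002.I37 := Vale.Agent.P032.Lt.pat_eq (E' := R0Q002.E) eB (pat_step (by decide +kernel) (q_cons (Vale.Agent.P032.Lt.q R0Q002.q37_0) (q_cons (Vale.Agent.P032.Lt.q R0Q002.q37_1) (q_cons (Vale.Agent.P032.Lt.q R0Q002.q37_2) (q_cons (Vale.Agent.P032.Lt.q R0Q002.q37_3) (q_cons (Vale.Agent.P032.Lt.q R0Q002.q37_4) (q_cons (Vale.Agent.P032.Lt.q R0Q002.q37_5) (q_cons (Vale.Agent.P032.Lt.q R0Q002.q37_6) (q_cons (Vale.Agent.P032.Lt.q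 R0Q002.q37_7) (q_cons (Vale.Agent.P032.Lt.q R0Q002.q37_8) (q_cons (Vale.Agent.P032.Lt.q R0Q002.q37_9) (q_cons (Vale.Agent.P032.Lt.q R0Q002.q37_10) (q_cons (Vale.Agent.P032.Lt.q R0Q002.q37_11) (q_cons (Vale.Agent.P032.Lt.q R0Q002.q37_12) (q_cons (Vale.Agent.P032.Lt.q R0Q002.q37_13) (q_cons (Vale.Agent.P032.Lt.q R0Q002.q37_14) (q_cons (Vale.Agent.P032.Lt.q R0Q002.q37_15) (q_cons (Vale.Agent.P032.Lt.q R0Q002.q37_16) (q_cons (Vale.Agent.P032.Lt.q R0Q002.q37_17) (q_cons (Vale.Agent.P032.Lt.q R0Q002.q37_18) (q_cons (Vale.Agent.P032.Lt.q R0Q002.q37_19) (q_cons (Vale.Agent.P032.Lt.q R0Q002.q37_20) (q_cons (Vale.Agent.P032.Lt.q R0Q002.q37_21) (q_cons (Vale.Agent.P032.Lt.q R0Q002.q37_22) (q_cons (Vale.Agent.P032.Lt.q R0Q002.q37_23) (q_cons (Vale.Agent.P032.Lt.q R0Q002.q37_24) (q_cons (Vale.Agent.P032.Lt.q R0Q002.q37_25) q_nil)))))))))))))))))))))))))))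

def C38 : List ℕ := [0, 4, 8, 12, 16, 20, 24, 81921, 89089, 212993, 220161, 351233, 482305, 606209, 738305, 4644307032070, 4644311226374, 4704419796998, 9587048006690, 9591811949602, 9647211103266, 13371457356834, 13916437955618, 23188596546570, 23188625906698, 23729695317002]
theorem p38 : Pat 73 73 TBm TCm (C38.map Fm) R0Q002.P38 R0Q002.I38 := Vale.Agent.P032.Lt.pat_eq (E' := R0Q002.E38) (by decide +kernel) (pat_step (by decide +kernel) (q_cons (Vale.Agent.P032.Lt.q R0Q002.q38_0) (q_cons (Vale.Agent.P032.Lt.q R0Q002.q38_1) (q_cons (Vale.Agent.P032.Lt.q R0Q002.q38_2) (q_cons (Vale.Agent.P032.Lt.q R0Q002.q38_3) (q_cons (Vale.Agent.P032.Lt.q R0Q002.q38_4) (q_cons (Vale.Agent.P032.Lt.q R0Q002.q38_5) (q_cons (Vale.Agent.P032.Lt.q R0Q002.q38_6) (q_cons (Vale.Agent.P032.Lt.q R0Q002.q38_7) (q_cons (Vale.Agent.P032.Lt.q R0Q002.q38_8) (q_cons (Vale.Agent.P032.Lt.q R0Q002.q38_9) (q_cons (Vale.Agent.P032.Lt.q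 R0Q002.q38_10) (q_cons (Vale.Agent.P032.Lt.q R0Q002.q38_11) (q_cons (Vale.Agent.P032.Lt.q R0Q002.q38_12) (q_cons (Vale.Agent.P032.Lt.q R0Q002.q38_13) (q_cons (Vale.Agent.P032.Lt.q R0Q002.q38_14) (q_cons (Vale.Agent.P032.Lt.q R0Q002.q38_15) (q_cons (Vale.Agent.P032.Lt.q R0Q002.q38_16) (q_cons (Vale.Agent.P032.Lt.q R0Q002.q38_17) (q_cons (Vale.Agent.P032.Lt.q R0Q002.q38_18) q_nil))))))))))))))))))))

def C39 : List ℕ := [0, 4, 8, 12, 16, 20, 24, 89089, 606209, 737281, 24338546644998, 24338613753862, 24338622142470]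
theorem p39 : Pat 73 73 TBm TCm (C39.map Fm) R0Q002.P39 R0Q002.I39 := Vale.Agent.P032.Lt.pat_eq (E' := R0Q002.E39) (by decide +kernel) (pat_step (by decide +kernel) (q_cons (Vale.Agent.P032.Lt.q R0Q002.q39_0) (q_cons (Vale.Agent.P032.Lt.q R0Q002.q39_1) (q_cons (Vale.Agent.P032.Lt.q R0Q002.q39_2) (q_cons (Vale.Agent.P032.Lt.q R0Q002.q39_3) (q_cons (Vale.Agent.P032.Lt.q R0Q002.q39_4) (q_cons (Vale.Agent.P032.Lt.q R0Q002.q39_5) q_nil)))))))

def C40 : List ℕ := [0, 4, 8, 12, 16, 20, 24, 87041, 212993, 214017, 216065, 349185, 475137, 611329, 737281, 9599301411858, 13928603016202, 14671746133018, 14671830019098, 17963840662554, 23811526449158, 23811526711302, 23812465186822, 23812465580038, 23812467283974]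
theorem p40 : Pat 73 73 TBm TCm (C40.map Fm) R0Q002.P40 R0Q002.I40 := Vale.Agent.P032.Lt.pat_eq (E' := R0Q002.E40) (by decide +kernel) (pat_step (by decide +kernel) (q_cons (Vale.Agent.P032.Lt.q R0Q002.q40_0) (q_cons (Vale.Agent.P032.Lt.q R0Q002.q40_1) (q_cons (Vale.Agent.P032.Lt.q R0Q002.q40_2) q_nil))))

def C41 : List ℕ := [0, 4, 8, 12, 16, 20, 24, 214017, 344065, 476161, 606209, 738305, 18806599931910, 22840905522186, 23923304389642]
theorem p41 : Pat 73 73 TBm TCm (C41.map Fm) R0Q002.P41 R0Q002.I41 := Vale.Agent.P032.Lt.pat_eq (E' := R0Q002.E41) (by decide +kernel) (pat_step (by decide +kernel) (q_cons (Vale.Agent.P032.Lt.q R0Q002.q41_0) q_nil))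

def C42 : List ℕ := [0, 4, 8, 12, 16, 20, 24, 84993, 91137, 347137, 475137, 606209, 737281, 9046813008914, 24278467434502, 24338546644998, 24338613753862]
theorem p42 : Pat 73 73 TBm TCm (C42.map Fm) R0Q002.P42 R0Q002.I42 := Vale.Agent.P032.Lt.pat_eq (E' := R0Q002.E42) (by decide +kernel) (pat_step (by decide +kernel) (q_cons (Vale.Agent.P032.Lt.q R0Q002.q42_0) (q_cons (Vale.Agent.P032.Lt.q R0Q002.q42_1) (q_cons (Vale.Agent.P032.Lt.q R0Q002.q42_2) (q_cons (Vale.Agent.P032.Lt.q R0Q002.q42_3) (q_cons (Vale.Agent.P032.Lt.q R0Q002.q42_4) (q_cons (Vale.Agent.P032.Lt.q R0Q002.q42_5) (q_cons (Vale.Agent.P032.Lt.q R0Q002.q42_6) (q_cons (Vale.Agent.P032.Lt.q R0Q002.q42_7) q_nil)))))))))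

def C43 : List ℕ := [0, 4, 8, 12, 16, 20, 24, 606209, 737281]
theorem p43 : Pat 73 73 TBm TCm (C43.map Fm) R0Q002.P43 R0Q002.I43 := Vale.Agent.P032.Lt.pat_eq (E' := R0Q002.E43) (by decide +kernel) (pat_step (by decide +kernel) (q_cons (Vale.Agent.P032.Lt.q R0Q002.q43_0) (q_cons (Vale.Agent.P032.Lt.q R0Q002.q43_1) (q_cons (Vale.Agent.P032.Lt.q R0Q002.q43_2) (q_cons (Vale.Agent.P032.Lt.q R0Q002.q43_3) (q_cons (Vale.Agent.P032.Lt.q R0Q002.q43_4) (q_cons (Vale.Agent.P032.Lt.q R0Q002.q43_5) (q_cons (Vale.Agent.P032.Lt.q R0Q002.q43_6) (q_cons (Vale.Agent.P032.Lt.q R0Q002.q43_7) q_nil)))))))))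

theorem p44 : Pat 73 73 TBm TCm (CB.map Fm) R0Q002.P44 R0Q002.I44 := Vale.Agent.P032.Lt.pat_eq (E' := R0Q002.E) eB (pat_step (by decide +kernel) (q_cons (Vale.Agent.P032.Lt.q R0Q002.q44_0) (q_cons (Vale.Agent.P032.Lt.q R0Q002.q44_1) (q_cons (Vale.Agent.P032.Lt.q R0Q002.q44_2) (q_cons (Vale.Agent.P032.Lt.q R0Q002.q44_3) (q_cons (Vale.Agent.P032.Lt.q R0Q002.q44_4) (q_cons (Vale.Agent.P032.Lt.q R0Q002.q44_5) (q_cons (Vale.Agent.P032.Lt.q R0Q002.q44_6) (q_cons (Vale.Agent.P032.Lt.q R0Q002.q44_7) (q_cons (Vale.Agent.P032.Lt.q R0Q002.q44_8) (q_cons (Vale.Agent.P032.Lt.q R0Q002.q44_9) (q_cons (Vale.Agent.P032.Lt.q R0Q002.q44_10) (q_cons (Vale.Agent.P032.Lt.q R0Q002.q44_11) q_nil)))))))))))))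

theorem p45 : Pat 73 73 TBm TCm (CB.map Fm) R0Q002.P45 R0Q002.I45 := Vale.Agent.P032.Lt.pat_eq (E' := R0Q002.E) eB (pat_step (by decide +kernel) (q_cons (Vale.Agent.P032.Lt.q R0Q002.q45_0) (q_cons (Vale.Agent.P032.Lt.q R0Q002.q45_1) (q_cons (Vale.Agent.P032.Lt.q R0Q002.q45_2) (q_cons (Vale.Agent.P032.Lt.q R0Q002.q45_3) (q_cons (Vale.Agent.P032.Lt.q R0Q002.q45_4) (q_cons (Vale.Agent.P032.Lt.q R0Q002.q45_5) (q_cons (Vale.Agent.P032.Lt.q R0Q002.q45_6) q_nil))))))))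

def C46 : List ℕ := [0, 4, 8, 12, 16, 20, 24, 214017, 347137, 349185, 606209, 607233, 609281, 737281, 4651742092298, 4771980205066, 9102290021402, 9599366161426, 19044295207962, 19595886289938, 24275583457286]
theorem p46 : Pat 73 73 TBm TCm (C46.map Fm) R0Q002.P46 R0Q002.I46 := Vale.Agent.P032.Lt.pat_eq (E' := R0Q002.E46) (by decide +kernel) (pat_step (by decide +kernel) (q_cons (Vale.Agent.P032.Lt.q R0Q002.q46_0) (q_cons (Vale.Agent.P032.Lt.q R0Q002.q46_1) (q_cons (Vale.Agent.P032.Lt.q R0Q002.q46_2) q_nil))))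

theorem p47 : Pat 73 73 TBm TCm (CB.map Fm) R0Q002.P47 R0Q002.I47 := Vale.Agent.P032.Lt.pat_eq (E' := R0Q002.E) eB (pat_step (by decide +kernel) (q_cons (Vale.Agent.P032.Lt.q R0Q002.q47_0) (q_cons (Vale.Agent.P032.Lt.q R0Q002.q47_1) (q_cons (Vale.Agent.P032.Lt.q R0Q002.q47_2) (q_cons (Vale.Agent.P032.Lt.q R0Q002.q47_3) (q_cons (Vale.Agent.P032.Lt.q R0Q002.q47_4) (q_cons (Vale.Agent.P032.Lt.q R0Q002.q47_5) (q_cons (Vale.Agent.P032.Lt.q R0Q002.q47_6) (q_cons (Vale.Agent.P032.Lt.q R0Q002.q47_7) (q_cons (Vale.Agent.P032.Lt.q R0Q002.q47_8) (q_cons (Vale.Agent.P032.Lt.q R0Q002.q47_9) (q_cons (Vale.Agent.P032.Lt.q R0Q002.q47_10) (q_cons (Vale.Agent.P032.Lt.q R0Q002.q47_11) (q_cons (Vale.Agent.P032.Lt.q R0Q002.q47_12) (q_cons (Vale.Agent.P032.Lt.q R0Q002.q47_13) q_nil)))))))))))))))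

theorem p48 : Pat 73 73 TBm TCm (CB.map Fm) R0Q003.P48 R0Q003.I48 := Vale.Agent.P032.Lt.pat_eq (E' := R0Q003.E) eB (pat_step (by decide +kernel) (q_cons (Vale.Agent.P032.Lt.q R0Q003.q48_0) (q_cons (Vale.Agent.P032.Lt.q R0Q003.q48_1) (q_cons (Vale.Agent.P032.Lt.q R0Q003.q48_2) (q_cons (Vale.Agent.P032.Lt.q R0Q003.q48_3) (q_cons (Vale.Agent.P032.Lt.q R0Q003.q48_4) (q_cons (Vale.Agent.P032.Lt.q R0Q003.q48_5) (q_cons (Vale.Agent.P032.Lt.q R0Q003.q48_6) (q_cons (Vale.Agent.P032.Lt.q R0Q003.q48_7) (q_cons (Vale.Agent.P032.Lt.q R0Q003.q48_8) (q_cons (Vale.Agent.P032.Lt.q R0Q003.q48_9) (q_cons (Vale.Agent.P032.Lt.q R0Q003.q48_10) (q_cons (Vale.Agent.P032.Lt.q R0Q003.q48_11) (q_cons (Vale.Agent.P032.Lt.q R0Q003.q48_12) (q_cons (Vale.Agent.P032.Lt.q R0Q003.q48_13) (q_cons (Vale.Agent.P032.Lt.q R0Q003.q48_14) (q_cons (Vale.Agent.P032.Lt.q R0Q003.q48_15) (q_cons (Vale.Agent.P032.Lt.q R0Q003.q48_16) q_nil))))))))))))))))))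

def C49 : List ℕ := [0, 4, 8, 12, 16, 20, 24, 93185, 215041, 224257, 344065, 346113, 475137, 617473, 739329, 748545, 4701556926486, 9591770669070, 14577818753030, 22232162849842, 22782675080242, 22782690811918, 22782721217586, 24278464549938]
theorem p49 : Pat 73 73 TBm TCm (C49.map Fm) R0Q003.P49 R0Q003.I49 := Vale.Agent.P032.Lt.pat_eq (E' := R0Q003.E49) (by decide +kernel) (pat_step (by decide +kernel) (q_cons (Vale.Agent.P032.Lt.q R0Q003.q49_0) (q_cons (Vale.Agent.P032.Lt.q R0Q003.q49_1) q_nil)))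

def C50 : List ℕ := [0, 4, 8, 12, 16, 20, 24, 607233, 609281, 17821068125202, 18365990528018, 18370679757834, 19328121922578]
theorem p50 : Pat 73 73 TBm TCm (C50.map Fm) R0Q003.P50 R0Q003.I50 := Vale.Agent.P032.Lt.pat_eq (E' := R0Q003.E50) (by decide +kernel) (pat_step (by decide +kernel) (q_cons (Vale.Agent.P032.Lt.q R0Q003.q50_0) q_nil))

theorem p51 : Pat 73 73 TBm TCm (CB.map Fm) R0Q003.P51 R0Q003.I51 := Vale.Agent.P032.Lt.pat_eq (E' := R0Q003.E) eB (pat_step (by decide +kernel) (q_cons (Vale.Agent.P032.Lt.q R0Q003.q51_0) q_nil))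

def C52 : List ℕ := [0, 4, 8, 12, 16, 20, 24, 82945, 607233, 17962917387274, 22232093907978]
theorem p52 : Pat 73 73 TBm TCm (C52.map Fm) R0Q003.P52 R0Q003.I52 := Vale.Agent.P032.Lt.pat_eq (E' := R0Q003.E52) (by decide +kernel) (pat_step (by decide +kernel) (q_cons (Vale.Agent.P032.Lt.q R0Q003.q52_0) (q_cons (Vale.Agent.P032.Lt.q R0Q003.q52_1) (q_cons (Vale.Agent.P032.Lt.q R0Q003.q52_2) q_nil))))

def C53 : List ℕ := [0, 4, 8, 12, 16, 20, 24, 81921, 212993, 224257, 486401, 748545, 13921104783382, 22712278537266, 23811523171378, 24275625661490]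
theorem p53 : Pat 73 73 TBm TCm (C53.map Fm) R0Q003.P53 R0Q003.I53 := Vale.Agent.P032.Lt.pat_eq (E' := R0Q003.E53) (by decide +kernel) (pat_step (by decide +kernel) (q_cons (Vale.Agent.P032.Lt.q R0Q003.q53_0) q_nil))

def C54 : List ℕ := [0, 4, 8, 12, 16, 20, 24, 212993, 218113, 349185, 480257, 606209, 737281, 9102290021402, 14041437400090, 19044295207962, 24275583457286, 24275583719430, 24275585292294, 24275585554438, 24278402553862, 24278404519942]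
theorem p54 : Pat 73 73 TBm TCm (C54.map Fm) R0Q003.P54 R0Q003.I54 := Vale.Agent.P032.Lt.pat_eq (E' := R0Q003.E54) (by decide +kernel) (pat_step (by decide +kernel) (q_cons (Vale.Agent.P032.Lt.q R0Q003.q54_0) (q_cons (Vale.Agent.P032.Lt.q R0Q003.q54_1) (q_cons (Vale.Agent.P032.Lt.q R0Q003.q54_2) q_nil))))

def C55 : List ℕ := [0, 4, 8, 12, 16, 20, 24, 81921, 87041, 218113, 345089, 349185, 476161, 480257, 482305, 607233, 738305, 9599324482586, 13491816852506, 13574460359714, 14036737682458, 14041436351514, 19332753742858, 22763931258926, 23331433569290, 24413668858890]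
theorem p55 : Pat 73 73 TBm TCm (C55.map Fm) R0Q003.P55 R0Q003.I55 := Vale.Agent.P032.Lt.pat_eq (E' := R0Q003.E55) (by decide +kernel) (pat_step (by decide +kernel) (q_cons (Vale.Agent.P032.Lt.q R0Q003.q55_0) (q_cons (Vale.Agent.P032.Lt.q R0Q003.q55_1) (q_cons (Vale.Agent.P032.Lt.q R0Q003.q55_2) (q_cons (Vale.Agent.P032.Lt.q R0Q003.q55_3) (q_cons (Vale.Agent.P032.Lt.q R0Q003.q55_4) (q_cons (Vale.Agent.P032.Lt.q R0Q003.q55_5) (q_cons (Vale.Agent.P032.Lt.q R0Q003.q55_6) (q_cons (Vale.Agent.P032.Lt.q R0Q003.q55_7) (q_cons (Vale.Agent.P032.Lt.q R0Q003.q55_8) (q_cons (Vale.Agent.P032.Lt.q R0Q003.q55_9) q_nil)))))))))))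

def C56 : List ℕ := [0, 4, 8, 12, 16, 20, 24, 84993, 478209, 480257, 609281, 611329, 13491808199698, 13559445808146, 17821135234066, 17956418577426, 19594007241746, 19602462958610]
theorem p56 : Pat 73 73 TBm TCm (C56.map Fm) R0Q003.P56 R0Q003.I56 := Vale.Agent.P032.Lt.pat_eq (E' := R0Q003.E56) (by decide +kernel) (pat_step (by decide +kernel) (q_cons (Vale.Agent.P032.Lt.q R0Q003.q56_0) q_nil))

def C57 : List ℕ := [0, 4, 8, 12, 16, 20, 24, 214017, 216065, 9599322383378, 13928603016202, 13928695555090]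
theorem p57 : Pat 73 73 TBm TCm (C57.map Fm) R0Q003.P57 R0Q003.I57 := Vale.Agent.P032.Lt.pat_eq (E' := R0Q003.E57) (by decide +kernel) (pat_step (by decide +kernel) (q_cons (Vale.Agent.P032.Lt.q R0Q003.q57_0) q_nil))

def C58 : List ℕ := [0, 4, 8, 12, 16, 20, 24, 82945, 89089, 215041, 346113, 606209, 737281, 9170004952098, 9715756130318, 13556633263114, 17842660662282, 17963948655650, 19332806563846, 24278467434502, 24338546644998, 24338613753862, 24338622142470]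
theorem p58 : Pat 73 73 TBm TCm (C58.map Fm) R0Q003.P58 R0Q003.I58 := Vale.Agent.P032.Lt.pat_eq (E' := R0Q003.E58) (by decide +kernel) (pat_step (by decide +kernel) (q_cons (Vale.Agent.P032.Lt.q R0Q003.q58_0) (q_cons (Vale.Agent.P032.Lt.q R0Q003.q58_1) (q_cons (Vale.Agent.P032.Lt.q R0Q003.q58_2) q_nil))))

def C59 : List ℕ := [0, 4, 8, 12, 16, 20, 24, 613377, 17956321051682]
theorem p59 : Pat 73 73 TBm TCm (C59.map Fm) R0Q003.P59 R0Q003.I59 := Vale.Agent.P032.Lt.pat_eq (E' := R0Q003.E59) (by decide +kernel) (pat_step (by decide +kernel) (q_cons (Vale.Agent.P032.Lt.q R0Q003.q59_0) (q_cons (Vale.Agent.P032.Lt.q R0Q003.q59_1) (q_cons (Vale.Agent.P032.Lt.q R0Q003.q59_2) q_nil))))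

def C60 : List ℕ := [0, 4, 8, 12, 16, 20, 24, 89089, 91137, 93185, 353281, 475137, 484353, 613377, 615425, 617473, 737281, 9042189042722, 9046881422378, 9177521144866, 13556616219690, 17774083265586, 17817293247538, 18310525699106, 18806685258802]
theorem p60 : Pat 73 73 TBm TCm (C60.map Fm) R0Q003.P60 R0Q003.I60 := Vale.Agent.P032.Lt.pat_eq (E' := R0Q003.E60) (by decide +kernel) (pat_step (by decide +kernel) (q_cons (Vale.Agent.P032.Lt.q R0Q003.q60_0) q_nil))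

theorem p61 : Pat 73 73 TBm TCm (CB.map Fm) R0Q003.P61 R0Q003.I61 := Vale.Agent.P032.Lt.pat_eq (E' := R0Q003.E) eB (pat_step (by decide +kernel) (q_cons (Vale.Agent.P032.Lt.q R0Q003.q61_0) (q_cons (Vale.Agent.P032.Lt.q R0Q003.q61_1) (q_cons (Vale.Agent.P032.Lt.q R0Q003.q61_2) (q_cons (Vale.Agent.P032.Lt.q R0Q003.q61_3) (q_cons (Vale.Agent.P032.Lt.q R0Q003.q61_4) q_nil))))))

def C62 : List ℕ := [0, 4, 8, 12, 16, 20, 24, 212993, 220161, 475137, 737281]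
theorem p62 : Pat 73 73 TBm TCm (C62.map Fm) R0Q003.P62 R0Q003.I62 := Vale.Agent.P032.Lt.pat_eq (E' := R0Q003.E62) (by decide +kernel) (pat_step (by decide +kernel) (q_cons (Vale.Agent.P032.Lt.q R0Q003.q62_0) (q_cons (Vale.Agent.P032.Lt.q R0Q003.q62_1) (q_cons (Vale.Agent.P032.Lt.q R0Q003.q62_2) (q_cons (Vale.Agent.P032.Lt.q R0Q003.q62_3) q_nil)))))

def C63 : List ℕ := [0, 4, 8, 12, 16, 20, 24, 606209, 24278383548422, 24278391937030, 24338546644998, 24338555033606]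
theorem p63 : Pat 73 73 TBm TCm (C63.map Fm) R0Q003.P63 R0Q003.I63 := Vale.Agent.P032.Lt.pat_eq (E' := R0Q003.E63) (by decide +kernel) (pat_step (by decide +kernel) (q_cons (Vale.Agent.P032.Lt.q R0Q003.q63_0) (q_cons (Vale.Agent.P032.Lt.q R0Q003.q63_1) (q_cons (Vale.Agent.P032.Lt.q R0Q003.q63_2) (q_cons (Vale.Agent.P032.Lt.q R0Q003.q63_3) (q_cons (Vale.Agent.P032.Lt.q R0Q003.q63_4) q_nil))))))

def C64 : List ℕ := [0, 4, 8, 12, 16, 20, 24, 91137, 212993, 484353, 486401, 606209, 737281, 13487966213170, 14041337515050]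
theorem p64 : Pat 73 73 TBm TCm (C64.map Fm) R0Q003.P64 R0Q003.I64 := Vale.Agent.P032.Lt.pat_eq (E' := R0Q003.E64) (by decide +kernel) (pat_step (by decide +kernel) (q_cons (Vale.Agent.P032.Lt.q R0Q003.q64_0) q_nil))

def C65 : List ℕ := [0, 4, 8, 12, 16, 20, 24, 475137, 742401, 14582492256262, 23742926777370, 23923348958234, 23931695492122, 23931808738330, 24404322380826]
theorem p65 : Pat 73 73 TBm TCm (C65.map Fm) R0Q003.P65 R0Q003.I65 := Vale.Agent.P032.Lt.pat_eq (E' := R0Q003.E65) (by decide +kernel) (pat_step (by decide +kernel) (q_cons (Vale.Agent.P032.Lt.q R0Q003.q65_0) (q_cons (Vale.Agent.P032.Lt.q R0Q003.q65_1) (q_cons (Vale.Agent.P032.Lt.q R0Q003.q65_2) (q_cons (Vale.Agent.P032.Lt.q R0Q003.q65_3) q_nil)))))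

theorem p66 : Pat 73 73 TBm TCm (CB.map Fm) R0Q003.P66 R0Q003.I66 := Vale.Agent.P032.Lt.pat_eq (E' := R0Q003.E) eB (pat_step (by decide +kernel) (q_cons (Vale.Agent.P032.Lt.q R0Q003.q66_0) (q_cons (Vale.Agent.P032.Lt.q R0Q003.q66_1) (q_cons (Vale.Agent.P032.Lt.q R0Q003.q66_2) (q_cons (Vale.Agent.P032.Lt.q R0Q003.q66_3) q_nil)))))

theorem p67 : Pat 73 73 TBm TCm (CB.map Fm) R0Q003.P67 R0Q003.I67 := Vale.Agent.P032.Lt.pat_eq (E' := R0Q003.E) eB (pat_step (by decide +kernel) (q_cons (Vale.Agent.P032.Lt.q R0Q003.q67_0) (q_cons (Vale.Agent.P032.Lt.q R0Q003.q67_1) (q_cons (Vale.Agent.P032.Lt.q R0Q003.q67_2) (q_cons (Vale.Agent.P032.Lt.q R0Q003.q67_3) (q_cons (Vale.Agent.P032.Lt.q R0Q003.q67_4) q_nil))))))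

def C68 : List ℕ := [0, 4, 8, 12, 16, 20, 24, 486401, 606209, 737281, 13921151308850, 19355367068722]
theorem p68 : Pat 73 73 TBm TCm (C68.map Fm) R0Q003.P68 R0Q003.I68 := Vale.Agent.P032.Lt.pat_eq (E' := R0Q003.E68) (by decide +kernel) (pat_step (by decide +kernel) (q_cons (Vale.Agent.P032.Lt.q R0Q003.q68_0) (q_cons (Vale.Agent.P032.Lt.q R0Q003.q68_1) (q_cons (Vale.Agent.P032.Lt.q R0Q003.q68_2) q_nil))))

def C69 : List ℕ := [0, 4, 8, 12, 16, 20, 24, 482305, 18791587599410, 18907189701658]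
theorem p69 : Pat 73 73 TBm TCm (C69.map Fm) R0Q003.P69 R0Q003.I69 := Vale.Agent.P032.Lt.pat_eq (E' := R0Q003.E69) (by decide +kernel) (pat_step (by decide +kernel) (q_cons (Vale.Agent.P032.Lt.q R0Q003.q69_0) (q_cons (Vale.Agent.P032.Lt.q R0Q003.q69_1) (q_cons (Vale.Agent.P032.Lt.q R0Q003.q69_2) q_nil))))

def C70 : List ℕ := [0, 4, 8, 12, 16, 20, 24, 89089, 91137, 613377, 737281, 9177521144866]
theorem p70 : Pat 73 73 TBm TCm (C70.map Fm) R0Q003.P70 R0Q003.I70 := Vale.Agent.P032.Lt.pat_eq (E' := R0Q003.E70) (by decide +kernel) (pat_step (by decide +kernel) (q_cons (Vale.Agent.P032.Lt.q R0Q003.q70_0) q_nil))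

def C71 : List ℕ := [0, 4, 8, 12, 16, 20, 24, 84993, 91137, 606209, 9046813008914, 9046926255122, 13376186180626, 17842660662282, 19332806563846, 24338546644998, 24338555033606, 24338613753862, 24338622142470]
theorem p71 : Pat 73 73 TBm TCm (C71.map Fm) R0Q003.P71 R0Q003.I71 := Vale.Agent.P032.Lt.pat_eq (E' := R0Q003.E71) (by decide +kernel) (pat_step (by decide +kernel) (q_cons (Vale.Agent.P032.Lt.q R0Q003.q71_0) (q_cons (Vale.Agent.P032.Lt.q R0Q003.q71_1) (q_cons (Vale.Agent.P032.Lt.q R0Q003.q71_2) (q_cons (Vale.Agent.P032.Lt.q R0Q003.q71_3) (q_cons (Vale.Agent.P032.Lt.q R0Q003.q71_4) (q_cons (Vale.Agent.P032.Lt.q R0Q003.q71_5) (q_cons (Vale.Agent.P032.Lt.q R0Q003.q71_6) q_nil))))))))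

def C72 : List ℕ := [0, 4, 8, 12, 16, 20, 24, 82945, 89089, 216065, 222209, 606209, 737281, 9049653593122, 9170004952098, 9599319493674, 9719532440618, 13924870349842, 14105242199058, 17842660662282]
theorem p72 : Pat 73 73 TBm TCm (C72.map Fm) R0Q003.P72 R0Q003.I72 := Vale.Agent.P032.Lt.pat_eq (E' := R0Q003.E72) (by decide +kernel) (pat_step (by decide +kernel) (q_cons (Vale.Agent.P032.Lt.q R0Q003.q72_0) (q_cons (Vale.Agent.P032.Lt.q R0Q003.q72_1) (q_cons (Vale.Agent.P032.Lt.q R0Q003.q72_2) (q_cons (Vale.Agent.P032.Lt.q R0Q003.q72_3) (q_cons (Vale.Agent.P032.Lt.q R0Q003.q72_4) (q_cons (Vale.Agent.P032.Lt.q R0Q003.q72_5) (q_cons (Vale.Agent.P032.Lt.q R0Q003.q72_6) q_nil))))))))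

def C73 : List ℕ := [0, 4, 8, 12, 16, 20, 24, 475137, 613377, 737281, 17956321051682, 19602365432866]
theorem p73 : Pat 73 73 TBm TCm (C73.map Fm) R0Q003.P73 R0Q003.I73 := Vale.Agent.P032.Lt.pat_eq (E' := R0Q003.E73) (by decide +kernel) (pat_step (by decide +kernel) (q_cons (Vale.Agent.P032.Lt.q R0Q003.q73_0) (q_cons (Vale.Agent.P032.Lt.q R0Q003.q73_1) (q_cons (Vale.Agent.P032.Lt.q R0Q003.q73_2) q_nil))))

def C74 : List ℕ := [0, 4, 8, 12, 16, 20, 24, 216065, 347137, 478209, 606209, 737281, 745473, 9595564155922, 22218015066150, 22218082175014, 22218098952230]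
theorem p74 : Pat 73 73 TBm TCm (C74.map Fm) R0Q003.P74 R0Q003.I74 := Vale.Agent.P032.Lt.pat_eq (E' := R0Q003.E74) (by decide +kernel) (pat_step (by decide +kernel) (q_cons (Vale.Agent.P032.Lt.q R0Q003.q74_0) q_nil))

theorem p75 : Pat 73 73 TBm TCm (CB.map Fm) R0Q004.P75 R0Q004.I75 := Vale.Agent.P032.Lt.pat_eq (E' := R0Q004.E) eB (pat_step (by decide +kernel) (q_cons (Vale.Agent.P032.Lt.q R0Q004.q75_0) (q_cons (Vale.Agent.P032.Lt.q R0Q004.q75_1) (q_cons (Vale.Agent.P032.Lt.q R0Q004.q75_2) q_nil))))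

def C76 : List ℕ := [0, 4, 8, 12, 16, 20, 24, 613377, 737281, 18503168115746, 23931717376006, 23931717638150, 23931719735302, 23932657686534]
theorem p76 : Pat 73 73 TBm TCm (C76.map Fm) R0Q004.P76 R0Q004.I76 := Vale.Agent.P032.Lt.pat_eq (E' := R0Q004.E76) (by decide +kernel) (pat_step (by decide +kernel) (q_cons (Vale.Agent.P032.Lt.q R0Q004.q76_0) (q_cons (Vale.Agent.P032.Lt.q R0Q004.q76_1) (q_cons (Vale.Agent.P032.Lt.q R0Q004.q76_2) (q_cons (Vale.Agent.P032.Lt.q R0Q004.q76_3) (q_cons (Vale.Agent.P032.Lt.q R0Q004.q76_4) (q_cons (Vale.Agent.P032.Lt.q R0Q004.q76_5) (q_cons (Vale.Agent.P032.Lt.q R0Q004.q76_6) (q_cons (Vale.Agent.P032.Lt.q R0Q004.q76_7) (q_cons (Vale.Agent.P032.Lt.q R0Q004.q76_8) q_nil))))))))))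

def C77 : List ℕ := [0, 4, 8, 12, 16, 20, 24, 212993, 345089, 607233, 609281, 738305, 18310558606354, 23196142099466, 23726020710446, 24278377389066]
theorem p77 : Pat 73 73 TBm TCm (C77.map Fm) R0Q004.P77 R0Q004.I77 := Vale.Agent.P032.Lt.pat_eq (E' := R0Q004.E77) (by decide +kernel) (pat_step (by decide +kernel) (q_cons (Vale.Agent.P032.Lt.q R0Q004.q77_0) q_nil))

def C78 : List ℕ := [0, 4, 8, 12, 16, 20, 24, 216065, 347137, 478209, 609281, 14105242199058, 18370687624210]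
theorem p78 : Pat 73 73 TBm TCm (C78.map Fm) R0Q004.P78 R0Q004.I78 := Vale.Agent.P032.Lt.pat_eq (E' := R0Q004.E78) (by decide +kernel) (pat_step (by decide +kernel) (q_cons (Vale.Agent.P032.Lt.q R0Q004.q78_0) q_nil))

def C79 : List ℕ := [0, 4, 8, 12, 16, 20, 24, 91137, 355329, 484353, 615425, 9647256720434, 13371464961066, 13556616219690, 17760921537578, 17954528513066]
theorem p79 : Pat 73 73 TBm TCm (C79.map Fm) R0Q004.P79 R0Q004.I79 := Vale.Agent.P032.Lt.pat_eq (E' := R0Q004.E79) (by decide +kernel) (pat_step (by decide +kernel) (q_cons (Vale.Agent.P032.Lt.q R0Q004.q79_0) q_nil))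

def C80 : List ℕ := [0, 4, 8, 12, 16, 20, 24, 212993, 220161, 347137, 475137, 737281]
theorem p80 : Pat 73 73 TBm TCm (C80.map Fm) R0Q004.P80 R0Q004.I80 := Vale.Agent.P032.Lt.pat_eq (E' := R0Q004.E80) (by decide +kernel) (pat_step (by decide +kernel) (q_cons (Vale.Agent.P032.Lt.q R0Q004.q80_0) (q_cons (Vale.Agent.P032.Lt.q R0Q004.q80_1) (q_cons (Vale.Agent.P032.Lt.q R0Q004.q80_2) (q_cons (Vale.Agent.P032.Lt.q R0Q004.q80_3) (q_cons (Vale.Agent.P032.Lt.q R0Q004.q80_4) (q_cons (Vale.Agent.P032.Lt.q R0Q004.q80_5) (q_cons (Vale.Agent.P032.Lt.q R0Q004.q80_6) (q_cons (Vale.Agent.P032.Lt.q R0Q004.q80_7) (q_cons (Vale.Agent.P032.Lt.q R0Q004.q80_8) (q_cons (Vale.Agent.P032.Lt.q R0Q004.q80_9) q_nil)))))))))))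

theorem p81 : Pat 73 73 TBm TCm (CB.map Fm) R0Q004.P81 R0Q004.I81 := Vale.Agent.P032.Lt.pat_eq (E' := R0Q004.E) eB (pat_step (by decide +kernel) (q_cons (Vale.Agent.P032.Lt.q R0Q004.q81_0) (q_cons (Vale.Agent.P032.Lt.q R0Q004.q81_1) (q_cons (Vale.Agent.P032.Lt.q R0Q004.q81_2) q_nil))))

def C82 : List ℕ := [0, 4, 8, 12, 16, 20, 24, 84993, 91137, 216065, 347137, 353281, 9046928090130, 9115403766826, 9115466681386, 9587078030354]
theorem p82 : Pat 73 73 TBm TCm (C82.map Fm) R0Q004.P82 R0Q004.I82 := Vale.Agent.P032.Lt.pat_eq (E' := R0Q004.E82) (by decide +kernel) (pat_step (by decide +kernel) (q_cons (Vale.Agent.P032.Lt.q R0Q004.q82_0) (q_cons (Vale.Agent.P032.Lt.q R0Q004.q82_1) (q_cons (Vale.Agent.P032.Lt.q R0Q004.q82_2) (q_cons (Vale.Agent.P032.Lt.q R0Q004.q82_3) (q_cons (Vale.Agent.P032.Lt.q R0Q004.q82_4) (q_cons (Vale.Agent.P032.Lt.q R0Q004.q82_5) (q_cons (Vale.Agent.P032.Lt.q R0Q004.q82_6)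 (q_cons (Vale.Agent.P032.Lt.q R0Q004.q82_7) (q_cons (Vale.Agent.P032.Lt.q R0Q004.q82_8) (q_cons (Vale.Agent.P032.Lt.q R0Q004.q82_9) (q_cons (Vale.Agent.P032.Lt.q R0Q004.q82_10) (q_cons (Vale.Agent.P032.Lt.q R0Q004.q82_11) q_nil)))))))))))))

theorem p83 : Pat 73 73 TBm TCm (CB.map Fm) R0Q004.P83 R0Q004.I83 := Vale.Agent.P032.Lt.pat_eq (E' := R0Q004.E) eB (pat_step (by decide +kernel) (q_cons (Vale.Agent.P032.Lt.q R0Q004.q83_0) (q_cons (Vale.Agent.P032.Lt.q R0Q004.q83_1) (q_cons (Vale.Agent.P032.Lt.q R0Q004.q83_2) (q_cons (Vale.Agent.P032.Lt.q R0Q004.q83_3) (q_cons (Vale.Agent.P032.Lt.q R0Q004.q83_4) q_nil))))))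

def C84 : List ℕ := [0, 4, 8, 12, 16, 20, 24, 212993, 344065, 19044335051794, 19044336886802]
theorem p84 : Pat 73 73 TBm TCm (C84.map Fm) R0Q004.P84 R0Q004.I84 := Vale.Agent.P032.Lt.pat_eq (E' := R0Q004.E84) (by decide +kernel) (pat_step (by decide +kernel) (q_cons (Vale.Agent.P032.Lt.q R0Q004.q84_0) (q_cons (Vale.Agent.P032.Lt.q R0Q004.q84_1) (q_cons (Vale.Agent.P032.Lt.q R0Q004.q84_2) (q_cons (Vale.Agent.P032.Lt.q R0Q004.q84_3) (q_cons (Vale.Agent.P032.Lt.q R0Q004.q84_4) (q_cons (Vale.Agent.P032.Lt.q R0Q004.q84_5) (q_cons (Vale.Agent.P032.Lt.q R0Q004.q84_6) (q_cons (Vale.Agent.P032.Lt.q R0Q004.q84_7) q_nil)))))))))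

def C85 : List ℕ := [0, 4, 8, 12, 16, 20, 24, 353281, 484353, 606209, 737281, 9042196909098, 18370738215946, 18806684996658, 19044295207962, 24275583457286, 24275585292294, 24278402684934, 24278402816006, 24278404913158]
theorem p85 : Pat 73 73 TBm TCm (C85.map Fm) R0Q004.P85 R0Q004.I85 := Vale.Agent.P032.Lt.pat_eq (E' := R0Q004.E85) (by decide +kernel) (pat_step (by decide +kernel) (q_cons (Vale.Agent.P032.Lt.q R0Q004.q85_0) (q_cons (Vale.Agent.P032.Lt.q R0Q004.q85_1) q_nil)))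

def C86 : List ℕ := [0, 4, 8, 12, 16, 20, 24, 214017, 216065, 476161, 607233, 9727051523090, 13921152097290, 18325575785482]
theorem p86 : Pat 73 73 TBm TCm (C86.map Fm) R0Q004.P86 R0Q004.I86 := Vale.Agent.P032.Lt.pat_eq (E' := R0Q004.E86) (by decide +kernel) (pat_step (by decide +kernel) (q_cons (Vale.Agent.P032.Lt.q R0Q004.q86_0) q_nil))

def C87 : List ℕ := [0, 4, 8, 12, 16, 20, 24, 214017, 606209, 737281, 4651800812554, 24275585292294, 24278402816006]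
theorem p87 : Pat 73 73 TBm TCm (C87.map Fm) R0Q004.P87 R0Q004.I87 := Vale.Agent.P032.Lt.pat_eq (E' := R0Q004.E87) (by decide +kernel) (pat_step (by decide +kernel) (q_cons (Vale.Agent.P032.Lt.q R0Q004.q87_0) (q_cons (Vale.Agent.P032.Lt.q R0Q004.q87_1) (q_cons (Vale.Agent.P032.Lt.q R0Q004.q87_2) q_nil))))

def C88 : List ℕ := [0, 4, 8, 12, 16, 20, 24, 84993, 216065, 606209, 4649841681426]
theorem p88 : Pat 73 73 TBm TCm (C88.map Fm) R0Q004.P88 R0Q004.I88 := Vale.Agent.P032.Lt.pat_eq (E' := R0Q004.E88) (by decide +kernel) (pat_step (by decide +kernel) (q_cons (Vale.Agent.P032.Lt.q R0Q004.q88_0) (q_cons (Vale.Agent.P032.Lt.q R0Q004.q88_1) (q_cons (Vale.Agent.P032.Lt.q R0Q004.q88_2) (q_cons (Vale.Agent.P032.Lt.q R0Q004.q88_3) (q_cons (Vale.Agent.P032.Lt.q R0Q004.q88_4) (q_cons (Vale.Agent.P032.Lt.q R0Q004.q88_5) (q_cons (Vale.Agent.P032.Lt.q R0Q004.q88_6) (q_cons (Vale.Agent.P032.Lt.q R0Q004.q88_7)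 (q_cons (Vale.Agent.P032.Lt.q R0Q004.q88_8) (q_cons (Vale.Agent.P032.Lt.q R0Q004.q88_9) (q_cons (Vale.Agent.P032.Lt.q R0Q004.q88_10) (q_cons (Vale.Agent.P032.Lt.q R0Q004.q88_11) (q_cons (Vale.Agent.P032.Lt.q R0Q004.q88_12) q_nil))))))))))))))

def C89 : List ℕ := [0, 4, 8, 12, 16, 20, 24, 82945, 212993, 214017, 344065, 345089, 475137, 606209, 607233, 738305, 4649909181450, 4651788229642, 9046881950730, 9049700523018, 14062092769286, 14105218603014, 14105281517574, 14611714365446, 14646384482310, 14646447396870, 14671751632902, 17842706537482, 17843646061578, 19593918371846, 19593981286406, 19602374088710, 22155084389386, 22157902961674, 22163605117962, 22283864202250, 22292254907402, 22293194431498, 22707523902474, 22712266218506, 22712287190026, 22832525302794, 22832546274314, 22842815372298, 23188560239626, 23193302555658, 23193323527178, 23373691182090, 23373712153610, 23391497444362, 24275634314250,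 24275655285770, 24285924383754, 24335763856394, 24335784827914, 24353570118666]
theorem p89 : Pat 73 73 TBm TCm (C89.map Fm) R0Q004.P89 R0Q004.I89 := Vale.Agent.P032.Lt.pat_eq (E' := R0Q004.E89) (by decide +kernel) (pat_step (by decide +kernel) (q_cons (Vale.Agent.P032.Lt.q R0Q004.q89_0) (q_cons (Vale.Agent.P032.Lt.q R0Q004.q89_1) q_nil)))

theorem p90 : Pat 73 73 TBm TCm (CB.map Fm) R0Q004.P90 R0Q004.I90 := Vale.Agent.P032.Lt.pat_eq (E' := R0Q004.E) eB (pat_step (by decide +kernel) (q_cons (Vale.Agent.P032.Lt.q R0Q004.q90_0) (q_cons (Vale.Agent.P032.Lt.q R0Q004.q90_1) (q_cons (Vale.Agent.P032.Lt.q R0Q004.q90_2) (q_cons (Vale.Agent.P032.Lt.q R0Q004.q90_3) (q_cons (Vale.Agent.P032.Lt.q R0Q004.q90_4) (q_cons (Vale.Agent.P032.Lt.q R0Q004.q90_5) q_nil)))))))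

def C91 : List ℕ := [0, 4, 8, 12, 16, 20, 24, 613377, 17956434297890, 19602478679074]
theorem p91 : Pat 73 73 TBm TCm (C91.map Fm) R0Q004.P91 R0Q004.I91 := Vale.Agent.P032.Lt.pat_eq (E' := R0Q004.E91) (by decide +kernel) (pat_step (by decide +kernel) (q_cons (Vale.Agent.P032.Lt.q R0Q004.q91_0) (q_cons (Vale.Agent.P032.Lt.q R0Q004.q91_1) (q_cons (Vale.Agent.P032.Lt.q R0Q004.q91_2) q_nil))))

def C92 : List ℕ := [0, 4, 8, 12, 16, 20, 24, 92161, 344065, 475137, 485377, 606209, 13367767289902, 13371528269870, 14402193807366, 14577866987526, 18503188964370, 19355371395078]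
theorem p92 : Pat 73 73 TBm TCm (C92.map Fm) R0Q004.P92 R0Q004.I92 := Vale.Agent.P032.Lt.pat_eq (E' := R0Q004.E92) (by decide +kernel) (pat_step (by decide +kernel) (q_cons (Vale.Agent.P032.Lt.q R0Q004.q92_0) (q_cons (Vale.Agent.P032.Lt.q R0Q004.q92_1) q_nil)))

def C93 : List ℕ := [0, 4, 8, 12, 16, 20, 24, 212993, 215041, 475137, 737281, 18391344963598, 18391346798606]
theorem p93 : Pat 73 73 TBm TCm (C93.map Fm) R0Q004.P93 R0Q004.I93 := Vale.Agent.P032.Lt.pat_eq (E' := R0Q004.E93) (by decide +kernel) (pat_step (by decide +kernel) (q_cons (Vale.Agent.P032.Lt.q R0Q004.q93_0) (q_cons (Vale.Agent.P032.Lt.q R0Q004.q93_1) (q_cons (Vale.Agent.P032.Lt.q R0Q004.q93_2) (q_cons (Vale.Agent.P032.Lt.q R0Q004.q93_3) (q_cons (Vale.Agent.P032.Lt.q R0Q004.q93_4) (q_cons (Vale.Agent.P032.Lt.q R0Q004.q93_5) (q_cons (Vale.Agent.P032.Lt.q R0Q004.q93_6) (q_cons (Vale.Agent.P032.Lt.q R0Q004.q93_7) q_nil)))))))))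

def C94 : List ℕ := [0, 4, 8, 12, 16, 20, 24, 214017, 344065, 345089, 475137, 607233, 738305, 18513547713546, 23184800046090, 23184802143242, 23305029770250, 24285925039114]
theorem p94 : Pat 73 73 TBm TCm (C94.map Fm) R0Q004.P94 R0Q004.I94 := Vale.Agent.P032.Lt.pat_eq (E' := R0Q004.E94) (by decide +kernel) (pat_step (by decide +kernel) (q_cons (Vale.Agent.P032.Lt.q R0Q004.q94_0) (q_cons (Vale.Agent.P032.Lt.q R0Q004.q94_1) (q_cons (Vale.Agent.P032.Lt.q R0Q004.q94_2) q_nil))))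

def C95 : List ℕ := [0, 4, 8, 12, 16, 20, 24, 216065, 347137, 478209, 480257, 9587078030354, 13574476358674, 13921178315802]
theorem p95 : Pat 73 73 TBm TCm (C95.map Fm) R0Q004.P95 R0Q004.I95 := Vale.Agent.P032.Lt.pat_eq (E' := R0Q004.E95) (by decide +kernel) (pat_step (by decide +kernel) (q_cons (Vale.Agent.P032.Lt.q R0Q004.q95_0) (q_cons (Vale.Agent.P032.Lt.q R0Q004.q95_1) (q_cons (Vale.Agent.P032.Lt.q R0Q004.q95_2) q_nil))))

theorem p96 : Pat 73 73 TBm TCm (CB.map Fm) R0Q004.P96 R0Q004.I96 := Vale.Agent.P032.Lt.pat_eq (E' := R0Q004.E) eB (pat_step (by decide +kernel) (q_cons (Vale.Agent.P032.Lt.q R0Q004.q96_0) (q_cons (Vale.Agent.P032.Lt.q R0Q004.q96_1) (q_cons (Vale.Agent.P032.Lt.q R0Q004.q96_2) (q_cons (Vale.Agent.P032.Lt.q R0Q004.q96_3) (q_cons (Vale.Agent.P032.Lt.q R0Q004.q96_4) (q_cons (Vale.Agent.P032.Lt.q R0Q004.q96_5) (q_cons (Vale.Agent.P032.Lt.q R0Q004.q96_6) (q_cons (Vale.Agent.P032.Lt.q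 R0Q004.q96_7) (q_cons (Vale.Agent.P032.Lt.q R0Q004.q96_8) (q_cons (Vale.Agent.P032.Lt.q R0Q004.q96_9) (q_cons (Vale.Agent.P032.Lt.q R0Q004.q96_10) (q_cons (Vale.Agent.P032.Lt.q R0Q004.q96_11) (q_cons (Vale.Agent.P032.Lt.q R0Q004.q96_12) q_nil))))))))))))))

def C97 : List ℕ := [0, 4, 8, 12, 16, 20, 24, 214017, 617473, 13921152097290, 18791646319666]
theorem p97 : Pat 73 73 TBm TCm (C97.map Fm) R0Q004.P97 R0Q004.I97 := Vale.Agent.P032.Lt.pat_eq (E' := R0Q004.E97) (by decide +kernel) (pat_step (by decide +kernel) (q_cons (Vale.Agent.P032.Lt.q R0Q004.q97_0) q_nil))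

def C98 : List ℕ := [0, 4, 8, 12, 16, 20, 24, 606209, 737281, 9102291987482, 24275583195142, 24275583457286, 24275585292294, 24275585554438, 24278402553862]
theorem p98 : Pat 73 73 TBm TCm (C98.map Fm) R0Q005.P98 R0Q005.I98 := Vale.Agent.P032.Lt.pat_eq (E' := R0Q005.E98) (by decide +kernel) (pat_step (by decide +kernel) (q_cons (Vale.Agent.P032.Lt.q R0Q005.q98_0) q_nil))

def C99 : List ℕ := [0, 4, 8, 12, 16, 20, 24, 611329, 737281]
theorem p99 : Pat 73 73 TBm TCm (C99.map Fm) R0Q005.P99 R0Q005.I99 := Vale.Agent.P032.Lt.pat_eq (E' := R0Q005.E99) (by decide +kernel) (pat_step (by decide +kernel) (q_cons (Vale.Agent.P032.Lt.q R0Q005.q99_0) (q_cons (Vale.Agent.P032.Lt.q R0Q005.q99_1) (q_cons (Vale.Agent.P032.Lt.q R0Q005.q99_2) q_nil))))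

def C100 : List ℕ := [0, 4, 8, 12, 16, 20, 24, 215041, 344065, 477185, 742401, 14109063077902, 14577799878662, 14577801844742, 23923348958234]
theorem p100 : Pat 73 73 TBm TCm (C100.map Fm) R0Q005.P100 R0Q005.I100 := Vale.Agent.P032.Lt.pat_eq (E' := R0Q005.E100) (by decide +kernel) (pat_step (by decide +kernel) (q_cons (Vale.Agent.P032.Lt.q R0Q005.q100_0) (q_cons (Vale.Agent.P032.Lt.q R0Q005.q100_1) (q_cons (Vale.Agent.P032.Lt.q R0Q005.q100_2) q_nil))))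

theorem p101 : Pat 73 73 TBm TCm (CB.map Fm) R0Q005.P101 R0Q005.I101 := Vale.Agent.P032.Lt.pat_eq (E' := R0Q005.E) eB (pat_step (by decide +kernel) (q_cons (Vale.Agent.P032.Lt.q R0Q005.q101_0) (q_cons (Vale.Agent.P032.Lt.q R0Q005.q101_1) (q_cons (Vale.Agent.P032.Lt.q R0Q005.q101_2) (q_cons (Vale.Agent.P032.Lt.q R0Q005.q101_3) (q_cons (Vale.Agent.P032.Lt.q R0Q005.q101_4) (q_cons (Vale.Agent.P032.Lt.q R0Q005.q101_5) (q_cons (Vale.Agent.P032.Lt.q R0Q005.q101_6) (q_cons (Vale.Agent.P032.Lt.q R0Q005.q101_7) (q_cons (Vale.Agent.P032.Lt.q R0Q005.q101_8) (q_cons (Vale.Agent.P032.Lt.q R0Q005.q101_9) (q_cons (Vale.Agent.P032.Lt.q R0Q005.q101_10) (q_cons (Vale.Agent.P032.Lt.q R0Q005.q101_11) (q_cons (Vale.Agent.P032.Lt.q R0Q005.q101_12) (q_cons (Vale.Agent.P032.Lt.q R0Q005.q101_13) (q_cons (Vale.Agent.P032.Lt.q R0Q005.q101_14) (q_cons (Vale.Agent.P032.Lt.q R0Q005.q101_15) (q_cons (Vale.Agent.P032.Lt.q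 R0Q005.q101_16) (q_cons (Vale.Agent.P032.Lt.q R0Q005.q101_17) (q_cons (Vale.Agent.P032.Lt.q R0Q005.q101_18) (q_cons (Vale.Agent.P032.Lt.q R0Q005.q101_19) (q_cons (Vale.Agent.P032.Lt.q R0Q005.q101_20) (q_cons (Vale.Agent.P032.Lt.q R0Q005.q101_21) (q_cons (Vale.Agent.P032.Lt.q R0Q005.q101_22) (q_cons (Vale.Agent.P032.Lt.q R0Q005.q101_23) (q_cons (Vale.Agent.P032.Lt.q R0Q005.q101_24) (q_cons (Vale.Agent.P032.Lt.q R0Q005.q101_25) (q_cons (Vale.Agent.P032.Lt.q R0Q005.q101_26) (q_cons (Vale.Agent.P032.Lt.q R0Q005.q101_27) q_nil)))))))))))))))))))))))))))))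

def C102 : List ℕ := [0, 4, 8, 12, 16, 20, 24, 82945, 89089, 212993, 475137, 737281, 9177521144866, 17774140152842, 23729722447878]
theorem p102 : Pat 73 73 TBm TCm (C102.map Fm) R0Q005.P102 R0Q005.I102 := Vale.Agent.P032.Lt.pat_eq (E' := R0Q005.E102) (by decide +kernel) (pat_step (by decide +kernel) (q_cons (Vale.Agent.P032.Lt.q R0Q005.q102_0) (q_cons (Vale.Agent.P032.Lt.q R0Q005.q102_1) (q_cons (Vale.Agent.P032.Lt.q R0Q005.q102_2) q_nil))))

def C103 : List ℕ := [0, 4, 8, 12, 16, 20, 24, 212993, 349185, 475137, 737281, 14402131022898, 14577862667290, 22715101435910]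
theorem p103 : Pat 73 73 TBm TCm (C103.map Fm) R0Q005.P103 R0Q005.I103 := Vale.Agent.P032.Lt.pat_eq (E' := R0Q005.E103) (by decide +kernel) (pat_step (by decide +kernel) (q_cons (Vale.Agent.P032.Lt.q R0Q005.q103_0) (q_cons (Vale.Agent.P032.Lt.q R0Q005.q103_1) q_nil)))

def C104 : List ℕ := [0, 4, 8, 12, 16, 20, 24, 81921, 345089, 476161, 607233, 738305, 14041361114130, 23184868989962, 23744794811402, 24285893581834]
theorem p104 : Pat 73 73 TBm TCm (C104.map Fm) R0Q005.P104 R0Q005.I104 := Vale.Agent.P032.Lt.pat_eq (E' := R0Q005.E104) (by decide +kernel) (pat_step (by decide +kernel) (q_cons (Vale.Agent.P032.Lt.q R0Q005.q104_0) q_nil))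

def C105 : List ℕ := [0, 4, 8, 12, 16, 20, 24, 91137, 93185, 222209, 224257, 351233, 353281, 355329, 484353, 613377, 615425, 617473, 4641407325234, 4719395951666, 9042137273394, 17821102195746, 17842706009130, 17843645533226, 17956434297890, 18325648921650, 19047174067250, 19595903058978, 19603419251746]
theorem p105 : Pat 73 73 TBm TCm (C105.map Fm) R0Q005.P105 R0Q005.I105 := Vale.Agent.P032.Lt.pat_eq (E' := R0Q005.E105) (by decide +kernel) (pat_step (by decide +kernel) (q_cons (Vale.Agent.P032.Lt.q R0Q005.q105_0) q_nil))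

def C106 : List ℕ := [0, 4, 8, 12, 16, 20, 24, 84993, 91137, 216065, 347137, 478209, 606209, 737281, 9046813008914, 9046928090130, 13924870349842, 14646443600922, 17963948655650, 24275581360134, 24278391937030, 24278400325638, 24278400718854, 24335736068102, 24338546644998, 24338613753862, 24338622142470]
theorem p106 : Pat 73 73 TBm TCm (C106.map Fm) R0Q005.P106 R0Q005.I106 := Vale.Agent.P032.Lt.pat_eq (E' := R0Q005.E106) (by decide +kernel) (pat_step (by decide +kernel) (q_cons (Vale.Agent.P032.Lt.q R0Q005.q106_0) (q_cons (Vale.Agent.P032.Lt.q R0Q005.q106_1) (q_cons (Vale.Agent.P032.Lt.q R0Q005.q106_2) (q_cons (Vale.Agent.P032.Lt.q R0Q005.q106_3) (q_cons (Vale.Agent.P032.Lt.q R0Q005.q106_4) (q_cons (Vale.Agent.P032.Lt.q R0Q005.q106_5) (q_cons (Vale.Agent.P032.Lt.q R0Q005.q106_6) (q_cons (Vale.Agent.P032.Lt.q R0Q005.q106_7) (q_cons (Vale.Agent.P032.Lt.q R0Q005.q106_8) (q_cons (Vale.Agent.P032.Lt.q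 R0Q005.q106_9) (q_cons (Vale.Agent.P032.Lt.q R0Q005.q106_10) (q_cons (Vale.Agent.P032.Lt.q R0Q005.q106_11) (q_cons (Vale.Agent.P032.Lt.q R0Q005.q106_12) q_nil))))))))))))))

def C107 : List ℕ := [0, 4, 8, 12, 16, 20, 24, 214017, 216065, 9599322383378, 13928603016202, 13928695555090, 14063894486026, 14063987024914, 18393267921938]
theorem p107 : Pat 73 73 TBm TCm (C107.map Fm) R0Q005.P107 R0Q005.I107 := Vale.Agent.P032.Lt.pat_eq (E' := R0Q005.E107) (by decide +kernel) (pat_step (by decide +kernel) (q_cons (Vale.Agent.P032.Lt.q R0Q005.q107_0) q_nil))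

def C108 : List ℕ := [0, 4, 8, 12, 16, 20, 24, 214017, 345089, 475137, 606209, 607233, 738305, 9719602174986, 18511668009994, 22767624739850, 23308857728010, 24404342168586, 24412730776586]
theorem p108 : Pat 73 73 TBm TCm (C108.map Fm) R0Q005.P108 R0Q005.I108 := Vale.Agent.P032.Lt.pat_eq (E' := R0Q005.E108) (by decide +kernel) (pat_step (by decide +kernel) (q_cons (Vale.Agent.P032.Lt.q R0Q005.q108_0) q_nil))

theorem p109 : Pat 73 73 TBm TCm (CB.map Fm) R0Q005.P109 R0Q005.I109 := Vale.Agent.P032.Lt.pat_eq (E' := R0Q005.E) eB (pat_step (by decide +kernel) (q_cons (Vale.Agent.P032.Lt.q R0Q005.q109_0) (q_cons (Vale.Agent.P032.Lt.q R0Q005.q109_1) (q_cons (Vale.Agent.P032.Lt.q R0Q005.q109_2) q_nil))))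

def C110 : List ℕ := [0, 4, 8, 12, 16, 20, 24, 212993, 349185, 606209, 737281, 9102290021402, 19044295207962, 24275583457286, 24275583719430, 24275585554438, 24278402553862, 24278404519942]
theorem p110 : Pat 73 73 TBm TCm (C110.map Fm) R0Q005.P110 R0Q005.I110 := Vale.Agent.P032.Lt.pat_eq (E' := R0Q005.E110) (by decide +kernel) (pat_step (by decide +kernel) (q_cons (Vale.Agent.P032.Lt.q R0Q005.q110_0) (q_cons (Vale.Agent.P032.Lt.q R0Q005.q110_1) q_nil)))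

def C111 : List ℕ := [0, 4, 8, 12, 16, 20, 24, 606209, 745473, 22165397522470]
theorem p111 : Pat 73 73 TBm TCm (C111.map Fm) R0Q005.P111 R0Q005.I111 := Vale.Agent.P032.Lt.pat_eq (E' := R0Q005.E111) (by decide +kernel) (pat_step (by decide +kernel) (q_cons (Vale.Agent.P032.Lt.q R0Q005.q111_0) (q_cons (Vale.Agent.P032.Lt.q R0Q005.q111_1) (q_cons (Vale.Agent.P032.Lt.q R0Q005.q111_2) (q_cons (Vale.Agent.P032.Lt.q R0Q005.q111_3) (q_cons (Vale.Agent.P032.Lt.q R0Q005.q111_4) (q_cons (Vale.Agent.P032.Lt.q R0Q005.q111_5) (q_cons (Vale.Agent.P032.Lt.q R0Q005.q111_6) (q_cons (Vale.Agent.P032.Lt.q R0Q005.q111_7) (q_cons (Vale.Agent.P032.Lt.q R0Q005.q111_8) (q_cons (Vale.Agent.P032.Lt.q R0Q005.q111_9) (q_cons (Vale.Agent.P032.Lt.q R0Q005.q111_10) (q_cons (Vale.Agent.P032.Lt.q R0Q005.q111_11) q_nil)))))))))))))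

theorem p112 : Pat 73 73 TBm TCm (CB.map Fm) R0Q005.P112 R0Q005.I112 := Vale.Agent.P032.Lt.pat_eq (E' := R0Q005.E) eB (pat_step (by decide +kernel) (q_cons (Vale.Agent.P032.Lt.q R0Q005.q112_0) (q_cons (Vale.Agent.P032.Lt.q R0Q005.q112_1) (q_cons (Vale.Agent.P032.Lt.q R0Q005.q112_2) (q_cons (Vale.Agent.P032.Lt.q R0Q005.q112_3) q_nil)))))

def C113 : List ℕ := [0, 4, 8, 12, 16, 20, 24, 355329]
theorem p113 : Pat 73 73 TBm TCm (C113.map Fm) R0Q005.P113 R0Q005.I113 := Vale.Agent.P032.Lt.pat_eq (E' := R0Q005.E113) (by decide +kernel) (pat_step (by decide +kernel) (q_cons (Vale.Agent.P032.Lt.q R0Q005.q113_0) (q_cons (Vale.Agent.P032.Lt.q R0Q005.q113_1) (q_cons (Vale.Agent.P032.Lt.q R0Q005.q113_2) q_nil))))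

def C114 : List ℕ := [0, 4, 8, 12, 16, 20, 24, 91137, 214017, 345089, 475137, 480257, 607233, 738305, 13574452235306, 17962942817298, 19603309025286, 19603376134150, 22233035000874, 22233102109738, 22707524557834, 23308857728010]
theorem p114 : Pat 73 73 TBm TCm (C114.map Fm) R0Q005.P114 R0Q005.I114 := Vale.Agent.P032.Lt.pat_eq (E' := R0Q005.E114) (by decide +kernel) (pat_step (by decide +kernel) (q_cons (Vale.Agent.P032.Lt.q R0Q005.q114_0) (q_cons (Vale.Agent.P032.Lt.q R0Q005.q114_1) (q_cons (Vale.Agent.P032.Lt.q R0Q005.q114_2) (q_cons (Vale.Agent.P032.Lt.q R0Q005.q114_3) (q_cons (Vale.Agent.P032.Lt.q R0Q005.q114_4) (q_cons (Vale.Agent.P032.Lt.q R0Q005.q114_5) (q_cons (Vale.Agent.P032.Lt.q R0Q005.q114_6) (q_cons (Vale.Agent.P032.Lt.q R0Q005.q114_7) (q_cons (Vale.Agent.P032.Lt.q R0Q005.q114_8) (q_cons (Vale.Agent.P032.Lt.q R0Q005.q114_9) (q_cons (Vale.Agent.P032.Lt.q R0Q005.q114_10) (q_cons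 (Vale.Agent.P032.Lt.q R0Q005.q114_11) (q_cons (Vale.Agent.P032.Lt.q R0Q005.q114_12) (q_cons (Vale.Agent.P032.Lt.q R0Q005.q114_13) q_nil)))))))))))))))

theorem p115 : Pat 73 73 TBm TCm (CB.map Fm) R0Q005.P115 R0Q005.I115 := Vale.Agent.P032.Lt.pat_eq (E' := R0Q005.E) eB (pat_step (by decide +kernel) (q_cons (Vale.Agent.P032.Lt.q R0Q005.q115_0) (q_cons (Vale.Agent.P032.Lt.q R0Q005.q115_1) (q_cons (Vale.Agent.P032.Lt.q R0Q005.q115_2) (q_cons (Vale.Agent.P032.Lt.q R0Q005.q115_3) (q_cons (Vale.Agent.P032.Lt.q R0Q005.q115_4) (q_cons (Vale.Agent.P032.Lt.q R0Q005.q115_5) (q_cons (Vale.Agent.P032.Lt.q R0Q005.q115_6) (q_cons (Vale.Agent.P032.Lt.q R0Q005.q115_7) (q_cons (Vale.Agent.P032.Lt.q R0Q005.q115_8) (q_cons (Vale.Agent.P032.Lt.q R0Q005.q115_9) (q_cons (Vale.Agent.P032.Lt.q R0Q005.q115_10) (q_cons (Vale.Agent.P032.Lt.q R0Q005.q115_11) (q_cons (Vale.Agent.P032.Lt.q R0Q005.q115_12) q_nil))))))))))))))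

def C116 : List ℕ := [0, 4, 8, 12, 16, 20, 24, 81921, 212993, 606209, 14041361114130]
theorem p116 : Pat 73 73 TBm TCm (C116.map Fm) R0Q005.P116 R0Q005.I116 := Vale.Agent.P032.Lt.pat_eq (E' := R0Q005.E116) (by decide +kernel) (pat_step (by decide +kernel) (q_cons (Vale.Agent.P032.Lt.q R0Q005.q116_0) (q_cons (Vale.Agent.P032.Lt.q R0Q005.q116_1) q_nil)))

def C117 : List ℕ := [0, 4, 8, 12, 16, 20, 24, 84993, 214017, 347137, 475137, 478209, 606209, 609281, 737281, 740353, 14582526469138, 18370738215946, 23729709864966, 23729722447878, 23729776973830, 23742918124562, 23789872961542, 24275583195142, 24275583457286, 24275585292294, 24275585554438, 24278402816006]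
theorem p117 : Pat 73 73 TBm TCm (C117.map Fm) R0Q005.P117 R0Q005.I117 := Vale.Agent.P032.Lt.pat_eq (E' := R0Q005.E117) (by decide +kernel) (pat_step (by decide +kernel) (q_cons (Vale.Agent.P032.Lt.q R0Q005.q117_0) (q_cons (Vale.Agent.P032.Lt.q R0Q005.q117_1) (q_cons (Vale.Agent.P032.Lt.q R0Q005.q117_2) (q_cons (Vale.Agent.P032.Lt.q R0Q005.q117_3) (q_cons (Vale.Agent.P032.Lt.q R0Q005.q117_4) (q_cons (Vale.Agent.P032.Lt.q R0Q005.q117_5) (q_cons (Vale.Agent.P032.Lt.q R0Q005.q117_6) q_nil))))))))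

def C118 : List ℕ := [0, 4, 8, 12, 16, 20, 24, 82945, 214017, 476161, 611329, 4770168396810, 14105313238026, 17821073632282, 19593916804122]
theorem p118 : Pat 73 73 TBm TCm (C118.map Fm) R0Q005.P118 R0Q005.I118 := Vale.Agent.P032.Lt.pat_eq (E' := R0Q005.E118) (by decide +kernel) (pat_step (by decide +kernel) (q_cons (Vale.Agent.P032.Lt.q R0Q005.q118_0) (q_cons (Vale.Agent.P032.Lt.q R0Q005.q118_1) (q_cons (Vale.Agent.P032.Lt.q R0Q005.q118_2) (q_cons (Vale.Agent.P032.Lt.q R0Q005.q118_3) q_nil)))))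

theorem p119 : Pat 73 73 TBm TCm (CB.map Fm) R0Q005.P119 R0Q005.I119 := Vale.Agent.P032.Lt.pat_eq (E' := R0Q005.E) eB (pat_step (by decide +kernel) (q_cons (Vale.Agent.P032.Lt.q R0Q005.q119_0) q_nil))

def C120 : List ℕ := [0, 4, 8, 12, 16, 20, 24, 218113, 349185, 480257, 606209, 13491748563994, 14577858472986, 19593979718682, 19595857718298]
theorem p120 : Pat 73 73 TBm TCm (C120.map Fm) R0Q005.P120 R0Q005.I120 := Vale.Agent.P032.Lt.pat_eq (E' := R0Q005.E120) (by decide +kernel) (pat_step (by decide +kernel) (q_cons (Vale.Agent.P032.Lt.q R0Q005.q120_0) (q_cons (Vale.Agent.P032.Lt.q R0Q005.q120_1) (q_cons (Vale.Agent.P032.Lt.q R0Q005.q120_2) (q_cons (Vale.Agent.P032.Lt.q R0Q005.q120_3) q_nil)))))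

def C121 : List ℕ := [0, 4, 8, 12, 16, 20, 24, 349185, 355329, 606209, 737281, 9169895123994]
theorem p121 : Pat 73 73 TBm TCm (C121.map Fm) R0Q005.P121 R0Q005.I121 := Vale.Agent.P032.Lt.pat_eq (E' := R0Q005.E121) (by decide +kernel) (pat_step (by decide +kernel) (q_cons (Vale.Agent.P032.Lt.q R0Q005.q121_0) (q_cons (Vale.Agent.P032.Lt.q R0Q005.q121_1) (q_cons (Vale.Agent.P032.Lt.q R0Q005.q121_2) (q_cons (Vale.Agent.P032.Lt.q R0Q005.q121_3) q_nil)))))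

def C122 : List ℕ := [0, 4, 8, 12, 16, 20, 24, 91137, 222209, 353281, 355329, 482305, 606209, 737281, 9599319493674, 13559461528610, 14409712489522]
theorem p122 : Pat 73 73 TBm TCm (C122.map Fm) R0Q006.P122 R0Q006.I122 := Vale.Agent.P032.Lt.pat_eq (E' := R0Q006.E122) (by decide +kernel) (pat_step (by decide +kernel) (q_cons (Vale.Agent.P032.Lt.q R0Q006.q122_0) q_nil))

theorem p123 : Pat 73 73 TBm TCm (CB.map Fm) R0Q006.P123 R0Q006.I123 := Vale.Agent.P032.Lt.pat_eq (E' := R0Q006.E) eB (pat_step (by decide +kernel) (q_cons (Vale.Agent.P032.Lt.q R0Q006.q123_0) (q_cons (Vale.Agent.P032.Lt.q R0Q006.q123_1) (q_cons (Vale.Agent.P032.Lt.q R0Q006.q123_2) (q_cons (Vale.Agent.P032.Lt.q R0Q006.q123_3) (q_cons (Vale.Agent.P032.Lt.q R0Q006.q123_4) (q_cons (Vale.Agent.P032.Lt.q R0Q006.q123_5) (q_cons (Vale.Agent.P032.Lt.q R0Q006.q123_6) (q_cons (Vale.Agent.P032.Lt.q R0Q006.q123_7) (q_cons (Vale.Agent.P032.Lt.q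 R0Q006.q123_8) (q_cons (Vale.Agent.P032.Lt.q R0Q006.q123_9) q_nil)))))))))))

def C124 : List ℕ := [0, 4, 8, 12, 16, 20, 24, 355329, 486401, 615425, 617473, 748545, 17760979733546, 19332791751730, 23305118241842, 24404362875954]
theorem p124 : Pat 73 73 TBm TCm (C124.map Fm) R0Q006.P124 R0Q006.I124 := Vale.Agent.P032.Lt.pat_eq (E' := R0Q006.E124) (by decide +kernel) (pat_step (by decide +kernel) (q_cons (Vale.Agent.P032.Lt.q R0Q006.q124_0) (q_cons (Vale.Agent.P032.Lt.q R0Q006.q124_1) q_nil)))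

def C125 : List ℕ := [0, 4, 8, 12, 16, 20, 24, 216065, 347137, 476161, 478209, 737281, 9587144483858, 13376253289490, 13379071861778, 14397433666570, 18325665965074, 19422940191754, 23812402665478, 23932644972550, 23932712081414, 24353631459334]
theorem p125 : Pat 73 73 TBm TCm (C125.map Fm) R0Q006.P125 R0Q006.I125 := Vale.Agent.P032.Lt.pat_eq (E' := R0Q006.E125) (by decide +kernel) (pat_step (by decide +kernel) (q_cons (Vale.Agent.P032.Lt.q R0Q006.q125_0) (q_cons (Vale.Agent.P032.Lt.q R0Q006.q125_1) q_nil)))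

def C126 : List ℕ := [0, 4, 8, 12, 16, 20, 24, 93185, 224257, 344065, 475137, 617473, 748545, 14397497235462, 14577800009734, 14577801975814, 22163577590834, 24285980742706]
theorem p126 : Pat 73 73 TBm TCm (C126.map Fm) R0Q006.P126 R0Q006.I126 := Vale.Agent.P032.Lt.pat_eq (E' := R0Q006.E126) (by decide +kernel) (pat_step (by decide +kernel) (q_cons (Vale.Agent.P032.Lt.q R0Q006.q126_0) (q_cons (Vale.Agent.P032.Lt.q R0Q006.q126_1) q_nil)))

def C127 : List ℕ := [0, 4, 8, 12, 16, 20, 24, 222209, 353281, 355329, 484353, 615425, 617473, 9587127178290, 9599258938410, 9647182531626, 9647256720434, 13916380023850, 14036639108138, 14397490549810, 14409622309930, 18305836600362, 18305910789170, 18366040331314, 18393204476970, 19328113005618, 19355277151274, 22715023838250, 22835282922538, 23391481187370, 23812387982378, 23932647066666, 24353553861674]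
theorem p127 : Pat 73 73 TBm TCm (C127.map Fm) R0Q006.P127 R0Q006.I127 := Vale.Agent.P032.Lt.pat_eq (E' := R0Q006.E127) (by decide +kernel) (pat_step (by decide +kernel) (q_cons (Vale.Agent.P032.Lt.q R0Q006.q127_0) q_nil))

def L : List (List ℕ) := [R0Q000.P0, R0Q000.P1, R0Q000.P2, R0Q000.P3, R0Q000.P4, R0Q000.P5, R0Q000.P6, R0Q000.P7, R0Q000.P8, R0Q000.P9, R0Q000.P10, R0Q000.P11, R0Q000.P12, R0Q000.P13, R0Q000.P14, R0Q000.P15, R0Q000.P16, R0Q000.P17, R0Q001.P18, R0Q001.P19, R0Q001.P20, R0Q001.P21, R0Q001.P22, R0Q001.P23, R0Q001.P24, R0Q001.P25, R0Q001.P26, R0Q001.P27, R0Q001.P28, R0Q001.P29, R0Q001.P30, R0Q001.P31, R0Q001.P32, R0Q002.P33, R0Q002.P34, R0Q002.P35, R0Q002.P36, R0Q002.P37, R0Q002.P38, R0Q002.P39, R0Q002.P40, R0Q002.P41, R0Q002.P42, R0Q002.P43, R0Q002.P44, R0Q002.P45, R0Q002.P46, R0Q002.P47, R0Q003.P48, R0Q003.P49, R0Q003.P50, R0Q003.P51, R0Q003.P52, R0Q003.P53, R0Q003.P54, R0Q003.P55,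 R0Q003.P56, R0Q003.P57, R0Q003.P58, R0Q003.P59, R0Q003.P60, R0Q003.P61, R0Q003.P62, R0Q003.P63, R0Q003.P64, R0Q003.P65, R0Q003.P66, R0Q003.P67, R0Q003.P68, R0Q003.P69, R0Q003.P70, R0Q003.P71, R0Q003.P72, R0Q003.P73, R0Q003.P74, R0Q004.P75, R0Q004.P76, R0Q004.P77, R0Q004.P78, R0Q004.P79, R0Q004.P80, R0Q004.P81, R0Q004.P82, R0Q004.P83, R0Q004.P84, R0Q004.P85, R0Q004.P86, R0Q004.P87, R0Q004.P88, R0Q004.P89, R0Q004.P90, R0Q004.P91, R0Q004.P92, R0Q004.P93, R0Q004.P94, R0Q004.P95, R0Q004.P96, R0Q004.P97, R0Q005.P98, R0Q005.P99, R0Q005.P100, R0Q005.P101, R0Q005.P102, R0Q005.P103, R0Q005.P104, R0Q005.P105, R0Q005.P106, R0Q005.P107, R0Q005.P108, R0Q005.P109, R0Q005.P110, R0Q005.P111, R0Q005.P112, R0Q005.P113, R0Q005.P114, R0Q005.P115, R0Q005.P116, R0Q005.P117, R0Q005.P118, R0Q005.P119, R0Q005.P120, R0Q005.P121, R0Q006.P122, R0Q006.P123, R0Q006.P124, R0Q006.P125, R0Q006.P126, R0Q006.P127]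

theorem all : ∀ P ∈ L, CrtF 73 73 TBm TCm (Vale.Agent.P032.Fam.fam3 (Vale.Agent.P032.Fam.im0)) P := crtF_cons p0 (crtF_cons p1 (crtF_cons p2 (crtF_cons p3 (crtF_cons p4 (crtF_cons p5 (crtF_cons p6 (crtF_cons p7 (crtF_cons p8 (crtF_cons p9 (crtF_cons p10 (crtF_cons p11 (crtF_cons p12 (crtF_cons p13 (crtF_cons p14 (crtF_cons p15 (crtF_cons p16 (crtF_cons p17 (crtF_cons p18 (crtF_cons p19 (crtF_cons p20 (crtF_cons p21 (crtF_cons p22 (crtF_cons p23 (crtF_cons p24 (crtF_cons p25 (crtF_cons p26 (crtF_cons p27 (crtF_cons p28 (crtF_cons p29 (crtF_cons p30 (crtF_cons p31 (crtF_cons p32 (crtF_cons p33 (crtF_cons p34 (crtF_cons p35 (crtF_cons p36 (crtF_cons p37 (crtF_cons p38 (crtF_cons p39 (crtF_cons p40 (crtF_cons p41 (crtF_cons p42 (crtF_cons p43 (crtF_cons p44 (crtF_cons p45 (crtF_cons p46 (crtF_cons p47 (crtF_cons p48 (crtF_cons p49 (crtF_cons p50 (crtF_cons p51 (crtF_cons p52 (crtF_cons p53 (crtF_cons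 p54 (crtF_cons p55 (crtF_cons p56 (crtF_cons p57 (crtF_cons p58 (crtF_cons p59 (crtF_cons p60 (crtF_cons p61 (crtF_cons p62 (crtF_cons p63 (crtF_cons p64 (crtF_cons p65 (crtF_cons p66 (crtF_cons p67 (crtF_cons p68 (crtF_cons p69 (crtF_cons p70 (crtF_cons p71 (crtF_cons p72 (crtF_cons p73 (crtF_cons p74 (crtF_cons p75 (crtF_cons p76 (crtF_cons p77 (crtF_cons p78 (crtF_cons p79 (crtF_cons p80 (crtF_cons p81 (crtF_cons p82 (crtF_cons p83 (crtF_cons p84 (crtF_cons p85 (crtF_cons p86 (crtF_cons p87 (crtF_cons p88 (crtF_cons p89 (crtF_cons p90 (crtF_cons p91 (crtF_cons p92 (crtF_cons p93 (crtF_cons p94 (crtF_cons p95 (crtF_cons p96 (crtF_cons p97 (crtF_cons p98 (crtF_cons p99 (crtF_cons p100 (crtF_cons p101 (crtF_cons p102 (crtF_cons p103 (crtF_cons p104 (crtF_cons p105 (crtF_cons p106 (crtF_cons p107 (crtF_cons p108 (crtF_cons p109 (crtF_cons p110 (crtF_cons p111 (crtF_cons p112 (crtF_cons p113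 (crtF_cons p114 (crtF_cons p115 (crtF_cons p116 (crtF_cons p117 (crtF_cons p118 (crtF_cons p119 (crtF_cons p120 (crtF_cons p121 (crtF_cons p122 (crtF_cons p123 (crtF_cons p124 (crtF_cons p125 (crtF_cons p126 (crtF_cons p127 crtF_nil)))))))))))))))))))))))))))))))))))))))))))))))))))))))))))))))))))))))))))))))))))))))))))))))))))))))))))))))))))))))))))))))

theorem ch : chT 73 73 TCm s0_000 L = true := by decide +kernel

end Vale.Agent.P032X.Cert.X3.A.R0H000
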