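import Vale.Agent.P032X.H892.LtH
import Vale.Agent.P032X.H286.W73
import Vale.Agent.P032X.Cert.X3.A.R0T
import Vale.Agent.P032X.Cert.X3.A.R0Q007
import Vale.Agent.P032X.Cert.X3.A.R0Q008
import Vale.Agent.P032X.Cert.X3.A.R0Q009
import Vale.Agent.P032X.Cert.X3.A.R0Q010
import Vale.Agent.P032X.Cert.X3.A.R0Q011
import Vale.Agent.P032X.Cert.X3.A.R0Q012
import Vale.Agent.P032X.Cert.X3.A.R0Q013

set_option maxRecDepth 1000000

namespace Vale.Agent.P032X.Cert.X3.A.R0H001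

open Vale.Agent.P032.H820.K Vale.Agent.P032.H357.MK Vale.Agent.P032.H286.E Vale.Agent.P032.H61 Vale.Agent.P032X.Cert.X3.A

noncomputable abbrev Fm : ℕ → List ℕ := Vale.Agent.P032.Fam.fam3 (Vale.Agent.P032.Fam.im0)

def CB : List ℕ := [0, 4, 8, 12, 16, 20, 24]

theorem eB : Vale.Agent.P032.Lt.eqLL (CB.map Fm) R0Q007.E = true := by decide +kernel

def C128 : List ℕ := [0, 4, 8, 12, 16, 20, 24, 349185, 611329, 9177411316762, 14671750065178]
theorem p128 : Pat 73 73 TBm TCm (C128.map Fm) R0Q007.P128 R0Q007.I128 := Vale.Agent.P032.Lt.pat_eq (E' := R0Q007.E128) (by decide +kernel) (pat_step (by decide +kernel) (q_cons (Vale.Agent.P032.Lt.q R0Q007.q128_0) (q_cons (Vale.Agent.P032.Lt.q R0Q007.q128_1) (q_cons (Vale.Agent.P032.Lt.q R0Q007.q128_2) q_nil))))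

def C129 : List ℕ := [0, 4, 8, 12, 16, 20, 24, 89089, 344065, 349185, 482305, 613377, 742401, 9599324482586, 13574460359714, 14577800009734, 14582496843782, 19392922862626, 22285760556058, 23923278310426]
theorem p129 : Pat 73 73 TBm TCm (C129.map Fm) R0Q007.P129 R0Q007.I129 := Vale.Agent.P032.Lt.pat_eq (E' := R0Q007.E129) (by decide +kernel) (pat_step (by decide +kernel) (q_cons (Vale.Agent.P032.Lt.q R0Q007.q129_0) (q_cons (Vale.Agent.P032.Lt.q R0Q007.q129_1) (q_cons (Vale.Agent.P032.Lt.q R0Q007.q129_2) (q_cons (Vale.Agent.P032.Lt.q R0Q007.q129_3) (q_cons (Vale.Agent.P032.Lt.q R0Q007.q129_4) (q_cons (Vale.Agent.P032.Lt.q R0Q007.q129_5) (q_cons (Vale.Agent.P032.Lt.q R0Q007.q129_6) (q_cons (Vale.Agent.P032.Lt.q R0Q007.q129_7) (q_cons (Vale.Agent.P032.Lt.q R0Q007.q129_8) (q_cons (Vale.Agent.P032.Lt.q R0Q007.q129_9) q_nil)))))))))))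

def C130 : List ℕ := [0, 4, 8, 12, 16, 20, 24, 476161, 13371471256586]
theorem p130 : Pat 73 73 TBm TCm (C130.map Fm) R0Q007.P130 R0Q007.I130 := Vale.Agent.P032.Lt.pat_eq (E' := R0Q007.E130) (by decide +kernel) (pat_step (by decide +kernel) (q_cons (Vale.Agent.P032.Lt.q R0Q007.q130_0) (q_cons (Vale.Agent.P032.Lt.q R0Q007.q130_1) (q_cons (Vale.Agent.P032.Lt.q R0Q007.q130_2) (q_cons (Vale.Agent.P032.Lt.q R0Q007.q130_3) (q_cons (Vale.Agent.P032.Lt.q R0Q007.q130_4) q_nil))))))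

def C131 : List ℕ := [0, 4, 8, 12, 16, 20, 24, 214017, 617473, 13921152097290, 18791646319666]
theorem p131 : Pat 73 73 TBm TCm (C131.map Fm) R0Q007.P131 R0Q007.I131 := Vale.Agent.P032.Lt.pat_eq (E' := R0Q007.E131) (by decide +kernel) (pat_step (by decide +kernel) (q_cons (Vale.Agent.P032.Lt.q R0Q007.q131_0) q_nil))

def C132 : List ℕ := [0, 4, 8, 12, 16, 20, 24, 84993, 91137, 212993, 475137, 613377, 737281, 22155141408790, 22157961160726, 22215187064854, 22215254173718, 22215296116758]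
theorem p132 : Pat 73 73 TBm TCm (C132.map Fm) R0Q007.P132 R0Q007.I132 := Vale.Agent.P032.Lt.pat_eq (E' := R0Q007.E132) (by decide +kernel) (pat_step (by decide +kernel) (q_cons (Vale.Agent.P032.Lt.q R0Q007.q132_0) (q_cons (Vale.Agent.P032.Lt.q R0Q007.q132_1) (q_cons (Vale.Agent.P032.Lt.q R0Q007.q132_2) (q_cons (Vale.Agent.P032.Lt.q R0Q007.q132_3) (q_cons (Vale.Agent.P032.Lt.q R0Q007.q132_4) (q_cons (Vale.Agent.P032.Lt.q R0Q007.q132_5) (q_cons (Vale.Agent.P032.Lt.q R0Q007.q132_6) (q_cons (Vale.Agent.P032.Lt.q R0Q007.q132_7) (q_cons (Vale.Agent.P032.Lt.q R0Q007.q132_8) (q_cons (Vale.Agent.P032.Lt.q R0Q007.q132_9) (q_cons (Vale.Agent.P032.Lt.q R0Q007.q132_10) (q_cons (Vale.Agent.P032.Lt.q R0Q007.q132_11) (q_cons (Vale.Agent.P032.Lt.q R0Q007.q132_12) (q_cons (Vale.Agent.P032.Lt.q R0Q007.q132_13) (q_cons (Vale.Agent.P032.Lt.q R0Q007.q132_14) (q_cons (Vale.Agent.P032.Lt.q R0Q007.q132_15) (q_cons (Vale.Agent.P032.Lt.q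 R0Q007.q132_16) (q_cons (Vale.Agent.P032.Lt.q R0Q007.q132_17) (q_cons (Vale.Agent.P032.Lt.q R0Q007.q132_18) (q_cons (Vale.Agent.P032.Lt.q R0Q007.q132_19) q_nil)))))))))))))))))))))

def C133 : List ℕ := [0, 4, 8, 12, 16, 20, 24, 84993, 216065, 218113, 349185, 478209, 480257, 607233, 609281, 614401, 740353, 4704437363730, 13491741090834, 13559351700506, 18310549953546, 18503219766290, 22292328571922]
theorem p133 : Pat 73 73 TBm TCm (C133.map Fm) R0Q007.P133 R0Q007.I133 := Vale.Agent.P032.Lt.pat_eq (E' := R0Q007.E133) (by decide +kernel) (pat_step (by decide +kernel) (q_cons (Vale.Agent.P032.Lt.q R0Q007.q133_0) (q_cons (Vale.Agent.P032.Lt.q R0Q007.q133_1) q_nil)))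

def C134 : List ℕ := [0, 4, 8, 12, 16, 20, 24, 82945, 214017, 345089, 349185, 607233, 9115486084106, 9724212243482, 18503124868106, 18786890243082]
theorem p134 : Pat 73 73 TBm TCm (C134.map Fm) R0Q007.P134 R0Q007.I134 := Vale.Agent.P032.Lt.pat_eq (E' := R0Q007.E134) (by decide +kernel) (pat_step (by decide +kernel) (q_cons (Vale.Agent.P032.Lt.q R0Q007.q134_0) q_nil))

def C135 : List ℕ := [0, 4, 8, 12, 16, 20, 24, 84993, 215041, 216065, 346113, 347137, 349185, 478209, 606209, 609281, 737281, 9102348741658, 9117390562322, 9715756130318, 13928582308882, 14402189349938, 19594009076754, 24275583457286, 24275583588358, 24275583719430, 24275585292294, 24275585554438, 24278402553862, 24278402816006, 24278402947078, 24278404519942]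
theorem p135 : Pat 73 73 TBm TCm (C135.map Fm) R0Q007.P135 R0Q007.I135 := Vale.Agent.P032.Lt.pat_eq (E' := R0Q007.E135) (by decide +kernel) (pat_step (by decide +kernel) (q_cons (Vale.Agent.P032.Lt.q R0Q007.q135_0) (q_cons (Vale.Agent.P032.Lt.q R0Q007.q135_1) (q_cons (Vale.Agent.P032.Lt.q R0Q007.q135_2) (q_cons (Vale.Agent.P032.Lt.q R0Q007.q135_3) (q_cons (Vale.Agent.P032.Lt.q R0Q007.q135_4) (q_cons (Vale.Agent.P032.Lt.q R0Q007.q135_5) q_nil)))))))

def C136 : List ℕ := [0, 4, 8, 12, 16, 20, 24, 84993, 86017, 214017, 217089, 345089, 355329, 607233, 617473, 741377, 4644243859478, 9046926255122, 9727135144970, 17842660662282, 17842750841874, 18370662061106, 18791644353586, 18806607928330, 22232137164822]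
theorem p136 : Pat 73 73 TBm TCm (C136.map Fm) R0Q007.P136 R0Q007.I136 := Vale.Agent.P032.Lt.pat_eq (E' := R0Q007.E136) (by decide +kernel) (pat_step (by decide +kernel) (q_cons (Vale.Agent.P032.Lt.q R0Q007.q136_0) q_nil))

theorem p137 : Pat 73 73 TBm TCm (CB.map Fm) R0Q007.P137 R0Q007.I137 := Vale.Agent.P032.Lt.pat_eq (E' := R0Q007.E) eB (pat_step (by decide +kernel) (q_cons (Vale.Agent.P032.Lt.q R0Q007.q137_0) (q_cons (Vale.Agent.P032.Lt.q R0Q007.q137_1) (q_cons (Vale.Agent.P032.Lt.q R0Q007.q137_2) (q_cons (Vale.Agent.P032.Lt.q R0Q007.q137_3) (q_cons (Vale.Agent.P032.Lt.q R0Q007.q137_4) (q_cons (Vale.Agent.P032.Lt.q R0Q007.q137_5) (q_cons (Vale.Agent.P032.Lt.q R0Q007.q137_6) (q_cons (Vale.Agent.P032.Lt.q R0Q007.q137_7) (q_cons (Vale.Agent.P032.Lt.q R0Q007.q137_8) (q_cons (Vale.Agent.P032.Lt.q R0Q007.q137_9) (q_cons (Vale.Agent.P032.Lt.q R0Q007.q137_10) (q_cons (Vale.Agent.P032.Lt.q R0Q007.q137_11) (q_cons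 (Vale.Agent.P032.Lt.q R0Q007.q137_12) (q_cons (Vale.Agent.P032.Lt.q R0Q007.q137_13) (q_cons (Vale.Agent.P032.Lt.q R0Q007.q137_14) (q_cons (Vale.Agent.P032.Lt.q R0Q007.q137_15) (q_cons (Vale.Agent.P032.Lt.q R0Q007.q137_16) (q_cons (Vale.Agent.P032.Lt.q R0Q007.q137_17) (q_cons (Vale.Agent.P032.Lt.q R0Q007.q137_18) (q_cons (Vale.Agent.P032.Lt.q R0Q007.q137_19) q_nil)))))))))))))))))))))

def C138 : List ℕ := [0, 4, 8, 12, 16, 20, 24, 84993, 216065, 606209, 609281, 737281, 4649839584274]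
theorem p138 : Pat 73 73 TBm TCm (C138.map Fm) R0Q007.P138 R0Q007.I138 := Vale.Agent.P032.Lt.pat_eq (E' := R0Q007.E138) (by decide +kernel) (pat_step (by decide +kernel) (q_cons (Vale.Agent.P032.Lt.q R0Q007.q138_0) (q_cons (Vale.Agent.P032.Lt.q R0Q007.q138_1) (q_cons (Vale.Agent.P032.Lt.q R0Q007.q138_2) (q_cons (Vale.Agent.P032.Lt.q R0Q007.q138_3) (q_cons (Vale.Agent.P032.Lt.q R0Q007.q138_4) (q_cons (Vale.Agent.P032.Lt.q R0Q007.q138_5) (q_cons (Vale.Agent.P032.Lt.q R0Q007.q138_6) (q_cons (Vale.Agent.P032.Lt.q R0Q007.q138_7) (q_cons (Vale.Agent.P032.Lt.q R0Q007.q138_8) (q_cons (Vale.Agent.P032.Lt.q R0Q007.q138_9) q_nil)))))))))))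

theorem p139 : Pat 73 73 TBm TCm (CB.map Fm) R0Q007.P139 R0Q007.I139 := Vale.Agent.P032.Lt.pat_eq (E' := R0Q007.E) eB (pat_step (by decide +kernel) (q_cons (Vale.Agent.P032.Lt.q R0Q007.q139_0) (q_cons (Vale.Agent.P032.Lt.q R0Q007.q139_1) (q_cons (Vale.Agent.P032.Lt.q R0Q007.q139_2) (q_cons (Vale.Agent.P032.Lt.q R0Q007.q139_3) q_nil)))))

def C140 : List ℕ := [0, 4, 8, 12, 16, 20, 24, 82945, 84993, 216065, 347137, 607233, 609281, 611329, 737281, 4719367119890, 9046813008914, 9115398267922, 17774098474002, 17774140152842, 17817366387722, 18310634892314, 18366058292242]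
theorem p140 : Pat 73 73 TBm TCm (C140.map Fm) R0Q007.P140 R0Q007.I140 := Vale.Agent.P032.Lt.pat_eq (E' := R0Q007.E140) (by decide +kernel) (pat_step (by decide +kernel) (q_cons (Vale.Agent.P032.Lt.q R0Q007.q140_0) q_nil))

def C141 : List ℕ := [0, 4, 8, 12, 16, 20, 24, 216065, 347137, 478209, 606209, 737281, 9651904013330, 19044295207962, 24275583457286, 24275585292294, 24275585554438, 24278404519942]
theorem p141 : Pat 73 73 TBm TCm (C141.map Fm) R0Q007.P141 R0Q007.I141 := Vale.Agent.P032.Lt.pat_eq (E' := R0Q007.E141) (by decide +kernel) (pat_step (by decide +kernel) (q_cons (Vale.Agent.P032.Lt.q R0Q007.q141_0) (q_cons (Vale.Agent.P032.Lt.q R0Q007.q141_1) (q_cons (Vale.Agent.P032.Lt.q R0Q007.q141_2) (q_cons (Vale.Agent.P032.Lt.q R0Q007.q141_3) (q_cons (Vale.Agent.P032.Lt.q R0Q007.q141_4) q_nil))))))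

def C142 : List ℕ := [0, 4, 8, 12, 16, 20, 24, 81921, 82945, 87041, 212993, 218113, 345089, 349185, 475137, 476161, 611329, 9727135673370, 14650155424778, 17817309244442, 18505981717530]
theorem p142 : Pat 73 73 TBm TCm (C142.map Fm) R0Q007.P142 R0Q007.I142 := Vale.Agent.P032.Lt.pat_eq (E' := R0Q007.E142) (by decide +kernel) (pat_step (by decide +kernel) (q_cons (Vale.Agent.P032.Lt.q R0Q007.q142_0) (q_cons (Vale.Agent.P032.Lt.q R0Q007.q142_1) (q_cons (Vale.Agent.P032.Lt.q R0Q007.q142_2) (q_cons (Vale.Agent.P032.Lt.q R0Q007.q142_3) (q_cons (Vale.Agent.P032.Lt.q R0Q007.q142_4) (q_cons (Vale.Agent.P032.Lt.q R0Q007.q142_5) (q_cons (Vale.Agent.P032.Lt.q R0Q007.q142_6) q_nil))))))))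

theorem p143 : Pat 73 73 TBm TCm (CB.map Fm) R0Q008.P143 R0Q008.I143 := Vale.Agent.P032.Lt.pat_eq (E' := R0Q008.E) eB (pat_step (by decide +kernel) (q_cons (Vale.Agent.P032.Lt.q R0Q008.q143_0) (q_cons (Vale.Agent.P032.Lt.q R0Q008.q143_1) (q_cons (Vale.Agent.P032.Lt.q R0Q008.q143_2) (q_cons (Vale.Agent.P032.Lt.q R0Q008.q143_3) (q_cons (Vale.Agent.P032.Lt.q R0Q008.q143_4) (q_cons (Vale.Agent.P032.Lt.q R0Q008.q143_5) (q_cons (Vale.Agent.P032.Lt.q R0Q008.q143_6) (q_cons (Vale.Agent.P032.Lt.q R0Q008.q143_7) (q_cons (Vale.Agent.P032.Lt.q R0Q008.q143_8) (q_cons (Vale.Agent.P032.Lt.q R0Q008.q143_9) (q_cons (Vale.Agent.P032.Lt.q R0Q008.q143_10) (q_cons (Vale.Agent.P032.Lt.q R0Q008.q143_11) (q_cons (Vale.Agent.P032.Lt.q R0Q008.q143_12) (q_cons (Vale.Agent.P032.Lt.q R0Q008.q143_13) (q_cons (Vale.Agent.P032.Lt.q R0Q008.q143_14) (q_cons (Vale.Agent.P032.Lt.q R0Q008.q143_15) (q_cons (Vale.Agent.P032.Lt.q R0Q008.q143_16)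 (q_cons (Vale.Agent.P032.Lt.q R0Q008.q143_17) (q_cons (Vale.Agent.P032.Lt.q R0Q008.q143_18) (q_cons (Vale.Agent.P032.Lt.q R0Q008.q143_19) (q_cons (Vale.Agent.P032.Lt.q R0Q008.q143_20) (q_cons (Vale.Agent.P032.Lt.q R0Q008.q143_21) (q_cons (Vale.Agent.P032.Lt.q R0Q008.q143_22) (q_cons (Vale.Agent.P032.Lt.q R0Q008.q143_23) (q_cons (Vale.Agent.P032.Lt.q R0Q008.q143_24) (q_cons (Vale.Agent.P032.Lt.q R0Q008.q143_25) (q_cons (Vale.Agent.P032.Lt.q R0Q008.q143_26) (q_cons (Vale.Agent.P032.Lt.q R0Q008.q143_27) (q_cons (Vale.Agent.P032.Lt.q R0Q008.q143_28) (q_cons (Vale.Agent.P032.Lt.q R0Q008.q143_29) (q_cons (Vale.Agent.P032.Lt.q R0Q008.q143_30) (q_cons (Vale.Agent.P032.Lt.q R0Q008.q143_31) (q_cons (Vale.Agent.P032.Lt.q R0Q008.q143_32) (q_cons (Vale.Agent.P032.Lt.q R0Q008.q143_33) (q_cons (Vale.Agent.P032.Lt.q R0Q008.q143_34) (q_cons (Vale.Agent.P032.Lt.q R0Q008.q143_35) (q_cons (Vale.Agent.P032.Lt.q R0Q008.q143_36) (q_cons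 (Vale.Agent.P032.Lt.q R0Q008.q143_37) (q_cons (Vale.Agent.P032.Lt.q R0Q008.q143_38) (q_cons (Vale.Agent.P032.Lt.q R0Q008.q143_39) (q_cons (Vale.Agent.P032.Lt.q R0Q008.q143_40) (q_cons (Vale.Agent.P032.Lt.q R0Q008.q143_41) (q_cons (Vale.Agent.P032.Lt.q R0Q008.q143_42) (q_cons (Vale.Agent.P032.Lt.q R0Q008.q143_43) (q_cons (Vale.Agent.P032.Lt.q R0Q008.q143_44) (q_cons (Vale.Agent.P032.Lt.q R0Q008.q143_45) (q_cons (Vale.Agent.P032.Lt.q R0Q008.q143_46) (q_cons (Vale.Agent.P032.Lt.q R0Q008.q143_47) q_nil)))))))))))))))))))))))))))))))))))))))))))))))))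

theorem p144 : Pat 73 73 TBm TCm (CB.map Fm) R0Q008.P144 R0Q008.I144 := Vale.Agent.P032.Lt.pat_eq (E' := R0Q008.E) eB (pat_step (by decide +kernel) (q_cons (Vale.Agent.P032.Lt.q R0Q008.q144_0) (q_cons (Vale.Agent.P032.Lt.q R0Q008.q144_1) (q_cons (Vale.Agent.P032.Lt.q R0Q008.q144_2) (q_cons (Vale.Agent.P032.Lt.q R0Q008.q144_3) (q_cons (Vale.Agent.P032.Lt.q R0Q008.q144_4) (q_cons (Vale.Agent.P032.Lt.q R0Q008.q144_5) (q_cons (Vale.Agent.P032.Lt.q R0Q008.q144_6) (q_cons (Vale.Agent.P032.Lt.q R0Q008.q144_7) (q_cons (Vale.Agent.P032.Lt.q R0Q008.q144_8) q_nil))))))))))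

def C145 : List ℕ := [0, 4, 8, 12, 16, 20, 24, 84993, 347137, 349185, 475137, 607233, 609281, 611329, 737281, 9177474231322, 14672751455258, 17817366387722, 18325601215506, 18503196699674, 18803883074578, 18806612122634]
theorem p145 : Pat 73 73 TBm TCm (C145.map Fm) R0Q008.P145 R0Q008.I145 := Vale.Agent.P032.Lt.pat_eq (E' := R0Q008.E145) (by decide +kernel) (pat_step (by decide +kernel) (q_cons (Vale.Agent.P032.Lt.q R0Q008.q145_0) q_nil))

def C146 : List ℕ := [0, 4, 8, 12, 16, 20, 24, 81921, 344065, 475137, 748545, 13367776860166, 13487952058374, 14409661765638, 22703824262194, 22712259662898, 24335690191922, 24352686953522]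
theorem p146 : Pat 73 73 TBm TCm (C146.map Fm) R0Q008.P146 R0Q008.I146 := Vale.Agent.P032.Lt.pat_eq (E' := R0Q008.E146) (by decide +kernel) (pat_step (by decide +kernel) (q_cons (Vale.Agent.P032.Lt.q R0Q008.q146_0) q_nil))

def C147 : List ℕ := [0, 4, 8, 12, 16, 20, 24, 82945, 89089, 345089, 607233, 9175550614538, 13376244374538, 13559362176034, 17956331537442, 18791654972426]
theorem p147 : Pat 73 73 TBm TCm (C147.map Fm) R0Q008.P147 R0Q008.I147 := Vale.Agent.P032.Lt.pat_eq (E' := R0Q008.E147) (by decide +kernel) (pat_step (by decide +kernel) (q_cons (Vale.Agent.P032.Lt.q R0Q008.q147_0) (q_cons (Vale.Agent.P032.Lt.q R0Q008.q147_1) (q_cons (Vale.Agent.P032.Lt.q R0Q008.q147_2) (q_cons (Vale.Agent.P032.Lt.q R0Q008.q147_3) q_nil)))))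

def C148 : List ℕ := [0, 4, 8, 12, 16, 20, 24, 82945, 87041, 89089, 93185, 214017, 218113, 743425, 9167163839538, 13556618583050, 14105300655114, 23925155250206, 23925222359070]
theorem p148 : Pat 73 73 TBm TCm (C148.map Fm) R0Q008.P148 R0Q008.I148 := Vale.Agent.P032.Lt.pat_eq (E' := R0Q008.E148) (by decide +kernel) (pat_step (by decide +kernel) (q_cons (Vale.Agent.P032.Lt.q R0Q008.q148_0) (q_cons (Vale.Agent.P032.Lt.q R0Q008.q148_1) (q_cons (Vale.Agent.P032.Lt.q R0Q008.q148_2) q_nil))))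

def C149 : List ℕ := [0, 4, 8, 12, 16, 20, 24, 218113, 480257, 14041369242650]
theorem p149 : Pat 73 73 TBm TCm (C149.map Fm) R0Q008.P149 R0Q008.I149 := Vale.Agent.P032.Lt.pat_eq (E' := R0Q008.E149) (by decide +kernel) (pat_step (by decide +kernel) (q_cons (Vale.Agent.P032.Lt.q R0Q008.q149_0) (q_cons (Vale.Agent.P032.Lt.q R0Q008.q149_1) (q_cons (Vale.Agent.P032.Lt.q R0Q008.q149_2) (q_cons (Vale.Agent.P032.Lt.q R0Q008.q149_3) q_nil)))))

theorem p150 : Pat 73 73 TBm TCm (CB.map Fm) R0Q008.P150 R0Q008.I150 := Vale.Agent.P032.Lt.pat_eq (E' := R0Q008.E) eB (pat_step (by decide +kernel) (q_cons (Vale.Agent.P032.Lt.q R0Q008.q150_0) (q_cons (Vale.Agent.P032.Lt.q R0Q008.q150_1) (q_cons (Vale.Agent.P032.Lt.q R0Q008.q150_2) q_nil))))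

def C151 : List ℕ := [0, 4, 8, 12, 16, 20, 24, 218113, 349185, 480257, 9169958038554, 19061267590170, 19061269556250]
theorem p151 : Pat 73 73 TBm TCm (C151.map Fm) R0Q008.P151 R0Q008.I151 := Vale.Agent.P032.Lt.pat_eq (E' := R0Q008.E151) (by decide +kernel) (pat_step (by decide +kernel) (q_cons (Vale.Agent.P032.Lt.q R0Q008.q151_0) (q_cons (Vale.Agent.P032.Lt.q R0Q008.q151_1) (q_cons (Vale.Agent.P032.Lt.q R0Q008.q151_2) (q_cons (Vale.Agent.P032.Lt.q R0Q008.q151_3) (q_cons (Vale.Agent.P032.Lt.q R0Q008.q151_4) (q_cons (Vale.Agent.P032.Lt.q R0Q008.q151_5) q_nil)))))))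

def C152 : List ℕ := [0, 4, 8, 12, 16, 20, 24, 89089, 212993, 215041, 222209, 344065, 475137, 737281, 9177521144866, 9724211847182, 14063937997866, 22782679665706]
theorem p152 : Pat 73 73 TBm TCm (C152.map Fm) R0Q008.P152 R0Q008.I152 := Vale.Agent.P032.Lt.pat_eq (E' := R0Q008.E152) (by decide +kernel) (pat_step (by decide +kernel) (q_cons (Vale.Agent.P032.Lt.q R0Q008.q152_0) (q_cons (Vale.Agent.P032.Lt.q R0Q008.q152_1) q_nil)))

def C153 : List ℕ := [0, 4, 8, 12, 16, 20, 24, 214017, 345089, 475137, 607233, 738305, 742401, 9595563367434, 9599322119178, 18941950123018, 22703765806090, 22707524557834]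
theorem p153 : Pat 73 73 TBm TCm (C153.map Fm) R0Q008.P153 R0Q008.I153 := Vale.Agent.P032.Lt.pat_eq (E' := R0Q008.E153) (by decide +kernel) (pat_step (by decide +kernel) (q_cons (Vale.Agent.P032.Lt.q R0Q008.q153_0) (q_cons (Vale.Agent.P032.Lt.q R0Q008.q153_1) (q_cons (Vale.Agent.P032.Lt.q R0Q008.q153_2) q_nil))))

def C154 : List ℕ := [0, 4, 8, 12, 16, 20, 24, 606209, 737281, 24338546644998, 24338613753862, 24338622142470]
theorem p154 : Pat 73 73 TBm TCm (C154.map Fm) R0Q008.P154 R0Q008.I154 := Vale.Agent.P032.Lt.pat_eq (E' := R0Q008.E154) (by decide +kernel) (pat_step (by decide +kernel) (q_cons (Vale.Agent.P032.Lt.q R0Q008.q154_0) (q_cons (Vale.Agent.P032.Lt.q R0Q008.q154_1) (q_cons (Vale.Agent.P032.Lt.q R0Q008.q154_2) q_nil))))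

theorem p155 : Pat 73 73 TBm TCm (CB.map Fm) R0Q008.P155 R0Q008.I155 := Vale.Agent.P032.Lt.pat_eq (E' := R0Q008.E) eB (pat_step (by decide +kernel) (q_cons (Vale.Agent.P032.Lt.q R0Q008.q155_0) (q_cons (Vale.Agent.P032.Lt.q R0Q008.q155_1) (q_cons (Vale.Agent.P032.Lt.q R0Q008.q155_2) (q_cons (Vale.Agent.P032.Lt.q R0Q008.q155_3) (q_cons (Vale.Agent.P032.Lt.q R0Q008.q155_4) (q_cons (Vale.Agent.P032.Lt.q R0Q008.q155_5) (q_cons (Vale.Agent.P032.Lt.q R0Q008.q155_6) (q_cons (Vale.Agent.P032.Lt.q R0Q008.q155_7) (q_cons (Vale.Agent.P032.Lt.q R0Q008.q155_8) (q_cons (Vale.Agent.P032.Lt.q R0Q008.q155_9) (q_cons (Vale.Agent.P032.Lt.q R0Q008.q155_10) (q_cons (Vale.Agent.P032.Lt.q R0Q008.q155_11) (q_cons (Vale.Agent.P032.Lt.q R0Q008.q155_12) (q_cons (Vale.Agent.P032.Lt.q R0Q008.q155_13) (q_cons (Vale.Agent.P032.Lt.q R0Q008.q155_14) (q_cons (Vale.Agent.P032.Lt.q R0Q008.q155_15) (q_cons (Vale.Agent.P032.Lt.q R0Q008.q155_16)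 (q_cons (Vale.Agent.P032.Lt.q R0Q008.q155_17) (q_cons (Vale.Agent.P032.Lt.q R0Q008.q155_18) (q_cons (Vale.Agent.P032.Lt.q R0Q008.q155_19) (q_cons (Vale.Agent.P032.Lt.q R0Q008.q155_20) (q_cons (Vale.Agent.P032.Lt.q R0Q008.q155_21) (q_cons (Vale.Agent.P032.Lt.q R0Q008.q155_22) (q_cons (Vale.Agent.P032.Lt.q R0Q008.q155_23) (q_cons (Vale.Agent.P032.Lt.q R0Q008.q155_24) (q_cons (Vale.Agent.P032.Lt.q R0Q008.q155_25) (q_cons (Vale.Agent.P032.Lt.q R0Q008.q155_26) (q_cons (Vale.Agent.P032.Lt.q R0Q008.q155_27) (q_cons (Vale.Agent.P032.Lt.q R0Q008.q155_28) (q_cons (Vale.Agent.P032.Lt.q R0Q008.q155_29) (q_cons (Vale.Agent.P032.Lt.q R0Q008.q155_30) (q_cons (Vale.Agent.P032.Lt.q R0Q008.q155_31) (q_cons (Vale.Agent.P032.Lt.q R0Q008.q155_32) q_nil))))))))))))))))))))))))))))))))))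

def C156 : List ℕ := [0, 4, 8, 12, 16, 20, 24, 349185, 355329, 9169895123994]
theorem p156 : Pat 73 73 TBm TCm (C156.map Fm) R0Q008.P156 R0Q008.I156 := Vale.Agent.P032.Lt.pat_eq (E' := R0Q008.E156) (by decide +kernel) (pat_step (by decide +kernel) (q_cons (Vale.Agent.P032.Lt.q R0Q008.q156_0) (q_cons (Vale.Agent.P032.Lt.q R0Q008.q156_1) (q_cons (Vale.Agent.P032.Lt.q R0Q008.q156_2) (q_cons (Vale.Agent.P032.Lt.q R0Q008.q156_3) (q_cons (Vale.Agent.P032.Lt.q R0Q008.q156_4) (q_cons (Vale.Agent.P032.Lt.q R0Q008.q156_5) (q_cons (Vale.Agent.P032.Lt.q R0Q008.q156_6) (q_cons (Vale.Agent.P032.Lt.q R0Q008.q156_7) (q_cons (Vale.Agent.P032.Lt.q R0Q008.q156_8) (q_cons (Vale.Agent.P032.Lt.q R0Q008.q156_9) (q_cons (Vale.Agent.P032.Lt.q R0Q008.q156_10) (q_cons (Vale.Agent.P032.Lt.q R0Q008.q156_11) (q_cons (Vale.Agent.P032.Lt.q R0Q008.q156_12) q_nil))))))))))))))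

def C157 : List ℕ := [0, 4, 8, 12, 16, 20, 24, 212993, 476161, 606209, 737281]
theorem p157 : Pat 73 73 TBm TCm (C157.map Fm) R0Q008.P157 R0Q008.I157 := Vale.Agent.P032.Lt.pat_eq (E' := R0Q008.E157) (by decide +kernel) (pat_step (by decide +kernel) (q_cons (Vale.Agent.P032.Lt.q R0Q008.q157_0) (q_cons (Vale.Agent.P032.Lt.q R0Q008.q157_1) (q_cons (Vale.Agent.P032.Lt.q R0Q008.q157_2) (q_cons (Vale.Agent.P032.Lt.q R0Q008.q157_3) (q_cons (Vale.Agent.P032.Lt.q R0Q008.q157_4) (q_cons (Vale.Agent.P032.Lt.q R0Q008.q157_5) q_nil)))))))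

def C158 : List ℕ := [0, 4, 8, 12, 16, 20, 24, 91137, 212993, 224257, 344065, 475137, 617473, 4772044295210, 9115408093230, 9167144700970, 14409716553734, 14672691288070, 18513486631986, 22155054500906]
theorem p158 : Pat 73 73 TBm TCm (C158.map Fm) R0Q008.P158 R0Q008.I158 := Vale.Agent.P032.Lt.pat_eq (E' := R0Q008.E158) (by decide +kernel) (pat_step (by decide +kernel) (q_cons (Vale.Agent.P032.Lt.q R0Q008.q158_0) q_nil))

def C159 : List ℕ := [0, 4, 8, 12, 16, 20, 24, 89089, 91137, 220161, 222209, 351233, 482305, 606209, 613377, 737281, 9169891705890, 9170004952098, 9719557342242, 13559348282402, 13559461528610, 13928692665386, 14109013918754, 17956432462882, 17963948655650, 24278391937030, 24278404519942, 24285920712710, 24338605365254, 24338613753862, 24406251100166, 24406267877382]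
theorem p159 : Pat 73 73 TBm TCm (C159.map Fm) R0Q009.P159 R0Q009.I159 := Vale.Agent.P032.Lt.pat_eq (E' := R0Q009.E159) (by decide +kernel) (pat_step (by decide +kernel) (q_cons (Vale.Agent.P032.Lt.q R0Q009.q159_0) q_nil))

def C160 : List ℕ := [0, 4, 8, 12, 16, 20, 24, 93185, 222209, 224257, 344065, 475137, 617473, 748545, 14397495269382, 14405963569158, 14577800009734, 14577801975814, 22163577590834, 24285980742706]
theorem p160 : Pat 73 73 TBm TCm (C160.map Fm) R0Q009.P160 R0Q009.I160 := Vale.Agent.P032.Lt.pat_eq (E' := R0Q009.E160) (by decide +kernel) (pat_step (by decide +kernel) (q_cons (Vale.Agent.P032.Lt.q R0Q009.q160_0) (q_cons (Vale.Agent.P032.Lt.q R0Q009.q160_1) q_nil)))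

theorem p161 : Pat 73 73 TBm TCm (CB.map Fm) R0Q009.P161 R0Q009.I161 := Vale.Agent.P032.Lt.pat_eq (E' := R0Q009.E) eB (pat_step (by decide +kernel) (q_cons (Vale.Agent.P032.Lt.q R0Q009.q161_0) (q_cons (Vale.Agent.P032.Lt.q R0Q009.q161_1) (q_cons (Vale.Agent.P032.Lt.q R0Q009.q161_2) (q_cons (Vale.Agent.P032.Lt.q R0Q009.q161_3) (q_cons (Vale.Agent.P032.Lt.q R0Q009.q161_4) (q_cons (Vale.Agent.P032.Lt.q R0Q009.q161_5) (q_cons (Vale.Agent.P032.Lt.q R0Q009.q161_6) (q_cons (Vale.Agent.P032.Lt.q R0Q009.q161_7) (q_cons (Vale.Agent.P032.Lt.q R0Q009.q161_8) (q_cons (Vale.Agent.P032.Lt.q R0Q009.q161_9) (q_cons (Vale.Agent.P032.Lt.q R0Q009.q161_10) (q_cons (Vale.Agent.P032.Lt.q R0Q009.q161_11) (q_cons (Vale.Agent.P032.Lt.q R0Q009.q161_12) (q_cons (Vale.Agent.P032.Lt.q R0Q009.q161_13) q_nil)))))))))))))))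

theorem p162 : Pat 73 73 TBm TCm (CB.map Fm) R0Q009.P162 R0Q009.I162 := Vale.Agent.P032.Lt.pat_eq (E' := R0Q009.E) eB (pat_step (by decide +kernel) (q_cons (Vale.Agent.P032.Lt.q R0Q009.q162_0) (q_cons (Vale.Agent.P032.Lt.q R0Q009.q162_1) (q_cons (Vale.Agent.P032.Lt.q R0Q009.q162_2) (q_cons (Vale.Agent.P032.Lt.q R0Q009.q162_3) (q_cons (Vale.Agent.P032.Lt.q R0Q009.q162_4) (q_cons (Vale.Agent.P032.Lt.q R0Q009.q162_5) (q_cons (Vale.Agent.P032.Lt.q R0Q009.q162_6) (q_cons (Vale.Agent.P032.Lt.q R0Q009.q162_7) (q_cons (Vale.Agent.P032.Lt.q R0Q009.q162_8) q_nil))))))))))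

theorem p163 : Pat 73 73 TBm TCm (CB.map Fm) R0Q009.P163 R0Q009.I163 := Vale.Agent.P032.Lt.pat_eq (E' := R0Q009.E) eB (pat_step (by decide +kernel) (q_cons (Vale.Agent.P032.Lt.q R0Q009.q163_0) (q_cons (Vale.Agent.P032.Lt.q R0Q009.q163_1) (q_cons (Vale.Agent.P032.Lt.q R0Q009.q163_2) (q_cons (Vale.Agent.P032.Lt.q R0Q009.q163_3) (q_cons (Vale.Agent.P032.Lt.q R0Q009.q163_4) q_nil))))))

def C164 : List ℕ := [0, 4, 8, 12, 16, 20, 24, 89089, 216065, 486401, 606209, 609281, 737281, 740353, 9169891705890, 9595564155922, 13488024933426, 24404313728018]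
theorem p164 : Pat 73 73 TBm TCm (C164.map Fm) R0Q009.P164 R0Q009.I164 := Vale.Agent.P032.Lt.pat_eq (E' := R0Q009.E164) (by decide +kernel) (pat_step (by decide +kernel) (q_cons (Vale.Agent.P032.Lt.q R0Q009.q164_0) (q_cons (Vale.Agent.P032.Lt.q R0Q009.q164_1) (q_cons (Vale.Agent.P032.Lt.q R0Q009.q164_2) (q_cons (Vale.Agent.P032.Lt.q R0Q009.q164_3) (q_cons (Vale.Agent.P032.Lt.q R0Q009.q164_4) (q_cons (Vale.Agent.P032.Lt.q R0Q009.q164_5) (q_cons (Vale.Agent.P032.Lt.q R0Q009.q164_6) (q_cons (Vale.Agent.P032.Lt.q R0Q009.q164_7) (q_cons (Vale.Agent.P032.Lt.q R0Q009.q164_8) (q_cons (Vale.Agent.P032.Lt.q R0Q009.q164_9) (q_cons (Vale.Agent.P032.Lt.q R0Q009.q164_10) (q_cons (Vale.Agent.P032.Lt.q R0Q009.q164_11) (q_cons (Vale.Agent.P032.Lt.q R0Q009.q164_12) (q_cons (Vale.Agent.P032.Lt.q R0Q009.q164_13) (q_cons (Vale.Agent.P032.Lt.q R0Q009.q164_14) (q_cons (Vale.Agent.P032.Lt.q R0Q009.q164_15) (q_cons (Vale.Agent.P032.Lt.q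 R0Q009.q164_16) (q_cons (Vale.Agent.P032.Lt.q R0Q009.q164_17) q_nil)))))))))))))))))))

theorem p165 : Pat 73 73 TBm TCm (CB.map Fm) R0Q009.P165 R0Q009.I165 := Vale.Agent.P032.Lt.pat_eq (E' := R0Q009.E) eB (pat_step (by decide +kernel) (q_cons (Vale.Agent.P032.Lt.q R0Q009.q165_0) (q_cons (Vale.Agent.P032.Lt.q R0Q009.q165_1) (q_cons (Vale.Agent.P032.Lt.q R0Q009.q165_2) (q_cons (Vale.Agent.P032.Lt.q R0Q009.q165_3) (q_cons (Vale.Agent.P032.Lt.q R0Q009.q165_4) (q_cons (Vale.Agent.P032.Lt.q R0Q009.q165_5) (q_cons (Vale.Agent.P032.Lt.q R0Q009.q165_6) (q_cons (Vale.Agent.P032.Lt.q R0Q009.q165_7) q_nil)))))))))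

def C166 : List ℕ := [0, 4, 8, 12, 16, 20, 24, 82945, 344065, 9591828338694, 9591830435846, 14582492256262, 14582494353414, 14582559365126, 17842704440330, 17962917387274, 24278405831690, 24278408977418]
theorem p166 : Pat 73 73 TBm TCm (C166.map Fm) R0Q009.P166 R0Q009.I166 := Vale.Agent.P032.Lt.pat_eq (E' := R0Q009.E166) (by decide +kernel) (pat_step (by decide +kernel) (q_cons (Vale.Agent.P032.Lt.q R0Q009.q166_0) (q_cons (Vale.Agent.P032.Lt.q R0Q009.q166_1) (q_cons (Vale.Agent.P032.Lt.q R0Q009.q166_2) (q_cons (Vale.Agent.P032.Lt.q R0Q009.q166_3) q_nil)))))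

def C167 : List ℕ := [0, 4, 8, 12, 16, 20, 24, 351233, 19388226038810]
theorem p167 : Pat 73 73 TBm TCm (C167.map Fm) R0Q009.P167 R0Q009.I167 := Vale.Agent.P032.Lt.pat_eq (E' := R0Q009.E167) (by decide +kernel) (pat_step (by decide +kernel) (q_cons (Vale.Agent.P032.Lt.q R0Q009.q167_0) q_nil))

def C168 : List ℕ := [0, 4, 8, 12, 16, 20, 24, 349185, 606209, 737281, 9046880117778, 9591803440154]
theorem p168 : Pat 73 73 TBm TCm (C168.map Fm) R0Q009.P168 R0Q009.I168 := Vale.Agent.P032.Lt.pat_eq (E' := R0Q009.E168) (by decide +kernel) (pat_step (by decide +kernel) (q_cons (Vale.Agent.P032.Lt.q R0Q009.q168_0) (q_cons (Vale.Agent.P032.Lt.q R0Q009.q168_1) (q_cons (Vale.Agent.P032.Lt.q R0Q009.q168_2) (q_cons (Vale.Agent.P032.Lt.q R0Q009.q168_3) (q_cons (Vale.Agent.P032.Lt.q R0Q009.q168_4) (q_cons (Vale.Agent.P032.Lt.q R0Q009.q168_5) q_nil)))))))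

def C169 : List ℕ := [0, 4, 8, 12, 16, 20, 24, 214017, 223233, 344065, 476161, 607233, 738305, 9595536103430, 9595603212294, 9651882383366, 18325621922826, 18393273552942, 19422045887498, 22835299834890, 23931723799562]
theorem p169 : Pat 73 73 TBm TCm (C169.map Fm) R0Q009.P169 R0Q009.I169 := Vale.Agent.P032.Lt.pat_eq (E' := R0Q009.E169) (by decide +kernel) (pat_step (by decide +kernel) (q_cons (Vale.Agent.P032.Lt.q R0Q009.q169_0) (q_cons (Vale.Agent.P032.Lt.q R0Q009.q169_1) q_nil)))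

def C170 : List ℕ := [0, 4, 8, 12, 16, 20, 24, 81921, 475137, 486401, 606209, 737281, 14650146772018, 24278383548422, 24278400325638, 24338542450694]
theorem p170 : Pat 73 73 TBm TCm (C170.map Fm) R0Q009.P170 R0Q009.I170 := Vale.Agent.P032.Lt.pat_eq (E' := R0Q009.E170) (by decide +kernel) (pat_step (by decide +kernel) (q_cons (Vale.Agent.P032.Lt.q R0Q009.q170_0) q_nil))

theorem p171 : Pat 73 73 TBm TCm (CB.map Fm) R0Q009.P171 R0Q009.I171 := Vale.Agent.P032.Lt.pat_eq (E' := R0Q009.E) eB (pat_step (by decide +kernel) (q_cons (Vale.Agent.P032.Lt.q R0Q009.q171_0) (q_cons (Vale.Agent.P032.Lt.q R0Q009.q171_1) (q_cons (Vale.Agent.P032.Lt.q R0Q009.q171_2) (q_cons (Vale.Agent.P032.Lt.q R0Q009.q171_3) (q_cons (Vale.Agent.P032.Lt.q R0Q009.q171_4) (q_cons (Vale.Agent.P032.Lt.q R0Q009.q171_5) (q_cons (Vale.Agent.P032.Lt.q R0Q009.q171_6) q_nil))))))))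

def C172 : List ℕ := [0, 4, 8, 12, 16, 20, 24, 212993, 216065, 218113, 349185, 606209, 737281, 9587106343962, 9595562058770]
theorem p172 : Pat 73 73 TBm TCm (C172.map Fm) R0Q009.P172 R0Q009.I172 := Vale.Agent.P032.Lt.pat_eq (E' := R0Q009.E172) (by decide +kernel) (pat_step (by decide +kernel) (q_cons (Vale.Agent.P032.Lt.q R0Q009.q172_0) (q_cons (Vale.Agent.P032.Lt.q R0Q009.q172_1) (q_cons (Vale.Agent.P032.Lt.q R0Q009.q172_2) q_nil))))

def C173 : List ℕ := [0, 4, 8, 12, 16, 20, 24, 215041, 349185, 355329, 475137, 485377, 606209, 616449, 737281, 9098534808602, 9102290021402, 9102291987482, 9102348741658, 9587127178290, 9591824274482, 18806684996658, 24275583457286, 24275585292294, 24275585554438, 24278404519942, 24278404782086]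
theorem p173 : Pat 73 73 TBm TCm (C173.map Fm) R0Q009.P173 R0Q009.I173 := Vale.Agent.P032.Lt.pat_eq (E' := R0Q009.E173) (by decide +kernel) (pat_step (by decide +kernel) (q_cons (Vale.Agent.P032.Lt.q R0Q009.q173_0) (q_cons (Vale.Agent.P032.Lt.q R0Q009.q173_1) (q_cons (Vale.Agent.P032.Lt.q R0Q009.q173_2) (q_cons (Vale.Agent.P032.Lt.q R0Q009.q173_3) q_nil)))))

def C174 : List ℕ := [0, 4, 8, 12, 16, 20, 24, 82945, 89089, 475137, 9177521144866, 13513333627914, 17774140152842]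
theorem p174 : Pat 73 73 TBm TCm (C174.map Fm) R0Q009.P174 R0Q009.I174 := Vale.Agent.P032.Lt.pat_eq (E' := R0Q009.E174) (by decide +kernel) (pat_step (by decide +kernel) (q_cons (Vale.Agent.P032.Lt.q R0Q009.q174_0) (q_cons (Vale.Agent.P032.Lt.q R0Q009.q174_1) (q_cons (Vale.Agent.P032.Lt.q R0Q009.q174_2) (q_cons (Vale.Agent.P032.Lt.q R0Q009.q174_3) (q_cons (Vale.Agent.P032.Lt.q R0Q009.q174_4) (q_cons (Vale.Agent.P032.Lt.q R0Q009.q174_5) (q_cons (Vale.Agent.P032.Lt.q R0Q009.q174_6) (q_cons (Vale.Agent.P032.Lt.q R0Q009.q174_7) (q_cons (Vale.Agent.P032.Lt.q R0Q009.q174_8) q_nil))))))))))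

def C175 : List ℕ := [0, 4, 8, 12, 16, 20, 24, 81921, 347137, 349185, 355329, 606209, 737281, 9169895123994]
theorem p175 : Pat 73 73 TBm TCm (C175.map Fm) R0Q009.P175 R0Q009.I175 := Vale.Agent.P032.Lt.pat_eq (E' := R0Q009.E175) (by decide +kernel) (pat_step (by decide +kernel) (q_cons (Vale.Agent.P032.Lt.q R0Q009.q175_0) (q_cons (Vale.Agent.P032.Lt.q R0Q009.q175_1) (q_cons (Vale.Agent.P032.Lt.q R0Q009.q175_2) q_nil))))

def C176 : List ℕ := [0, 4, 8, 12, 16, 20, 24, 606209, 17962898775050, 24338546644998, 24338555033606, 24338613753862, 24338622142470]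
theorem p176 : Pat 73 73 TBm TCm (C176.map Fm) R0Q009.P176 R0Q009.I176 := Vale.Agent.P032.Lt.pat_eq (E' := R0Q009.E176) (by decide +kernel) (pat_step (by decide +kernel) (q_cons (Vale.Agent.P032.Lt.q R0Q009.q176_0) (q_cons (Vale.Agent.P032.Lt.q R0Q009.q176_1) (q_cons (Vale.Agent.P032.Lt.q R0Q009.q176_2) (q_cons (Vale.Agent.P032.Lt.q R0Q009.q176_3) (q_cons (Vale.Agent.P032.Lt.q R0Q009.q176_4) (q_cons (Vale.Agent.P032.Lt.q R0Q009.q176_5) (q_cons (Vale.Agent.P032.Lt.q R0Q009.q176_6) q_nil))))))))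

def C177 : List ℕ := [0, 4, 8, 12, 16, 20, 24, 82945, 89089, 486401, 9169891705890, 13556633263114, 14650146772018, 17842660662282]
theorem p177 : Pat 73 73 TBm TCm (C177.map Fm) R0Q009.P177 R0Q009.I177 := Vale.Agent.P032.Lt.pat_eq (E' := R0Q009.E177) (by decide +kernel) (pat_step (by decide +kernel) (q_cons (Vale.Agent.P032.Lt.q R0Q009.q177_0) (q_cons (Vale.Agent.P032.Lt.q R0Q009.q177_1) (q_cons (Vale.Agent.P032.Lt.q R0Q009.q177_2) (q_cons (Vale.Agent.P032.Lt.q R0Q009.q177_3) (q_cons (Vale.Agent.P032.Lt.q R0Q009.q177_4) (q_cons (Vale.Agent.P032.Lt.q R0Q009.q177_5) (q_cons (Vale.Agent.P032.Lt.q R0Q009.q177_6) (q_cons (Vale.Agent.P032.Lt.q R0Q009.q177_7) (q_cons (Vale.Agent.P032.Lt.q R0Q009.q177_8) q_nil))))))))))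

def C178 : List ℕ := [0, 4, 8, 12, 16, 20, 24, 81921, 82945, 214017, 344065, 475137, 607233, 738305, 9098509768710, 9098513963014, 14409716684806, 14409716815878, 17963902650406, 18322803350538, 18325621922826, 19392870041638, 22232169405450, 23725968022538, 24275590274058, 24278408846346]
theorem p178 : Pat 73 73 TBm TCm (C178.map Fm) R0Q009.P178 R0Q009.I178 := Vale.Agent.P032.Lt.pat_eq (E' := R0Q009.E178) (by decide +kernel) (pat_step (by decide +kernel) (q_cons (Vale.Agent.P032.Lt.q R0Q009.q178_0) q_nil))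

theorem p179 : Pat 73 73 TBm TCm (CB.map Fm) R0Q009.P179 R0Q009.I179 := Vale.Agent.P032.Lt.pat_eq (E' := R0Q009.E) eB (pat_step (by decide +kernel) (q_cons (Vale.Agent.P032.Lt.q R0Q009.q179_0) (q_cons (Vale.Agent.P032.Lt.q R0Q009.q179_1) (q_cons (Vale.Agent.P032.Lt.q R0Q009.q179_2) q_nil))))

def C180 : List ℕ := [0, 4, 8, 12, 16, 20, 24, 344065, 475137, 737281]
theorem p180 : Pat 73 73 TBm TCm (C180.map Fm) R0Q009.P180 R0Q009.I180 := Vale.Agent.P032.Lt.pat_eq (E' := R0Q009.E180) (by decide +kernel) (pat_step (by decide +kernel) (q_cons (Vale.Agent.P032.Lt.q R0Q009.q180_0) q_nil))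

theorem p181 : Pat 73 73 TBm TCm (CB.map Fm) R0Q009.P181 R0Q009.I181 := Vale.Agent.P032.Lt.pat_eq (E' := R0Q009.E) eB (pat_step (by decide +kernel) (q_cons (Vale.Agent.P032.Lt.q R0Q009.q181_0) (q_cons (Vale.Agent.P032.Lt.q R0Q009.q181_1) (q_cons (Vale.Agent.P032.Lt.q R0Q009.q181_2) (q_cons (Vale.Agent.P032.Lt.q R0Q009.q181_3) (q_cons (Vale.Agent.P032.Lt.q R0Q009.q181_4) (q_cons (Vale.Agent.P032.Lt.q R0Q009.q181_5) (q_cons (Vale.Agent.P032.Lt.q R0Q009.q181_6) (q_cons (Vale.Agent.P032.Lt.q R0Q009.q181_7) (q_cons (Vale.Agent.P032.Lt.q R0Q009.q181_8) q_nil))))))))))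

def C182 : List ℕ := [0, 4, 8, 12, 16, 20, 24, 83969, 344065, 606209, 17817306226702, 18803788568582, 18806607927302, 19047142742022, 23744811192366]
theorem p182 : Pat 73 73 TBm TCm (C182.map Fm) R0Q010.P182 R0Q010.I182 := Vale.Agent.P032.Lt.pat_eq (E' := R0Q010.E182) (by decide +kernel) (pat_step (by decide +kernel) (q_cons (Vale.Agent.P032.Lt.q R0Q010.q182_0) (q_cons (Vale.Agent.P032.Lt.q R0Q010.q182_1) q_nil)))

theorem p183 : Pat 73 73 TBm TCm (CB.map Fm) R0Q010.P183 R0Q010.I183 := Vale.Agent.P032.Lt.pat_eq (E' := R0Q010.E) eB (pat_step (by decide +kernel) (q_cons (Vale.Agent.P032.Lt.q R0Q010.q183_0) (q_cons (Vale.Agent.P032.Lt.q R0Q010.q183_1) (q_cons (Vale.Agent.P032.Lt.q R0Q010.q183_2) (q_cons (Vale.Agent.P032.Lt.q R0Q010.q183_3) q_nil)))))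

def C184 : List ℕ := [0, 4, 8, 12, 16, 20, 24, 347137, 349185, 606209, 609281, 737281, 9102290021402, 18806684996658, 18911853503506, 24275583457286, 24275585292294, 24275585554438]
theorem p184 : Pat 73 73 TBm TCm (C184.map Fm) R0Q010.P184 R0Q010.I184 := Vale.Agent.P032.Lt.pat_eq (E' := R0Q010.E184) (by decide +kernel) (pat_step (by decide +kernel) (q_cons (Vale.Agent.P032.Lt.q R0Q010.q184_0) (q_cons (Vale.Agent.P032.Lt.q R0Q010.q184_1) (q_cons (Vale.Agent.P032.Lt.q R0Q010.q184_2) (q_cons (Vale.Agent.P032.Lt.q R0Q010.q184_3) q_nil)))))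

theorem p185 : Pat 73 73 TBm TCm (CB.map Fm) R0Q010.P185 R0Q010.I185 := Vale.Agent.P032.Lt.pat_eq (E' := R0Q010.E) eB (pat_step (by decide +kernel) (q_cons (Vale.Agent.P032.Lt.q R0Q010.q185_0) (q_cons (Vale.Agent.P032.Lt.q R0Q010.q185_1) (q_cons (Vale.Agent.P032.Lt.q R0Q010.q185_2) (q_cons (Vale.Agent.P032.Lt.q R0Q010.q185_3) (q_cons (Vale.Agent.P032.Lt.q R0Q010.q185_4) (q_cons (Vale.Agent.P032.Lt.q R0Q010.q185_5) (q_cons (Vale.Agent.P032.Lt.q R0Q010.q185_6) (q_cons (Vale.Agent.P032.Lt.q R0Q010.q185_7) q_nil)))))))))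

def C186 : List ℕ := [0, 4, 8, 12, 16, 20, 24, 344065, 611329]
theorem p186 : Pat 73 73 TBm TCm (C186.map Fm) R0Q010.P186 R0Q010.I186 := Vale.Agent.P032.Lt.pat_eq (E' := R0Q010.E186) (by decide +kernel) (pat_step (by decide +kernel) (q_cons (Vale.Agent.P032.Lt.q R0Q010.q186_0) (q_cons (Vale.Agent.P032.Lt.q R0Q010.q186_1) (q_cons (Vale.Agent.P032.Lt.q R0Q010.q186_2) (q_cons (Vale.Agent.P032.Lt.q R0Q010.q186_3) (q_cons (Vale.Agent.P032.Lt.q R0Q010.q186_4) q_nil))))))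

def C187 : List ℕ := [0, 4, 8, 12, 16, 20, 24, 23391508588566]
theorem p187 : Pat 73 73 TBm TCm (C187.map Fm) R0Q010.P187 R0Q010.I187 := Vale.Agent.P032.Lt.pat_eq (E' := R0Q010.E187) (by decide +kernel) (pat_step (by decide +kernel) (q_cons (Vale.Agent.P032.Lt.q R0Q010.q187_0) (q_cons (Vale.Agent.P032.Lt.q R0Q010.q187_1) (q_cons (Vale.Agent.P032.Lt.q R0Q010.q187_2) (q_cons (Vale.Agent.P032.Lt.q R0Q010.q187_3) (q_cons (Vale.Agent.P032.Lt.q R0Q010.q187_4) (q_cons (Vale.Agent.P032.Lt.q R0Q010.q187_5) q_nil)))))))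

def C188 : List ℕ := [0, 4, 8, 12, 16, 20, 24, 23931717376006, 23931717638150, 23932657686534]
theorem p188 : Pat 73 73 TBm TCm (C188.map Fm) R0Q010.P188 R0Q010.I188 := Vale.Agent.P032.Lt.pat_eq (E' := R0Q010.E188) (by decide +kernel) (pat_step (by decide +kernel) (q_cons (Vale.Agent.P032.Lt.q R0Q010.q188_0) (q_cons (Vale.Agent.P032.Lt.q R0Q010.q188_1) (q_cons (Vale.Agent.P032.Lt.q R0Q010.q188_2) (q_cons (Vale.Agent.P032.Lt.q R0Q010.q188_3) (q_cons (Vale.Agent.P032.Lt.q R0Q010.q188_4) (q_cons (Vale.Agent.P032.Lt.q R0Q010.q188_5) (q_cons (Vale.Agent.P032.Lt.q R0Q010.q188_6) (q_cons (Vale.Agent.P032.Lt.q R0Q010.q188_7) (q_cons (Vale.Agent.P032.Lt.q R0Q010.q188_8) q_nil))))))))))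

def C189 : List ℕ := [0, 4, 8, 12, 16, 20, 24, 84993, 87041, 216065, 218113, 349185, 611329, 4772076938258, 9169895123994, 19061206641690]
theorem p189 : Pat 73 73 TBm TCm (C189.map Fm) R0Q010.P189 R0Q010.I189 := Vale.Agent.P032.Lt.pat_eq (E' := R0Q010.E189) (by decide +kernel) (pat_step (by decide +kernel) (q_cons (Vale.Agent.P032.Lt.q R0Q010.q189_0) (q_cons (Vale.Agent.P032.Lt.q R0Q010.q189_1) q_nil)))

def C190 : List ℕ := [0, 4, 8, 12, 16, 20, 24, 84993, 216065, 223233, 347137, 478209, 606209, 609281, 737281, 745473, 4649841681426, 4649843778578, 14041427698706, 14409729532946, 18393292165166, 23811441772582, 23811443869734]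
theorem p190 : Pat 73 73 TBm TCm (C190.map Fm) R0Q010.P190 R0Q010.I190 := Vale.Agent.P032.Lt.pat_eq (E' := R0Q010.E190) (by decide +kernel) (pat_step (by decide +kernel) (q_cons (Vale.Agent.P032.Lt.q R0Q010.q190_0) (q_cons (Vale.Agent.P032.Lt.q R0Q010.q190_1) (q_cons (Vale.Agent.P032.Lt.q R0Q010.q190_2) (q_cons (Vale.Agent.P032.Lt.q R0Q010.q190_3) (q_cons (Vale.Agent.P032.Lt.q R0Q010.q190_4) (q_cons (Vale.Agent.P032.Lt.q R0Q010.q190_5) (q_cons (Vale.Agent.P032.Lt.q R0Q010.q190_6) (q_cons (Vale.Agent.P032.Lt.q R0Q010.q190_7) (q_cons (Vale.Agent.P032.Lt.q R0Q010.q190_8) (q_cons (Vale.Agent.P032.Lt.q R0Q010.q190_9) q_nil)))))))))))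

def C191 : List ℕ := [0, 4, 8, 12, 16, 20, 24, 617473, 13921152097290, 18791646319666]
theorem p191 : Pat 73 73 TBm TCm (C191.map Fm) R0Q010.P191 R0Q010.I191 := Vale.Agent.P032.Lt.pat_eq (E' := R0Q010.E191) (by decide +kernel) (pat_step (by decide +kernel) (q_cons (Vale.Agent.P032.Lt.q R0Q010.q191_0) (q_cons (Vale.Agent.P032.Lt.q R0Q010.q191_1) q_nil)))

def C192 : List ℕ := [0, 4, 8, 12, 16, 20, 24, 81921, 606209, 738305, 23193255500810, 23742880111626]
theorem p192 : Pat 73 73 TBm TCm (C192.map Fm) R0Q010.P192 R0Q010.I192 := Vale.Agent.P032.Lt.pat_eq (E' := R0Q010.E192) (by decide +kernel) (pat_step (by decide +kernel) (q_cons (Vale.Agent.P032.Lt.q R0Q010.q192_0) (q_cons (Vale.Agent.P032.Lt.q R0Q010.q192_1) (q_cons (Vale.Agent.P032.Lt.q R0Q010.q192_2) q_nil))))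

def C193 : List ℕ := [0, 4, 8, 12, 16, 20, 24, 81921, 606209, 737281, 18370738215946, 24275583457286, 24275585292294, 24278402816006, 24278404913158]
theorem p193 : Pat 73 73 TBm TCm (C193.map Fm) R0Q010.P193 R0Q010.I193 := Vale.Agent.P032.Lt.pat_eq (E' := R0Q010.E193) (by decide +kernel) (pat_step (by decide +kernel) (q_cons (Vale.Agent.P032.Lt.q R0Q010.q193_0) (q_cons (Vale.Agent.P032.Lt.q R0Q010.q193_1) q_nil)))

def C194 : List ℕ := [0, 4, 8, 12, 16, 20, 24, 606209, 737281, 18806684996658, 24275583457286, 24275585292294, 24275585554438, 24278404519942]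
theorem p194 : Pat 73 73 TBm TCm (C194.map Fm) R0Q010.P194 R0Q010.I194 := Vale.Agent.P032.Lt.pat_eq (E' := R0Q010.E194) (by decide +kernel) (pat_step (by decide +kernel) (q_cons (Vale.Agent.P032.Lt.q R0Q010.q194_0) (q_cons (Vale.Agent.P032.Lt.q R0Q010.q194_1) (q_cons (Vale.Agent.P032.Lt.q R0Q010.q194_2) (q_cons (Vale.Agent.P032.Lt.q R0Q010.q194_3) q_nil)))))

theorem p195 : Pat 73 73 TBm TCm (CB.map Fm) R0Q010.P195 R0Q010.I195 := Vale.Agent.P032.Lt.pat_eq (E' := R0Q010.E) eB (pat_step (by decide +kernel) (q_cons (Vale.Agent.P032.Lt.q R0Q010.q195_0) (q_cons (Vale.Agent.P032.Lt.q R0Q010.q195_1) (q_cons (Vale.Agent.P032.Lt.q R0Q010.q195_2) (q_cons (Vale.Agent.P032.Lt.q R0Q010.q195_3) (q_cons (Vale.Agent.P032.Lt.q R0Q010.q195_4) (q_cons (Vale.Agent.P032.Lt.q R0Q010.q195_5) (q_cons (Vale.Agent.P032.Lt.q R0Q010.q195_6) (q_cons (Vale.Agent.P032.Lt.q R0Q010.q195_7) (q_cons (Vale.Agent.P032.Lt.q R0Q010.q195_8) (q_cons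 (Vale.Agent.P032.Lt.q R0Q010.q195_9) (q_cons (Vale.Agent.P032.Lt.q R0Q010.q195_10) (q_cons (Vale.Agent.P032.Lt.q R0Q010.q195_11) (q_cons (Vale.Agent.P032.Lt.q R0Q010.q195_12) q_nil))))))))))))))

def C196 : List ℕ := [0, 4, 8, 12, 16, 20, 24, 84993, 212993, 214017, 216065, 349185, 480257, 606209, 609281, 737281, 9102290021402, 14109059015698, 19594007241746, 24275583457286, 24275585292294, 24275585554438, 24275585685510, 24278402553862, 24278404651014, 24278404913158]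
theorem p196 : Pat 73 73 TBm TCm (C196.map Fm) R0Q010.P196 R0Q010.I196 := Vale.Agent.P032.Lt.pat_eq (E' := R0Q010.E196) (by decide +kernel) (pat_step (by decide +kernel) (q_cons (Vale.Agent.P032.Lt.q R0Q010.q196_0) (q_cons (Vale.Agent.P032.Lt.q R0Q010.q196_1) (q_cons (Vale.Agent.P032.Lt.q R0Q010.q196_2) (q_cons (Vale.Agent.P032.Lt.q R0Q010.q196_3) q_nil)))))

def C197 : List ℕ := [0, 4, 8, 12, 16, 20, 24, 82945, 212993, 344065, 345089, 475137, 478209, 607233, 609281, 611329, 737281, 4641415453706, 4701544995850, 14402196562962, 17760946971666, 18310634892314, 18806612122634]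
theorem p197 : Pat 73 73 TBm TCm (C197.map Fm) R0Q010.P197 R0Q010.I197 := Vale.Agent.P032.Lt.pat_eq (E' := R0Q010.E197) (by decide +kernel) (pat_step (by decide +kernel) (q_cons (Vale.Agent.P032.Lt.q R0Q010.q197_0) q_nil))

def C198 : List ℕ := [0, 4, 8, 12, 16, 20, 24, 89089, 218113, 349185, 475137, 480257, 611329, 613377, 737281, 17821075598362, 17963009131554, 18907185507354, 19593979718682, 23786163627026]
theorem p198 : Pat 73 73 TBm TCm (C198.map Fm) R0Q010.P198 R0Q010.I198 := Vale.Agent.P032.Lt.pat_eq (E' := R0Q010.E198) (by decide +kernel) (pat_step (by decide +kernel) (q_cons (Vale.Agent.P032.Lt.q R0Q010.q198_0) (q_cons (Vale.Agent.P032.Lt.q R0Q010.q198_1) (q_cons (Vale.Agent.P032.Lt.q R0Q010.q198_2) (q_cons (Vale.Agent.P032.Lt.q R0Q010.q198_3) q_nil)))))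

def C199 : List ℕ := [0, 4, 8, 12, 16, 20, 24, 212993, 476161, 606209, 737281]
theorem p199 : Pat 73 73 TBm TCm (C199.map Fm) R0Q010.P199 R0Q010.I199 := Vale.Agent.P032.Lt.pat_eq (E' := R0Q010.E199) (by decide +kernel) (pat_step (by decide +kernel) (q_cons (Vale.Agent.P032.Lt.q R0Q010.q199_0) (q_cons (Vale.Agent.P032.Lt.q R0Q010.q199_1) (q_cons (Vale.Agent.P032.Lt.q R0Q010.q199_2) (q_cons (Vale.Agent.P032.Lt.q R0Q010.q199_3) (q_cons (Vale.Agent.P032.Lt.q R0Q010.q199_4) (q_cons (Vale.Agent.P032.Lt.q R0Q010.q199_5) q_nil)))))))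

def C200 : List ℕ := [0, 4, 8, 12, 16, 20, 24, 212993, 606209, 737281]
theorem p200 : Pat 73 73 TBm TCm (C200.map Fm) R0Q010.P200 R0Q010.I200 := Vale.Agent.P032.Lt.pat_eq (E' := R0Q010.E200) (by decide +kernel) (pat_step (by decide +kernel) (q_cons (Vale.Agent.P032.Lt.q R0Q010.q200_0) (q_cons (Vale.Agent.P032.Lt.q R0Q010.q200_1) (q_cons (Vale.Agent.P032.Lt.q R0Q010.q200_2) (q_cons (Vale.Agent.P032.Lt.q R0Q010.q200_3) (q_cons (Vale.Agent.P032.Lt.q R0Q010.q200_4) (q_cons (Vale.Agent.P032.Lt.q R0Q010.q200_5) (q_cons (Vale.Agent.P032.Lt.q R0Q010.q200_6) q_nil))))))))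

def C201 : List ℕ := [0, 4, 8, 12, 16, 20, 24, 84993, 606209, 9046813008914]
theorem p201 : Pat 73 73 TBm TCm (C201.map Fm) R0Q010.P201 R0Q010.I201 := Vale.Agent.P032.Lt.pat_eq (E' := R0Q010.E201) (by decide +kernel) (pat_step (by decide +kernel) (q_cons (Vale.Agent.P032.Lt.q R0Q010.q201_0) (q_cons (Vale.Agent.P032.Lt.q R0Q010.q201_1) (q_cons (Vale.Agent.P032.Lt.q R0Q010.q201_2) (q_cons (Vale.Agent.P032.Lt.q R0Q010.q201_3) (q_cons (Vale.Agent.P032.Lt.q R0Q010.q201_4) (q_cons (Vale.Agent.P032.Lt.q R0Q010.q201_5) (q_cons (Vale.Agent.P032.Lt.q R0Q010.q201_6) (q_cons (Vale.Agent.P032.Lt.q R0Q010.q201_7) (q_cons (Vale.Agent.P032.Lt.q R0Q010.q201_8) (q_cons (Vale.Agent.P032.Lt.q R0Q010.q201_9) (q_cons (Vale.Agent.P032.Lt.q R0Q010.q201_10) q_nil))))))))))))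

def C202 : List ℕ := [0, 4, 8, 12, 16, 20, 24, 83969, 84993, 87041, 215041, 216065, 217089, 344065, 348161, 349185, 475137, 478209, 480257, 608257, 739329, 740353, 742401, 9177411316762, 9595562059798, 9599319238678, 9599319500822, 14122220741650, 14671754385414, 18391346798606, 18505985253390, 19602451159046, 22165501471770, 22215182738450, 22832549552142, 22835368910862, 22840907883538, 23188618957874, 23305078008858, 23742888764434, 23812488129562]
theorem p202 : Pat 73 73 TBm TCm (C202.map Fm) R0Q011.P202 R0Q011.I202 := Vale.Agent.P032.Lt.pat_eq (E' := R0Q011.E202) (by decide +kernel) (pat_step (by decide +kernel) (q_cons (Vale.Agent.P032.Lt.q R0Q011.q202_0) (q_cons (Vale.Agent.P032.Lt.q R0Q011.q202_1) (q_cons (Vale.Agent.P032.Lt.q R0Q011.q202_2) q_nil))))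

theorem p203 : Pat 73 73 TBm TCm (CB.map Fm) R0Q011.P203 R0Q011.I203 := Vale.Agent.P032.Lt.pat_eq (E' := R0Q011.E) eB (pat_step (by decide +kernel) (q_cons (Vale.Agent.P032.Lt.q R0Q011.q203_0) (q_cons (Vale.Agent.P032.Lt.q R0Q011.q203_1) (q_cons (Vale.Agent.P032.Lt.q R0Q011.q203_2) (q_cons (Vale.Agent.P032.Lt.q R0Q011.q203_3) (q_cons (Vale.Agent.P032.Lt.q R0Q011.q203_4) q_nil))))))

def C204 : List ℕ := [0, 4, 8, 12, 16, 20, 24, 212993, 215041, 606209, 737281]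
theorem p204 : Pat 73 73 TBm TCm (C204.map Fm) R0Q011.P204 R0Q011.I204 := Vale.Agent.P032.Lt.pat_eq (E' := R0Q011.E204) (by decide +kernel) (pat_step (by decide +kernel) (q_cons (Vale.Agent.P032.Lt.q R0Q011.q204_0) (q_cons (Vale.Agent.P032.Lt.q R0Q011.q204_1) (q_cons (Vale.Agent.P032.Lt.q R0Q011.q204_2) (q_cons (Vale.Agent.P032.Lt.q R0Q011.q204_3) (q_cons (Vale.Agent.P032.Lt.q R0Q011.q204_4) q_nil))))))

theorem p205 : Pat 73 73 TBm TCm (CB.map Fm) R0Q011.P205 R0Q011.I205 := Vale.Agent.P032.Lt.pat_eq (E' := R0Q011.E) eB (pat_step (by decide +kernel) (q_cons (Vale.Agent.P032.Lt.q R0Q011.q205_0) (q_cons (Vale.Agent.P032.Lt.q R0Q011.q205_1) (q_cons (Vale.Agent.P032.Lt.q R0Q011.q205_2) (q_cons (Vale.Agent.P032.Lt.q R0Q011.q205_3) (q_cons (Vale.Agent.P032.Lt.q R0Q011.q205_4) (q_cons (Vale.Agent.P032.Lt.q R0Q011.q205_5) (q_cons (Vale.Agent.P032.Lt.q R0Q011.q205_6) q_nil))))))))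

def C206 : List ℕ := [0, 4, 8, 12, 16, 20, 24, 89089, 351233, 355329, 486401, 606209, 615425, 737281, 9169891705890, 14409712489522, 17954528513066, 24338555033606]
theorem p206 : Pat 73 73 TBm TCm (C206.map Fm) R0Q011.P206 R0Q011.I206 := Vale.Agent.P032.Lt.pat_eq (E' := R0Q011.E206) (by decide +kernel) (pat_step (by decide +kernel) (q_cons (Vale.Agent.P032.Lt.q R0Q011.q206_0) q_nil))

def C207 : List ℕ := [0, 4, 8, 12, 16, 20, 24, 607233, 613377, 17956321051682, 18791588387850, 19422940191754]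
theorem p207 : Pat 73 73 TBm TCm (C207.map Fm) R0Q011.P207 R0Q011.I207 := Vale.Agent.P032.Lt.pat_eq (E' := R0Q011.E207) (by decide +kernel) (pat_step (by decide +kernel) (q_cons (Vale.Agent.P032.Lt.q R0Q011.q207_0) (q_cons (Vale.Agent.P032.Lt.q R0Q011.q207_1) (q_cons (Vale.Agent.P032.Lt.q R0Q011.q207_2) (q_cons (Vale.Agent.P032.Lt.q R0Q011.q207_3) (q_cons (Vale.Agent.P032.Lt.q R0Q011.q207_4) (q_cons (Vale.Agent.P032.Lt.q R0Q011.q207_5) q_nil)))))))

def C208 : List ℕ := [0, 4, 8, 12, 16, 20, 24, 82945, 89089, 480257, 606209, 615425, 737281, 9169891705890, 18393199758378, 24278391937030, 24278400325638, 24278467434502, 24338546644998, 24338605365254, 24338613753862, 24338622142470]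
theorem p208 : Pat 73 73 TBm TCm (C208.map Fm) R0Q011.P208 R0Q011.I208 := Vale.Agent.P032.Lt.pat_eq (E' := R0Q011.E208) (by decide +kernel) (pat_step (by decide +kernel) (q_cons (Vale.Agent.P032.Lt.q R0Q011.q208_0) (q_cons (Vale.Agent.P032.Lt.q R0Q011.q208_1) (q_cons (Vale.Agent.P032.Lt.q R0Q011.q208_2) (q_cons (Vale.Agent.P032.Lt.q R0Q011.q208_3) (q_cons (Vale.Agent.P032.Lt.q R0Q011.q208_4) (q_cons (Vale.Agent.P032.Lt.q R0Q011.q208_5) q_nil)))))))

def C209 : List ℕ := [0, 4, 8, 12, 16, 20, 24, 222209, 615425, 737281, 746497, 22782654499882, 24278400325638, 24278467434502, 24338546644998, 24338555033606, 24338613753862, 24338622142470]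
theorem p209 : Pat 73 73 TBm TCm (C209.map Fm) R0Q011.P209 R0Q011.I209 := Vale.Agent.P032.Lt.pat_eq (E' := R0Q011.E209) (by decide +kernel) (pat_step (by decide +kernel) (q_cons (Vale.Agent.P032.Lt.q R0Q011.q209_0) (q_cons (Vale.Agent.P032.Lt.q R0Q011.q209_1) (q_cons (Vale.Agent.P032.Lt.q R0Q011.q209_2) (q_cons (Vale.Agent.P032.Lt.q R0Q011.q209_3) (q_cons (Vale.Agent.P032.Lt.q R0Q011.q209_4) q_nil))))))

def C210 : List ℕ := [0, 4, 8, 12, 16, 20, 24, 82945, 84993, 607233, 9046926255122, 13376227859466, 17774073043978, 17842660662282]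
theorem p210 : Pat 73 73 TBm TCm (C210.map Fm) R0Q011.P210 R0Q011.I210 := Vale.Agent.P032.Lt.pat_eq (E' := R0Q011.E210) (by decide +kernel) (pat_step (by decide +kernel) (q_cons (Vale.Agent.P032.Lt.q R0Q011.q210_0) q_nil))

def C211 : List ℕ := [0, 4, 8, 12, 16, 20, 24, 214017, 475137, 607233, 738305, 22703765806090]
theorem p211 : Pat 73 73 TBm TCm (C211.map Fm) R0Q011.P211 R0Q011.I211 := Vale.Agent.P032.Lt.pat_eq (E' := R0Q011.E211) (by decide +kernel) (pat_step (by decide +kernel) (q_cons (Vale.Agent.P032.Lt.q R0Q011.q211_0) (q_cons (Vale.Agent.P032.Lt.q R0Q011.q211_1) q_nil)))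

theorem p212 : Pat 73 73 TBm TCm (CB.map Fm) R0Q011.P212 R0Q011.I212 := Vale.Agent.P032.Lt.pat_eq (E' := R0Q011.E) eB (pat_step (by decide +kernel) (q_cons (Vale.Agent.P032.Lt.q R0Q011.q212_0) q_nil))

def C213 : List ℕ := [0, 4, 8, 12, 16, 20, 24, 84993, 347137, 480257, 609281, 740353, 9102351623186, 13491746597914, 19044385645586, 19593916804122, 24335726634002]
theorem p213 : Pat 73 73 TBm TCm (C213.map Fm) R0Q011.P213 R0Q011.I213 := Vale.Agent.P032.Lt.pat_eq (E' := R0Q011.E213) (by decide +kernel) (pat_step (by decide +kernel) (q_cons (Vale.Agent.P032.Lt.q R0Q011.q213_0) (q_cons (Vale.Agent.P032.Lt.q R0Q011.q213_1) (q_cons (Vale.Agent.P032.Lt.q R0Q011.q213_2) (q_cons (Vale.Agent.P032.Lt.q R0Q011.q213_3) q_nil)))))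

def C214 : List ℕ := [0, 4, 8, 12, 16, 20, 24, 89089, 91137, 222209, 353281, 484353, 606209, 615425, 617473, 737281, 4704420187178, 9038437895210, 9046879587370, 9167159643178, 9169978215466, 9175642096674, 9177521144866, 13367706209322, 13376206621738, 13556616219690, 13573554390050, 13574493914146, 17757227928618, 17817357470762, 17962986064938, 18806685258802, 19355367330866, 24278404519942, 24285920712710]
theorem p214 : Pat 73 73 TBm TCm (C214.map Fm) R0Q011.P214 R0Q011.I214 := Vale.Agent.P032.Lt.pat_eq (E' := R0Q011.E214) (by decide +kernel) (pat_step (by decide +kernel) (q_cons (Vale.Agent.P032.Lt.q R0Q011.q214_0) q_nil))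

def C215 : List ℕ := [0, 4, 8, 12, 16, 20, 24, 475137, 737281, 739329]
theorem p215 : Pat 73 73 TBm TCm (C215.map Fm) R0Q011.P215 R0Q011.I215 := Vale.Agent.P032.Lt.pat_eq (E' := R0Q011.E215) (by decide +kernel) (pat_step (by decide +kernel) (q_cons (Vale.Agent.P032.Lt.q R0Q011.q215_0) (q_cons (Vale.Agent.P032.Lt.q R0Q011.q215_1) (q_cons (Vale.Agent.P032.Lt.q R0Q011.q215_2) (q_cons (Vale.Agent.P032.Lt.q R0Q011.q215_3) (q_cons (Vale.Agent.P032.Lt.q R0Q011.q215_4) (q_cons (Vale.Agent.P032.Lt.q R0Q011.q215_5) (q_cons (Vale.Agent.P032.Lt.q R0Q011.q215_6) (q_cons (Vale.Agent.P032.Lt.q R0Q011.q215_7) q_nil)))))))))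

def C216 : List ℕ := [0, 4, 8, 12, 16, 20, 24, 84993, 216065, 344065, 347137, 349185, 475137, 476161, 478209, 606209, 737281, 4770193695762, 9042160479258, 9102290021402, 9115511514130, 9169895123994, 13488039353354, 23725963958278, 23729722447878, 23729776973830, 24275585554438, 24278404519942]
theorem p216 : Pat 73 73 TBm TCm (C216.map Fm) R0Q011.P216 R0Q011.I216 := Vale.Agent.P032.Lt.pat_eq (E' := R0Q011.E216) (by decide +kernel) (pat_step (by decide +kernel) (q_cons (Vale.Agent.P032.Lt.q R0Q011.q216_0) q_nil))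

theorem p217 : Pat 73 73 TBm TCm (CB.map Fm) R0Q011.P217 R0Q011.I217 := Vale.Agent.P032.Lt.pat_eq (E' := R0Q011.E) eB (pat_step (by decide +kernel) (q_cons (Vale.Agent.P032.Lt.q R0Q011.q217_0) q_nil))

def C218 : List ℕ := [0, 4, 8, 12, 16, 20, 24, 344065, 606209, 737281, 24412755810310, 24413694023686, 24413694285830]
theorem p218 : Pat 73 73 TBm TCm (C218.map Fm) R0Q011.P218 R0Q011.I218 := Vale.Agent.P032.Lt.pat_eq (E' := R0Q011.E218) (by decide +kernel) (pat_step (by decide +kernel) (q_cons (Vale.Agent.P032.Lt.q R0Q011.q218_0) (q_cons (Vale.Agent.P032.Lt.q R0Q011.q218_1) (q_cons (Vale.Agent.P032.Lt.q R0Q011.q218_2) (q_cons (Vale.Agent.P032.Lt.q R0Q011.q218_3) (q_cons (Vale.Agent.P032.Lt.q R0Q011.q218_4) (q_cons (Vale.Agent.P032.Lt.q R0Q011.q218_5) q_nil)))))))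

theorem p219 : Pat 73 73 TBm TCm (CB.map Fm) R0Q011.P219 R0Q011.I219 := Vale.Agent.P032.Lt.pat_eq (E' := R0Q011.E) eB (pat_step (by decide +kernel) (q_cons (Vale.Agent.P032.Lt.q R0Q011.q219_0) q_nil))

def C220 : List ℕ := [0, 4, 8, 12, 16, 20, 24, 86017, 89089, 91137, 222209, 348161, 475137, 611329, 737281, 741377, 9177521144866, 14124023237674, 22157871900694, 22157980952598, 22218022414358, 23373656844310, 23373657106454, 23373658941462, 23373660121110, 23376476071958, 23376476203030, 23376478038038, 23376478300182, 23729722447878, 23789923293190]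
theorem p220 : Pat 73 73 TBm TCm (C220.map Fm) R0Q011.P220 R0Q011.I220 := Vale.Agent.P032.Lt.pat_eq (E' := R0Q011.E220) (by decide +kernel) (pat_step (by decide +kernel) (q_cons (Vale.Agent.P032.Lt.q R0Q011.q220_0) (q_cons (Vale.Agent.P032.Lt.q R0Q011.q220_1) (q_cons (Vale.Agent.P032.Lt.q R0Q011.q220_2) (q_cons (Vale.Agent.P032.Lt.q R0Q011.q220_3) (q_cons (Vale.Agent.P032.Lt.q R0Q011.q220_4) q_nil))))))

def C221 : List ℕ := [0, 4, 8, 12, 16, 20, 24, 82945, 89089, 606209, 9170004952098, 13376227859466, 17842660662282]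
theorem p221 : Pat 73 73 TBm TCm (C221.map Fm) R0Q011.P221 R0Q011.I221 := Vale.Agent.P032.Lt.pat_eq (E' := R0Q011.E221) (by decide +kernel) (pat_step (by decide +kernel) (q_cons (Vale.Agent.P032.Lt.q R0Q011.q221_0) (q_cons (Vale.Agent.P032.Lt.q R0Q011.q221_1) (q_cons (Vale.Agent.P032.Lt.q R0Q011.q221_2) (q_cons (Vale.Agent.P032.Lt.q R0Q011.q221_3) (q_cons (Vale.Agent.P032.Lt.q R0Q011.q221_4) (q_cons (Vale.Agent.P032.Lt.q R0Q011.q221_5) (q_cons (Vale.Agent.P032.Lt.q R0Q011.q221_6) (q_cons (Vale.Agent.P032.Lt.q R0Q011.q221_7) (q_cons (Vale.Agent.P032.Lt.q R0Q011.q221_8) (q_cons (Vale.Agent.P032.Lt.q R0Q011.q221_9) (q_cons (Vale.Agent.P032.Lt.q R0Q011.q221_10) (q_cons (Vale.Agent.P032.Lt.q R0Q011.q221_11) (q_cons (Vale.Agent.P032.Lt.q R0Q011.q221_12) (q_cons (Vale.Agent.P032.Lt.q R0Q011.q221_13) (q_cons (Vale.Agent.P032.Lt.q R0Q011.q221_14) q_nil))))))))))))))))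

def C222 : List ℕ := [0, 4, 8, 12, 16, 20, 24, 91137, 220161, 224257, 355329, 484353, 486401, 606209, 615425, 737281, 9587127178290, 13367707128882, 13487966213170, 13488030436394, 14409712489522, 18310634095650, 24278404519942, 24278405175302, 24278467434502, 24338546644998, 24338605365254, 24338613753862]
theorem p222 : Pat 73 73 TBm TCm (C222.map Fm) R0Q011.P222 R0Q011.I222 := Vale.Agent.P032.Lt.pat_eq (E' := R0Q011.E222) (by decide +kernel) (pat_step (by decide +kernel) (q_cons (Vale.Agent.P032.Lt.q R0Q011.q222_0) q_nil))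

def C223 : List ℕ := [0, 4, 8, 12, 16, 20, 24, 87041, 349185, 355329, 476161, 486401, 607233, 611329, 617473, 9102290021402, 9587127440434, 19332810890250]
theorem p223 : Pat 73 73 TBm TCm (C223.map Fm) R0Q011.P223 R0Q011.I223 := Vale.Agent.P032.Lt.pat_eq (E' := R0Q011.E223) (by decide +kernel) (pat_step (by decide +kernel) (q_cons (Vale.Agent.P032.Lt.q R0Q011.q223_0) (q_cons (Vale.Agent.P032.Lt.q R0Q011.q223_1) q_nil)))

def C224 : List ℕ := [0, 4, 8, 12, 16, 20, 24, 82945, 84993, 87041, 216065, 223233, 347137, 349185, 475137, 617473, 740353, 9115398267922, 9115511514130, 9169895123994, 9175548781586, 9647235886106, 9664147317778, 9664193455122, 13513333627914, 17954545556490, 18393292165166, 18806622344242, 24284054643730]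
theorem p224 : Pat 73 73 TBm TCm (C224.map Fm) R0Q012.P224 R0Q012.I224 := Vale.Agent.P032.Lt.pat_eq (E' := R0Q012.E224) (by decide +kernel) (pat_step (by decide +kernel) (q_cons (Vale.Agent.P032.Lt.q R0Q012.q224_0) (q_cons (Vale.Agent.P032.Lt.q R0Q012.q224_1) (q_cons (Vale.Agent.P032.Lt.q R0Q012.q224_2) (q_cons (Vale.Agent.P032.Lt.q R0Q012.q224_3) (q_cons (Vale.Agent.P032.Lt.q R0Q012.q224_4) (q_cons (Vale.Agent.P032.Lt.q R0Q012.q224_5) (q_cons (Vale.Agent.P032.Lt.q R0Q012.q224_6) (q_cons (Vale.Agent.P032.Lt.q R0Q012.q224_7) (q_cons (Vale.Agent.P032.Lt.q R0Q012.q224_8) q_nil))))))))))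

def C225 : List ℕ := [0, 4, 8, 12, 16, 20, 24, 84993, 216065, 741377, 9046926255122, 17842660662282, 24404318054422]
theorem p225 : Pat 73 73 TBm TCm (C225.map Fm) R0Q012.P225 R0Q012.I225 := Vale.Agent.P032.Lt.pat_eq (E' := R0Q012.E225) (by decide +kernel) (pat_step (by decide +kernel) (q_cons (Vale.Agent.P032.Lt.q R0Q012.q225_0) (q_cons (Vale.Agent.P032.Lt.q R0Q012.q225_1) q_nil)))

def C226 : List ℕ := [0, 4, 8, 12, 16, 20, 24, 82945, 212993, 344065, 345089, 475137, 606209, 607233, 738305, 4644220782630, 4779561011238, 9049700523018, 14671751632902, 14671751763974, 14672693909510, 17843646061578, 19061275449350, 19602374088710, 19602374219782, 19603316365318, 22157902961674, 22293194431498, 23391497444362, 24353570118666]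
theorem p226 : Pat 73 73 TBm TCm (C226.map Fm) R0Q012.P226 R0Q012.I226 := Vale.Agent.P032.Lt.pat_eq (E' := R0Q012.E226) (by decide +kernel) (pat_step (by decide +kernel) (q_cons (Vale.Agent.P032.Lt.q R0Q012.q226_0) (q_cons (Vale.Agent.P032.Lt.q R0Q012.q226_1) q_nil)))

def C227 : List ℕ := [0, 4, 8, 12, 16, 20, 24, 82945, 344065, 607233, 738305, 14577899493382, 18803786602502, 19044304771078, 24278407928842]
theorem p227 : Pat 73 73 TBm TCm (C227.map Fm) R0Q012.P227 R0Q012.I227 := Vale.Agent.P032.Lt.pat_eq (E' := R0Q012.E227) (by decide +kernel) (pat_step (by decide +kernel) (q_cons (Vale.Agent.P032.Lt.q R0Q012.q227_0) (q_cons (Vale.Agent.P032.Lt.q R0Q012.q227_1) (q_cons (Vale.Agent.P032.Lt.q R0Q012.q227_2) q_nil))))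

theorem p228 : Pat 73 73 TBm TCm (CB.map Fm) R0Q012.P228 R0Q012.I228 := Vale.Agent.P032.Lt.pat_eq (E' := R0Q012.E) eB (pat_step (by decide +kernel) (q_cons (Vale.Agent.P032.Lt.q R0Q012.q228_0) (q_cons (Vale.Agent.P032.Lt.q R0Q012.q228_1) (q_cons (Vale.Agent.P032.Lt.q R0Q012.q228_2) (q_cons (Vale.Agent.P032.Lt.q R0Q012.q228_3) (q_cons (Vale.Agent.P032.Lt.q R0Q012.q228_4) (q_cons (Vale.Agent.P032.Lt.q R0Q012.q228_5) (q_cons (Vale.Agent.P032.Lt.q R0Q012.q228_6) (q_cons (Vale.Agent.P032.Lt.q R0Q012.q228_7) (q_cons (Vale.Agent.P032.Lt.q R0Q012.q228_8) (q_cons (Vale.Agent.P032.Lt.q R0Q012.q228_9) (q_cons (Vale.Agent.P032.Lt.q R0Q012.q228_10) (q_cons (Vale.Agent.P032.Lt.q R0Q012.q228_11) (q_cons (Vale.Agent.P032.Lt.q R0Q012.q228_12) (q_cons (Vale.Agent.P032.Lt.q R0Q012.q228_13) (q_cons (Vale.Agent.P032.Lt.q R0Q012.q228_14) (q_cons (Vale.Agent.P032.Lt.q R0Q012.q228_15) (q_cons (Vale.Agent.P032.Lt.q R0Q012.q228_16)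 (q_cons (Vale.Agent.P032.Lt.q R0Q012.q228_17) (q_cons (Vale.Agent.P032.Lt.q R0Q012.q228_18) (q_cons (Vale.Agent.P032.Lt.q R0Q012.q228_19) q_nil)))))))))))))))))))))

def C229 : List ℕ := [0, 4, 8, 12, 16, 20, 24, 89089, 91137, 220161, 222209, 482305, 484353, 606209, 613377, 615425, 737281, 9170004952098, 13559436626986, 17954528513066, 19595834639394, 24278400325638]
theorem p229 : Pat 73 73 TBm TCm (C229.map Fm) R0Q012.P229 R0Q012.I229 := Vale.Agent.P032.Lt.pat_eq (E' := R0Q012.E229) (by decide +kernel) (pat_step (by decide +kernel) (q_cons (Vale.Agent.P032.Lt.q R0Q012.q229_0) q_nil))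

def C230 : List ℕ := [0, 4, 8, 12, 16, 20, 24, 82945, 89089, 345089, 607233, 9175550614538, 9715771852838, 9719530473510, 13376244374538, 13559362176034, 14409646171154, 17956331537442, 18511596439590, 18791654972426]
theorem p230 : Pat 73 73 TBm TCm (C230.map Fm) R0Q012.P230 R0Q012.I230 := Vale.Agent.P032.Lt.pat_eq (E' := R0Q012.E230) (by decide +kernel) (pat_step (by decide +kernel) (q_cons (Vale.Agent.P032.Lt.q R0Q012.q230_0) (q_cons (Vale.Agent.P032.Lt.q R0Q012.q230_1) (q_cons (Vale.Agent.P032.Lt.q R0Q012.q230_2) (q_cons (Vale.Agent.P032.Lt.q R0Q012.q230_3) q_nil)))))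

theorem p231 : Pat 73 73 TBm TCm (CB.map Fm) R0Q012.P231 R0Q012.I231 := Vale.Agent.P032.Lt.pat_eq (E' := R0Q012.E) eB (pat_step (by decide +kernel) (q_cons (Vale.Agent.P032.Lt.q R0Q012.q231_0) (q_cons (Vale.Agent.P032.Lt.q R0Q012.q231_1) (q_cons (Vale.Agent.P032.Lt.q R0Q012.q231_2) q_nil))))

def C232 : List ℕ := [0, 4, 8, 12, 16, 20, 24, 82945, 84993, 216065, 218113, 349185, 480257, 606209, 609281, 737281, 13921176087578, 24278400325638]
theorem p232 : Pat 73 73 TBm TCm (C232.map Fm) R0Q012.P232 R0Q012.I232 := Vale.Agent.P032.Lt.pat_eq (E' := R0Q012.E232) (by decide +kernel) (pat_step (by decide +kernel) (q_cons (Vale.Agent.P032.Lt.q R0Q012.q232_0) q_nil))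

theorem p233 : Pat 73 73 TBm TCm (CB.map Fm) R0Q012.P233 R0Q012.I233 := Vale.Agent.P032.Lt.pat_eq (E' := R0Q012.E) eB (pat_step (by decide +kernel) (q_cons (Vale.Agent.P032.Lt.q R0Q012.q233_0) (q_cons (Vale.Agent.P032.Lt.q R0Q012.q233_1) (q_cons (Vale.Agent.P032.Lt.q R0Q012.q233_2) (q_cons (Vale.Agent.P032.Lt.q R0Q012.q233_3) (q_cons (Vale.Agent.P032.Lt.q R0Q012.q233_4) (q_cons (Vale.Agent.P032.Lt.q R0Q012.q233_5) (q_cons (Vale.Agent.P032.Lt.q R0Q012.q233_6) (q_cons (Vale.Agent.P032.Lt.q R0Q012.q233_7) (q_cons (Vale.Agent.P032.Lt.q R0Q012.q233_8) q_nil))))))))))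

def C234 : List ℕ := [0, 4, 8, 12, 16, 20, 24, 82945, 344065]
theorem p234 : Pat 73 73 TBm TCm (C234.map Fm) R0Q012.P234 R0Q012.I234 := Vale.Agent.P032.Lt.pat_eq (E' := R0Q012.E234) (by decide +kernel) (pat_step (by decide +kernel) (q_cons (Vale.Agent.P032.Lt.q R0Q012.q234_0) (q_cons (Vale.Agent.P032.Lt.q R0Q012.q234_1) (q_cons (Vale.Agent.P032.Lt.q R0Q012.q234_2) (q_cons (Vale.Agent.P032.Lt.q R0Q012.q234_3) (q_cons (Vale.Agent.P032.Lt.q R0Q012.q234_4) (q_cons (Vale.Agent.P032.Lt.q R0Q012.q234_5) (q_cons (Vale.Agent.P032.Lt.q R0Q012.q234_6) (q_cons (Vale.Agent.P032.Lt.q R0Q012.q234_7) (q_cons (Vale.Agent.P032.Lt.q R0Q012.q234_8) (q_cons (Vale.Agent.P032.Lt.q R0Q012.q234_9) (q_cons (Vale.Agent.P032.Lt.q R0Q012.q234_10) (q_cons (Vale.Agent.P032.Lt.q R0Q012.q234_11) (q_cons (Vale.Agent.P032.Lt.q R0Q012.q234_12) (q_cons (Vale.Agent.P032.Lt.q R0Q012.q234_13) (q_cons (Vale.Agent.P032.Lt.q R0Q012.q234_14) (q_cons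 (Vale.Agent.P032.Lt.q R0Q012.q234_15) (q_cons (Vale.Agent.P032.Lt.q R0Q012.q234_16) (q_cons (Vale.Agent.P032.Lt.q R0Q012.q234_17) (q_cons (Vale.Agent.P032.Lt.q R0Q012.q234_18) (q_cons (Vale.Agent.P032.Lt.q R0Q012.q234_19) (q_cons (Vale.Agent.P032.Lt.q R0Q012.q234_20) (q_cons (Vale.Agent.P032.Lt.q R0Q012.q234_21) (q_cons (Vale.Agent.P032.Lt.q R0Q012.q234_22) (q_cons (Vale.Agent.P032.Lt.q R0Q012.q234_23) (q_cons (Vale.Agent.P032.Lt.q R0Q012.q234_24) (q_cons (Vale.Agent.P032.Lt.q R0Q012.q234_25) (q_cons (Vale.Agent.P032.Lt.q R0Q012.q234_26) q_nil))))))))))))))))))))))))))))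

def C235 : List ℕ := [0, 4, 8, 12, 16, 20, 24, 84993, 216065, 347137, 475137, 606209, 737281, 9177520104466, 13928582308882, 19328051795974, 24275583195142, 24275583457286, 24275585292294, 24275585554438, 24278402553862, 24278402947078, 24278404519942, 24278404913158]
theorem p235 : Pat 73 73 TBm TCm (C235.map Fm) R0Q012.P235 R0Q012.I235 := Vale.Agent.P032.Lt.pat_eq (E' := R0Q012.E235) (by decide +kernel) (pat_step (by decide +kernel) (q_cons (Vale.Agent.P032.Lt.q R0Q012.q235_0) (q_cons (Vale.Agent.P032.Lt.q R0Q012.q235_1) (q_cons (Vale.Agent.P032.Lt.q R0Q012.q235_2) (q_cons (Vale.Agent.P032.Lt.q R0Q012.q235_3) q_nil)))))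

theorem p236 : Pat 73 73 TBm TCm (CB.map Fm) R0Q012.P236 R0Q012.I236 := Vale.Agent.P032.Lt.pat_eq (E' := R0Q012.E) eB (pat_step (by decide +kernel) (q_cons (Vale.Agent.P032.Lt.q R0Q012.q236_0) (q_cons (Vale.Agent.P032.Lt.q R0Q012.q236_1) q_nil)))

def C237 : List ℕ := [0, 4, 8, 12, 16, 20, 24, 220161, 606209, 737281, 9715820217378, 14577858472986, 24284038912006, 24284041009158, 24285918746630, 24285919008774, 24285920712710, 24285920843782, 24285921105926]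
theorem p237 : Pat 73 73 TBm TCm (C237.map Fm) R0Q012.P237 R0Q012.I237 := Vale.Agent.P032.Lt.pat_eq (E' := R0Q012.E237) (by decide +kernel) (pat_step (by decide +kernel) (q_cons (Vale.Agent.P032.Lt.q R0Q012.q237_0) (q_cons (Vale.Agent.P032.Lt.q R0Q012.q237_1) (q_cons (Vale.Agent.P032.Lt.q R0Q012.q237_2) q_nil))))

def C238 : List ℕ := [0, 4, 8, 12, 16, 20, 24, 89089, 9169891705890]
theorem p238 : Pat 73 73 TBm TCm (C238.map Fm) R0Q012.P238 R0Q012.I238 := Vale.Agent.P032.Lt.pat_eq (E' := R0Q012.E238) (by decide +kernel) (pat_step (by decide +kernel) (q_cons (Vale.Agent.P032.Lt.q R0Q012.q238_0) (q_cons (Vale.Agent.P032.Lt.q R0Q012.q238_1) (q_cons (Vale.Agent.P032.Lt.q R0Q012.q238_2) (q_cons (Vale.Agent.P032.Lt.q R0Q012.q238_3) (q_cons (Vale.Agent.P032.Lt.q R0Q012.q238_4) (q_cons (Vale.Agent.P032.Lt.q R0Q012.q238_5) (q_cons (Vale.Agent.P032.Lt.q R0Q012.q238_6) q_nil))))))))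

def C239 : List ℕ := [0, 4, 8, 12, 16, 20, 24, 89089, 222209, 353281, 606209, 615425, 737281, 9170004952098, 9599319493674, 18513479814186]
theorem p239 : Pat 73 73 TBm TCm (C239.map Fm) R0Q012.P239 R0Q012.I239 := Vale.Agent.P032.Lt.pat_eq (E' := R0Q012.E239) (by decide +kernel) (pat_step (by decide +kernel) (q_cons (Vale.Agent.P032.Lt.q R0Q012.q239_0) q_nil))

def C240 : List ℕ := [0, 4, 8, 12, 16, 20, 24, 82945, 214017, 4651832271890, 9719627340810, 13376227859466, 19061276753950]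
theorem p240 : Pat 73 73 TBm TCm (C240.map Fm) R0Q012.P240 R0Q012.I240 := Vale.Agent.P032.Lt.pat_eq (E' := R0Q012.E240) (by decide +kernel) (pat_step (by decide +kernel) (q_cons (Vale.Agent.P032.Lt.q R0Q012.q240_0) q_nil))

theorem p241 : Pat 73 73 TBm TCm (CB.map Fm) R0Q012.P241 R0Q012.I241 := Vale.Agent.P032.Lt.pat_eq (E' := R0Q012.E) eB (pat_step (by decide +kernel) (q_cons (Vale.Agent.P032.Lt.q R0Q012.q241_0) (q_cons (Vale.Agent.P032.Lt.q R0Q012.q241_1) q_nil)))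

def C242 : List ℕ := [0, 4, 8, 12, 16, 20, 24, 82945, 89089, 212993, 606209, 737281, 9170004952098]
theorem p242 : Pat 73 73 TBm TCm (C242.map Fm) R0Q012.P242 R0Q012.I242 := Vale.Agent.P032.Lt.pat_eq (E' := R0Q012.E242) (by decide +kernel) (pat_step (by decide +kernel) (q_cons (Vale.Agent.P032.Lt.q R0Q012.q242_0) (q_cons (Vale.Agent.P032.Lt.q R0Q012.q242_1) (q_cons (Vale.Agent.P032.Lt.q R0Q012.q242_2) q_nil))))

def C243 : List ℕ := [0, 4, 8, 12, 16, 20, 24, 84993, 214017, 216065, 218113, 347137, 349185, 476161, 478209, 480257, 609281, 4651742092298, 9102290021402, 9115398267922, 9117277316114, 9169895123994, 9599275981834, 13488039353354, 14105213103130, 14409639353354, 18511675483154, 18791594419218, 18911853503506, 19594007241746]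
theorem p243 : Pat 73 73 TBm TCm (C243.map Fm) R0Q012.P243 R0Q012.I243 := Vale.Agent.P032.Lt.pat_eq (E' := R0Q012.E243) (by decide +kernel) (pat_step (by decide +kernel) (q_cons (Vale.Agent.P032.Lt.q R0Q012.q243_0) q_nil))

def C244 : List ℕ := [0, 4, 8, 12, 16, 20, 24, 475137, 617473, 19355367068722]
theorem p244 : Pat 73 73 TBm TCm (C244.map Fm) R0Q012.P244 R0Q012.I244 := Vale.Agent.P032.Lt.pat_eq (E' := R0Q012.E244) (by decide +kernel) (pat_step (by decide +kernel) (q_cons (Vale.Agent.P032.Lt.q R0Q012.q244_0) (q_cons (Vale.Agent.P032.Lt.q R0Q012.q244_1) q_nil)))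

def C245 : List ℕ := [0, 4, 8, 12, 16, 20, 24, 84993, 606209, 4770128684050, 18310614308870, 24352692328454, 24352692590598, 24353631066118, 24353633425414]
theorem p245 : Pat 73 73 TBm TCm (C245.map Fm) R0Q012.P245 R0Q012.I245 := Vale.Agent.P032.Lt.pat_eq (E' := R0Q012.E245) (by decide +kernel) (pat_step (by decide +kernel) (q_cons (Vale.Agent.P032.Lt.q R0Q012.q245_0) (q_cons (Vale.Agent.P032.Lt.q R0Q012.q245_1) q_nil)))

theorem p246 : Pat 73 73 TBm TCm (CB.map Fm) R0Q012.P246 R0Q012.I246 := Vale.Agent.P032.Lt.pat_eq (E' := R0Q012.E) eB (pat_step (by decide +kernel) (q_cons (Vale.Agent.P032.Lt.q R0Q012.q246_0) q_nil))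

def C247 : List ℕ := [0, 4, 8, 12, 16, 20, 24, 345089, 476161, 13367780269066, 19355384374290]
theorem p247 : Pat 73 73 TBm TCm (C247.map Fm) R0Q012.P247 R0Q012.I247 := Vale.Agent.P032.Lt.pat_eq (E' := R0Q012.E247) (by decide +kernel) (pat_step (by decide +kernel) (q_cons (Vale.Agent.P032.Lt.q R0Q012.q247_0) q_nil))

def C248 : List ℕ := [0, 4, 8, 12, 16, 20, 24, 84993, 214017, 347137, 349185, 355329, 475137, 478209, 480257, 606209, 609281, 737281, 9102290021402, 9102348741658, 9177436218386, 14402189743154, 19332747843590, 19594009076754, 24275583195142, 24275583326214, 24275583457286, 24275583719430, 24275585292294, 24275585554438, 24278402553862, 24278404651014, 24278404782086, 24278404913158]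
theorem p248 : Pat 73 73 TBm TCm (C248.map Fm) R0Q012.P248 R0Q012.I248 := Vale.Agent.P032.Lt.pat_eq (E' := R0Q012.E248) (by decide +kernel) (pat_step (by decide +kernel) (q_cons (Vale.Agent.P032.Lt.q R0Q012.q248_0) (q_cons (Vale.Agent.P032.Lt.q R0Q012.q248_1) (q_cons (Vale.Agent.P032.Lt.q R0Q012.q248_2) (q_cons (Vale.Agent.P032.Lt.q R0Q012.q248_3) (q_cons (Vale.Agent.P032.Lt.q R0Q012.q248_4) (q_cons (Vale.Agent.P032.Lt.q R0Q012.q248_5) q_nil)))))))

def C249 : List ℕ := [0, 4, 8, 12, 16, 20, 24, 214017, 216065, 475137, 606209, 737281, 9587108429854, 9599275981834, 9599368520722, 13928628446226, 14402189743154, 24275583457286, 24275585554438, 24278404519942, 24278404651014]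
theorem p249 : Pat 73 73 TBm TCm (C249.map Fm) R0Q013.P249 R0Q013.I249 := Vale.Agent.P032.Lt.pat_eq (E' := R0Q013.E249) (by decide +kernel) (pat_step (by decide +kernel) (q_cons (Vale.Agent.P032.Lt.q R0Q013.q249_0) (q_cons (Vale.Agent.P032.Lt.q R0Q013.q249_1) q_nil)))

def C250 : List ℕ := [0, 4, 8, 12, 16, 20, 24, 84993, 606209, 607233, 737281, 9046813008914, 24275585554438, 24278404519942, 24278467434502]
theorem p250 : Pat 73 73 TBm TCm (C250.map Fm) R0Q013.P250 R0Q013.I250 := Vale.Agent.P032.Lt.pat_eq (E' := R0Q013.E250) (by decide +kernel) (pat_step (by decide +kernel) (q_cons (Vale.Agent.P032.Lt.q R0Q013.q250_0) (q_cons (Vale.Agent.P032.Lt.q R0Q013.q250_1) (q_cons (Vale.Agent.P032.Lt.q R0Q013.q250_2) (q_cons (Vale.Agent.P032.Lt.q R0Q013.q250_3) (q_cons (Vale.Agent.P032.Lt.q R0Q013.q250_4) (q_cons (Vale.Agent.P032.Lt.q R0Q013.q250_5) (q_cons (Vale.Agent.P032.Lt.q R0Q013.q250_6) (q_cons (Vale.Agent.P032.Lt.q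 R0Q013.q250_7) (q_cons (Vale.Agent.P032.Lt.q R0Q013.q250_8) (q_cons (Vale.Agent.P032.Lt.q R0Q013.q250_9) (q_cons (Vale.Agent.P032.Lt.q R0Q013.q250_10) (q_cons (Vale.Agent.P032.Lt.q R0Q013.q250_11) (q_cons (Vale.Agent.P032.Lt.q R0Q013.q250_12) (q_cons (Vale.Agent.P032.Lt.q R0Q013.q250_13) (q_cons (Vale.Agent.P032.Lt.q R0Q013.q250_14) (q_cons (Vale.Agent.P032.Lt.q R0Q013.q250_15) (q_cons (Vale.Agent.P032.Lt.q R0Q013.q250_16) (q_cons (Vale.Agent.P032.Lt.q R0Q013.q250_17) (q_cons (Vale.Agent.P032.Lt.q R0Q013.q250_18) q_nil))))))))))))))))))))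

theorem p251 : Pat 73 73 TBm TCm (CB.map Fm) R0Q013.P251 R0Q013.I251 := Vale.Agent.P032.Lt.pat_eq (E' := R0Q013.E) eB (pat_step (by decide +kernel) (q_cons (Vale.Agent.P032.Lt.q R0Q013.q251_0) q_nil))

def C252 : List ℕ := [0, 4, 8, 12, 16, 20, 24, 90113, 347137, 606209, 737281, 745473, 9591774471186, 22218023454758, 22218031843366, 24278400325638, 24278467434502, 24338546644998, 24338613753862, 24338622142470]
theorem p252 : Pat 73 73 TBm TCm (C252.map Fm) R0Q013.P252 R0Q013.I252 := Vale.Agent.P032.Lt.pat_eq (E' := R0Q013.E252) (by decide +kernel) (pat_step (by decide +kernel) (q_cons (Vale.Agent.P032.Lt.q R0Q013.q252_0) (q_cons (Vale.Agent.P032.Lt.q R0Q013.q252_1) (q_cons (Vale.Agent.P032.Lt.q R0Q013.q252_2) (q_cons (Vale.Agent.P032.Lt.q R0Q013.q252_3) (q_cons (Vale.Agent.P032.Lt.q R0Q013.q252_4) q_nil))))))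

theorem p253 : Pat 73 73 TBm TCm (CB.map Fm) R0Q013.P253 R0Q013.I253 := Vale.Agent.P032.Lt.pat_eq (E' := R0Q013.E) eB (pat_step (by decide +kernel) (q_cons (Vale.Agent.P032.Lt.q R0Q013.q253_0) (q_cons (Vale.Agent.P032.Lt.q R0Q013.q253_1) (q_cons (Vale.Agent.P032.Lt.q R0Q013.q253_2) (q_cons (Vale.Agent.P032.Lt.q R0Q013.q253_3) (q_cons (Vale.Agent.P032.Lt.q R0Q013.q253_4) (q_cons (Vale.Agent.P032.Lt.q R0Q013.q253_5) (q_cons (Vale.Agent.P032.Lt.q R0Q013.q253_6) (q_cons (Vale.Agent.P032.Lt.q R0Q013.q253_7) (q_cons (Vale.Agent.P032.Lt.q R0Q013.q253_8) (q_cons (Vale.Agent.P032.Lt.q R0Q013.q253_9) (q_cons (Vale.Agent.P032.Lt.q R0Q013.q253_10) (q_cons (Vale.Agent.P032.Lt.q R0Q013.q253_11) (q_cons (Vale.Agent.P032.Lt.q R0Q013.q253_12) (q_cons (Vale.Agent.P032.Lt.q R0Q013.q253_13) (q_cons (Vale.Agent.P032.Lt.q R0Q013.q253_14) (q_cons (Vale.Agent.P032.Lt.q R0Q013.q253_15) (q_cons (Vale.Agent.P032.Lt.q R0Q013.q253_16)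 (q_cons (Vale.Agent.P032.Lt.q R0Q013.q253_17) (q_cons (Vale.Agent.P032.Lt.q R0Q013.q253_18) (q_cons (Vale.Agent.P032.Lt.q R0Q013.q253_19) (q_cons (Vale.Agent.P032.Lt.q R0Q013.q253_20) (q_cons (Vale.Agent.P032.Lt.q R0Q013.q253_21) (q_cons (Vale.Agent.P032.Lt.q R0Q013.q253_22) (q_cons (Vale.Agent.P032.Lt.q R0Q013.q253_23) (q_cons (Vale.Agent.P032.Lt.q R0Q013.q253_24) (q_cons (Vale.Agent.P032.Lt.q R0Q013.q253_25) (q_cons (Vale.Agent.P032.Lt.q R0Q013.q253_26) (q_cons (Vale.Agent.P032.Lt.q R0Q013.q253_27) (q_cons (Vale.Agent.P032.Lt.q R0Q013.q253_28) (q_cons (Vale.Agent.P032.Lt.q R0Q013.q253_29) (q_cons (Vale.Agent.P032.Lt.q R0Q013.q253_30) (q_cons (Vale.Agent.P032.Lt.q R0Q013.q253_31) (q_cons (Vale.Agent.P032.Lt.q R0Q013.q253_32) (q_cons (Vale.Agent.P032.Lt.q R0Q013.q253_33) (q_cons (Vale.Agent.P032.Lt.q R0Q013.q253_34) (q_cons (Vale.Agent.P032.Lt.q R0Q013.q253_35) (q_cons (Vale.Agent.P032.Lt.q R0Q013.q253_36) (q_cons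 (Vale.Agent.P032.Lt.q R0Q013.q253_37) (q_cons (Vale.Agent.P032.Lt.q R0Q013.q253_38) (q_cons (Vale.Agent.P032.Lt.q R0Q013.q253_39) (q_cons (Vale.Agent.P032.Lt.q R0Q013.q253_40) (q_cons (Vale.Agent.P032.Lt.q R0Q013.q253_41) (q_cons (Vale.Agent.P032.Lt.q R0Q013.q253_42) q_nil))))))))))))))))))))))))))))))))))))))))))))

theorem p254 : Pat 73 73 TBm TCm (CB.map Fm) R0Q013.P254 R0Q013.I254 := Vale.Agent.P032.Lt.pat_eq (E' := R0Q013.E) eB (pat_step (by decide +kernel) (q_cons (Vale.Agent.P032.Lt.q R0Q013.q254_0) (q_cons (Vale.Agent.P032.Lt.q R0Q013.q254_1) (q_cons (Vale.Agent.P032.Lt.q R0Q013.q254_2) (q_cons (Vale.Agent.P032.Lt.q R0Q013.q254_3) (q_cons (Vale.Agent.P032.Lt.q R0Q013.q254_4) (q_cons (Vale.Agent.P032.Lt.q R0Q013.q254_5) q_nil)))))))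

theorem p255 : Pat 73 73 TBm TCm (CB.map Fm) R0Q013.P255 R0Q013.I255 := Vale.Agent.P032.Lt.pat_eq (E' := R0Q013.E) eB (pat_step (by decide +kernel) (q_cons (Vale.Agent.P032.Lt.q R0Q013.q255_0) (q_cons (Vale.Agent.P032.Lt.q R0Q013.q255_1) (q_cons (Vale.Agent.P032.Lt.q R0Q013.q255_2) q_nil))))

def L : List (List ℕ) := [R0Q007.P128, R0Q007.P129, R0Q007.P130, R0Q007.P131, R0Q007.P132, R0Q007.P133, R0Q007.P134, R0Q007.P135, R0Q007.P136, R0Q007.P137, R0Q007.P138, R0Q007.P139, R0Q007.P140, R0Q007.P141, R0Q007.P142, R0Q008.P143, R0Q008.P144, R0Q008.P145, R0Q008.P146, R0Q008.P147, R0Q008.P148, R0Q008.P149, R0Q008.P150, R0Q008.P151, R0Q008.P152, R0Q008.P153, R0Q008.P154, R0Q008.P155, R0Q008.P156, R0Q008.P157, R0Q008.P158, R0Q009.P159, R0Q009.P160, R0Q009.P161, R0Q009.P162, R0Q009.P163, R0Q009.P164, R0Q009.P165, R0Q009.P166, R0Q009.P167, R0Q009.P168, R0Q009.P169, R0Q009.P170, R0Q009.P171, R0Q009.P172, R0Q009.P173, R0Q009.P174,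 R0Q009.P175, R0Q009.P176, R0Q009.P177, R0Q009.P178, R0Q009.P179, R0Q009.P180, R0Q009.P181, R0Q010.P182, R0Q010.P183, R0Q010.P184, R0Q010.P185, R0Q010.P186, R0Q010.P187, R0Q010.P188, R0Q010.P189, R0Q010.P190, R0Q010.P191, R0Q010.P192, R0Q010.P193, R0Q010.P194, R0Q010.P195, R0Q010.P196, R0Q010.P197, R0Q010.P198, R0Q010.P199, R0Q010.P200, R0Q010.P201, R0Q011.P202, R0Q011.P203, R0Q011.P204, R0Q011.P205, R0Q011.P206, R0Q011.P207, R0Q011.P208, R0Q011.P209, R0Q011.P210, R0Q011.P211, R0Q011.P212, R0Q011.P213, R0Q011.P214, R0Q011.P215, R0Q011.P216, R0Q011.P217, R0Q011.P218, R0Q011.P219, R0Q011.P220, R0Q011.P221, R0Q011.P222, R0Q011.P223, R0Q012.P224, R0Q012.P225, R0Q012.P226, R0Q012.P227, R0Q012.P228, R0Q012.P229, R0Q012.P230, R0Q012.P231, R0Q012.P232, R0Q012.P233, R0Q012.P234, R0Q012.P235, R0Q012.P236, R0Q012.P237, R0Q012.P238, R0Q012.P239, R0Q012.P240, R0Q012.P241, R0Q012.P242, R0Q012.P243, R0Q012.P244, R0Q012.P245,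 R0Q012.P246, R0Q012.P247, R0Q012.P248, R0Q013.P249, R0Q013.P250, R0Q013.P251, R0Q013.P252, R0Q013.P253, R0Q013.P254, R0Q013.P255]

theorem all : ∀ P ∈ L, CrtF 73 73 TBm TCm (Vale.Agent.P032.Fam.fam3 (Vale.Agent.P032.Fam.im0)) P := crtF_cons p128 (crtF_cons p129 (crtF_cons p130 (crtF_cons p131 (crtF_cons p132 (crtF_cons p133 (crtF_cons p134 (crtF_cons p135 (crtF_cons p136 (crtF_cons p137 (crtF_cons p138 (crtF_cons p139 (crtF_cons p140 (crtF_cons p141 (crtF_cons p142 (crtF_cons p143 (crtF_cons p144 (crtF_cons p145 (crtF_cons p146 (crtF_cons p147 (crtF_cons p148 (crtF_cons p149 (crtF_cons p150 (crtF_cons p151 (crtF_cons p152 (crtF_cons p153 (crtF_cons p154 (crtF_cons p155 (crtF_cons p156 (crtF_cons p157 (crtF_cons p158 (crtF_cons p159 (crtF_cons p160 (crtF_cons p161 (crtF_cons p162 (crtF_cons p163 (crtF_cons p164 (crtF_cons p165 (crtF_cons p166 (crtF_cons p167 (crtF_cons p168 (crtF_cons p169 (crtF_cons p170 (crtF_cons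 p171 (crtF_cons p172 (crtF_cons p173 (crtF_cons p174 (crtF_cons p175 (crtF_cons p176 (crtF_cons p177 (crtF_cons p178 (crtF_cons p179 (crtF_cons p180 (crtF_cons p181 (crtF_cons p182 (crtF_cons p183 (crtF_cons p184 (crtF_cons p185 (crtF_cons p186 (crtF_cons p187 (crtF_cons p188 (crtF_cons p189 (crtF_cons p190 (crtF_cons p191 (crtF_cons p192 (crtF_cons p193 (crtF_cons p194 (crtF_cons p195 (crtF_cons p196 (crtF_cons p197 (crtF_cons p198 (crtF_cons p199 (crtF_cons p200 (crtF_cons p201 (crtF_cons p202 (crtF_cons p203 (crtF_cons p204 (crtF_cons p205 (crtF_cons p206 (crtF_cons p207 (crtF_cons p208 (crtF_cons p209 (crtF_cons p210 (crtF_cons p211 (crtF_cons p212 (crtF_cons p213 (crtF_cons p214 (crtF_cons p215 (crtF_cons p216 (crtF_cons p217 (crtF_cons p218 (crtF_cons p219 (crtF_cons p220 (crtF_cons p221 (crtF_cons p222 (crtF_cons p223 (crtF_cons p224 (crtF_cons p225 (crtF_cons p226 (crtF_cons p227 (crtF_cons p228 (crtF_cons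 p229 (crtF_cons p230 (crtF_cons p231 (crtF_cons p232 (crtF_cons p233 (crtF_cons p234 (crtF_cons p235 (crtF_cons p236 (crtF_cons p237 (crtF_cons p238 (crtF_cons p239 (crtF_cons p240 (crtF_cons p241 (crtF_cons p242 (crtF_cons p243 (crtF_cons p244 (crtF_cons p245 (crtF_cons p246 (crtF_cons p247 (crtF_cons p248 (crtF_cons p249 (crtF_cons p250 (crtF_cons p251 (crtF_cons p252 (crtF_cons p253 (crtF_cons p254 (crtF_cons p255 crtF_nil)))))))))))))))))))))))))))))))))))))))))))))))))))))))))))))))))))))))))))))))))))))))))))))))))))))))))))))))))))))))))))))))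

theorem ch : chT 73 73 TCm s0_001 L = true := by decide +kernel

end Vale.Agent.P032X.Cert.X3.A.R0H001
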