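import Vale.Agent.P032X.H892.LtH
import Vale.Agent.P032X.H286.W73
import Vale.Agent.P032X.Cert.X3.A.R0T
import Vale.Agent.P032X.Cert.X3.A.R0Q021
import Vale.Agent.P032X.Cert.X3.A.R0Q022
import Vale.Agent.P032X.Cert.X3.A.R0Q023
import Vale.Agent.P032X.Cert.X3.A.R0Q024
import Vale.Agent.P032X.Cert.X3.A.R0Q025
import Vale.Agent.P032X.Cert.X3.A.R0Q026

set_option maxRecDepth 1000000

namespace Vale.Agent.P032X.Cert.X3.A.R0H003

open Vale.Agent.P032.H820.K Vale.Agent.P032.H357.MK Vale.Agent.P032.H286.E Vale.Agent.P032.H61 Vale.Agent.P032X.Cert.X3.A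

noncomputable abbrev Fm : ℕ → List ℕ := Vale.Agent.P032.Fam.fam3 (Vale.Agent.P032.Fam.im0)

def CB : List ℕ := [0, 4, 8, 12, 16, 20, 24]

theorem eB : Vale.Agent.P032.Lt.eqLL (CB.map Fm) R0Q021.E = true := by decide +kernel

def C384 : List ℕ := [0, 4, 8, 12, 16, 20, 24, 82945, 84993, 216065, 347137, 349185, 9046813008914, 9177411316762, 13376227859466, 14672688540698]
theorem p384 : Pat 73 73 TBm TCm (C384.map Fm) R0Q021.P384 R0Q021.I384 := Vale.Agent.P032.Lt.pat_eq (E' := R0Q021.E384) (by decide +kernel) (pat_step (by decide +kernel) (q_cons (Vale.Agent.P032.Lt.q R0Q021.q384_0) q_nil))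

theorem p385 : Pat 73 73 TBm TCm (CB.map Fm) R0Q021.P385 R0Q021.I385 := Vale.Agent.P032.Lt.pat_eq (E' := R0Q021.E) eB (pat_step (by decide +kernel) (q_cons (Vale.Agent.P032.Lt.q R0Q021.q385_0) (q_cons (Vale.Agent.P032.Lt.q R0Q021.q385_1) (q_cons (Vale.Agent.P032.Lt.q R0Q021.q385_2) q_nil))))

theorem p386 : Pat 73 73 TBm TCm (CB.map Fm) R0Q021.P386 R0Q021.I386 := Vale.Agent.P032.Lt.pat_eq (E' := R0Q021.E) eB (pat_step (by decide +kernel) (q_cons (Vale.Agent.P032.Lt.q R0Q021.q386_0) q_nil))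

def C387 : List ℕ := [0, 4, 8, 12, 16, 20, 24, 91137, 220161, 222209, 353281, 484353, 486401, 606209, 615425, 737281, 9666898119722, 9715799245858, 13916454212658, 14105232755754]
theorem p387 : Pat 73 73 TBm TCm (C387.map Fm) R0Q021.P387 R0Q021.I387 := Vale.Agent.P032.Lt.pat_eq (E' := R0Q021.E387) (by decide +kernel) (pat_step (by decide +kernel) (q_cons (Vale.Agent.P032.Lt.q R0Q021.q387_0) q_nil))

def C388 : List ℕ := [0, 4, 8, 12, 16, 20, 24, 87041, 218113, 349185, 476161, 607233, 611329, 4641423322138, 9177446968346, 18911931362330, 19392881187850, 19602386934794]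
theorem p388 : Pat 73 73 TBm TCm (C388.map Fm) R0Q021.P388 R0Q021.I388 := Vale.Agent.P032.Lt.pat_eq (E' := R0Q021.E388) (by decide +kernel) (pat_step (by decide +kernel) (q_cons (Vale.Agent.P032.Lt.q R0Q021.q388_0) (q_cons (Vale.Agent.P032.Lt.q R0Q021.q388_1) (q_cons (Vale.Agent.P032.Lt.q R0Q021.q388_2) (q_cons (Vale.Agent.P032.Lt.q R0Q021.q388_3) (q_cons (Vale.Agent.P032.Lt.q R0Q021.q388_4) (q_cons (Vale.Agent.P032.Lt.q R0Q021.q388_5) q_nil)))))))

def C389 : List ℕ := [0, 4, 8, 12, 16, 20, 24, 81921, 212993, 344065, 349185, 355329, 606209, 737281, 9169895123994]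
theorem p389 : Pat 73 73 TBm TCm (C389.map Fm) R0Q021.P389 R0Q021.I389 := Vale.Agent.P032.Lt.pat_eq (E' := R0Q021.E389) (by decide +kernel) (pat_step (by decide +kernel) (q_cons (Vale.Agent.P032.Lt.q R0Q021.q389_0) (q_cons (Vale.Agent.P032.Lt.q R0Q021.q389_1) q_nil)))

def C390 : List ℕ := [0, 4, 8, 12, 16, 20, 24, 613377, 17956321051682, 19602365432866]
theorem p390 : Pat 73 73 TBm TCm (C390.map Fm) R0Q021.P390 R0Q021.I390 := Vale.Agent.P032.Lt.pat_eq (E' := R0Q021.E390) (by decide +kernel) (pat_step (by decide +kernel) (q_cons (Vale.Agent.P032.Lt.q R0Q021.q390_0) (q_cons (Vale.Agent.P032.Lt.q R0Q021.q390_1) (q_cons (Vale.Agent.P032.Lt.q R0Q021.q390_2) q_nil))))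

def C391 : List ℕ := [0, 4, 8, 12, 16, 20, 24, 84993, 216065, 347137, 480257, 606209, 737281, 9042154972178, 9591774471186, 24278400325638]
theorem p391 : Pat 73 73 TBm TCm (C391.map Fm) R0Q021.P391 R0Q021.I391 := Vale.Agent.P032.Lt.pat_eq (E' := R0Q021.E391) (by decide +kernel) (pat_step (by decide +kernel) (q_cons (Vale.Agent.P032.Lt.q R0Q021.q391_0) (q_cons (Vale.Agent.P032.Lt.q R0Q021.q391_1) (q_cons (Vale.Agent.P032.Lt.q R0Q021.q391_2) q_nil))))

def C392 : List ℕ := [0, 4, 8, 12, 16, 20, 24, 347137, 353281, 484353, 606209, 14041335417898]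
theorem p392 : Pat 73 73 TBm TCm (C392.map Fm) R0Q021.P392 R0Q021.I392 := Vale.Agent.P032.Lt.pat_eq (E' := R0Q021.E392) (by decide +kernel) (pat_step (by decide +kernel) (q_cons (Vale.Agent.P032.Lt.q R0Q021.q392_0) (q_cons (Vale.Agent.P032.Lt.q R0Q021.q392_1) (q_cons (Vale.Agent.P032.Lt.q R0Q021.q392_2) q_nil))))

def C393 : List ℕ := [0, 4, 8, 12, 16, 20, 24, 613377, 737281, 18503168115746]
theorem p393 : Pat 73 73 TBm TCm (C393.map Fm) R0Q021.P393 R0Q021.I393 := Vale.Agent.P032.Lt.pat_eq (E' := R0Q021.E393) (by decide +kernel) (pat_step (by decide +kernel) (q_cons (Vale.Agent.P032.Lt.q R0Q021.q393_0) (q_cons (Vale.Agent.P032.Lt.q R0Q021.q393_1) (q_cons (Vale.Agent.P032.Lt.q R0Q021.q393_2) (q_cons (Vale.Agent.P032.Lt.q R0Q021.q393_3) (q_cons (Vale.Agent.P032.Lt.q R0Q021.q393_4) (q_cons (Vale.Agent.P032.Lt.q R0Q021.q393_5) (q_cons (Vale.Agent.P032.Lt.q R0Q021.q393_6) (q_cons (Vale.Agent.P032.Lt.q R0Q021.q393_7)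 (q_cons (Vale.Agent.P032.Lt.q R0Q021.q393_8) q_nil))))))))))

def C394 : List ℕ := [0, 4, 8, 12, 16, 20, 24, 82945, 218113, 349185, 606209, 609281, 737281, 9102290021402, 24275585292294, 24278404519942, 24278467434502, 24338622142470, 24338622273542]
theorem p394 : Pat 73 73 TBm TCm (C394.map Fm) R0Q021.P394 R0Q021.I394 := Vale.Agent.P032.Lt.pat_eq (E' := R0Q021.E394) (by decide +kernel) (pat_step (by decide +kernel) (q_cons (Vale.Agent.P032.Lt.q R0Q021.q394_0) q_nil))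

theorem p395 : Pat 73 73 TBm TCm (CB.map Fm) R0Q021.P395 R0Q021.I395 := Vale.Agent.P032.Lt.pat_eq (E' := R0Q021.E) eB (pat_step (by decide +kernel) (q_cons (Vale.Agent.P032.Lt.q R0Q021.q395_0) (q_cons (Vale.Agent.P032.Lt.q R0Q021.q395_1) (q_cons (Vale.Agent.P032.Lt.q R0Q021.q395_2) (q_cons (Vale.Agent.P032.Lt.q R0Q021.q395_3) (q_cons (Vale.Agent.P032.Lt.q R0Q021.q395_4) (q_cons (Vale.Agent.P032.Lt.q R0Q021.q395_5) (q_cons (Vale.Agent.P032.Lt.q R0Q021.q395_6) (q_cons (Vale.Agent.P032.Lt.q R0Q021.q395_7) q_nil)))))))))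

def C396 : List ℕ := [0, 4, 8, 12, 16, 20, 24, 81921, 613377, 4779503081478, 4779505047558, 17842734192646, 17842738386950, 17843677124614, 18305865172002, 18366028268578]
theorem p396 : Pat 73 73 TBm TCm (C396.map Fm) R0Q021.P396 R0Q021.I396 := Vale.Agent.P032.Lt.pat_eq (E' := R0Q021.E396) (by decide +kernel) (pat_step (by decide +kernel) (q_cons (Vale.Agent.P032.Lt.q R0Q021.q396_0) (q_cons (Vale.Agent.P032.Lt.q R0Q021.q396_1) (q_cons (Vale.Agent.P032.Lt.q R0Q021.q396_2) (q_cons (Vale.Agent.P032.Lt.q R0Q021.q396_3) (q_cons (Vale.Agent.P032.Lt.q R0Q021.q396_4) (q_cons (Vale.Agent.P032.Lt.q R0Q021.q396_5) q_nil)))))))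

def C397 : List ℕ := [0, 4, 8, 12, 16, 20, 24, 84993, 214017, 347137, 478209, 606209, 737281, 14041323101194, 14405925823506, 14646473352210, 18325575785482, 24352692328454, 24352692590598, 24352694687750, 24353631066118, 24353631459334, 24353633163270]
theorem p397 : Pat 73 73 TBm TCm (C397.map Fm) R0Q021.P397 R0Q021.I397 := Vale.Agent.P032.Lt.pat_eq (E' := R0Q021.E397) (by decide +kernel) (pat_step (by decide +kernel) (q_cons (Vale.Agent.P032.Lt.q R0Q021.q397_0) (q_cons (Vale.Agent.P032.Lt.q R0Q021.q397_1) (q_cons (Vale.Agent.P032.Lt.q R0Q021.q397_2) (q_cons (Vale.Agent.P032.Lt.q R0Q021.q397_3) q_nil)))))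

theorem p398 : Pat 73 73 TBm TCm (CB.map Fm) R0Q021.P398 R0Q021.I398 := Vale.Agent.P032.Lt.pat_eq (E' := R0Q021.E) eB (pat_step (by decide +kernel) (q_cons (Vale.Agent.P032.Lt.q R0Q021.q398_0) (q_cons (Vale.Agent.P032.Lt.q R0Q021.q398_1) q_nil)))

def C399 : List ℕ := [0, 4, 8, 12, 16, 20, 24, 81921, 84993, 478209, 606209, 737281]
theorem p399 : Pat 73 73 TBm TCm (C399.map Fm) R0Q021.P399 R0Q021.I399 := Vale.Agent.P032.Lt.pat_eq (E' := R0Q021.E399) (by decide +kernel) (pat_step (by decide +kernel) (q_cons (Vale.Agent.P032.Lt.q R0Q021.q399_0) (q_cons (Vale.Agent.P032.Lt.q R0Q021.q399_1) (q_cons (Vale.Agent.P032.Lt.q R0Q021.q399_2) (q_cons (Vale.Agent.P032.Lt.q R0Q021.q399_3) (q_cons (Vale.Agent.P032.Lt.q R0Q021.q399_4) (q_cons (Vale.Agent.P032.Lt.q R0Q021.q399_5) (q_cons (Vale.Agent.P032.Lt.q R0Q021.q399_6) q_nil))))))))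

def C400 : List ℕ := [0, 4, 8, 12, 16, 20, 24, 82945, 89089, 355329, 9177521144866]
theorem p400 : Pat 73 73 TBm TCm (C400.map Fm) R0Q021.P400 R0Q021.I400 := Vale.Agent.P032.Lt.pat_eq (E' := R0Q021.E400) (by decide +kernel) (pat_step (by decide +kernel) (q_cons (Vale.Agent.P032.Lt.q R0Q021.q400_0) (q_cons (Vale.Agent.P032.Lt.q R0Q021.q400_1) (q_cons (Vale.Agent.P032.Lt.q R0Q021.q400_2) (q_cons (Vale.Agent.P032.Lt.q R0Q021.q400_3) (q_cons (Vale.Agent.P032.Lt.q R0Q021.q400_4) (q_cons (Vale.Agent.P032.Lt.q R0Q021.q400_5) (q_cons (Vale.Agent.P032.Lt.q R0Q021.q400_6) (q_cons (Vale.Agent.P032.Lt.q R0Q021.q400_7) q_nil)))))))))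

def C401 : List ℕ := [0, 4, 8, 12, 16, 20, 24, 84993, 215041, 216065, 347137, 475137, 606209, 737281, 741377, 9117390562322, 13928628446226, 23923281717270, 24275583195142, 24275583457286, 24275585292294, 24275585554438, 24278402553862, 24278402816006, 24278404519942]
theorem p401 : Pat 73 73 TBm TCm (C401.map Fm) R0Q021.P401 R0Q021.I401 := Vale.Agent.P032.Lt.pat_eq (E' := R0Q021.E401) (by decide +kernel) (pat_step (by decide +kernel) (q_cons (Vale.Agent.P032.Lt.q R0Q021.q401_0) (q_cons (Vale.Agent.P032.Lt.q R0Q021.q401_1) (q_cons (Vale.Agent.P032.Lt.q R0Q021.q401_2) (q_cons (Vale.Agent.P032.Lt.q R0Q021.q401_3) q_nil)))))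

def C402 : List ℕ := [0, 4, 8, 12, 16, 20, 24, 484353, 486401, 615425, 617473, 737281, 13487964247090, 14036639108138, 17817291281458, 18365966142506, 23729722447878, 24278404519942]
theorem p402 : Pat 73 73 TBm TCm (C402.map Fm) R0Q021.P402 R0Q021.I402 := Vale.Agent.P032.Lt.pat_eq (E' := R0Q021.E402) (by decide +kernel) (pat_step (by decide +kernel) (q_cons (Vale.Agent.P032.Lt.q R0Q021.q402_0) q_nil))

def C403 : List ℕ := [0, 4, 8, 12, 16, 20, 24, 87041, 214017, 345089, 349185, 351233, 476161, 607233, 611329, 738305, 9102248330274, 9177444871194, 9591832927242, 14105298295818, 14105298820106, 14122189546514, 14409720880138, 14646391555106, 14650149651490, 18511646123026, 18511692260370, 18806693649418, 18907165584410, 18911864253466, 19044303848482, 22232161016842, 22703804210186, 23725968677898]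
theorem p403 : Pat 73 73 TBm TCm (C403.map Fm) R0Q021.P403 R0Q021.I403 := Vale.Agent.P032.Lt.pat_eq (E' := R0Q021.E403) (by decide +kernel) (pat_step (by decide +kernel) (q_cons (Vale.Agent.P032.Lt.q R0Q021.q403_0) (q_cons (Vale.Agent.P032.Lt.q R0Q021.q403_1) (q_cons (Vale.Agent.P032.Lt.q R0Q021.q403_2) (q_cons (Vale.Agent.P032.Lt.q R0Q021.q403_3) (q_cons (Vale.Agent.P032.Lt.q R0Q021.q403_4) (q_cons (Vale.Agent.P032.Lt.q R0Q021.q403_5) (q_cons (Vale.Agent.P032.Lt.q R0Q021.q403_6) q_nil))))))))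

def C404 : List ℕ := [0, 4, 8, 12, 16, 20, 24, 214017, 475137, 607233, 738305, 19328049436678, 22703765806090]
theorem p404 : Pat 73 73 TBm TCm (C404.map Fm) R0Q021.P404 R0Q021.I404 := Vale.Agent.P032.Lt.pat_eq (E' := R0Q021.E404) (by decide +kernel) (pat_step (by decide +kernel) (q_cons (Vale.Agent.P032.Lt.q R0Q021.q404_0) (q_cons (Vale.Agent.P032.Lt.q R0Q021.q404_1) q_nil)))

def C405 : List ℕ := [0, 4, 8, 12, 16, 20, 24, 220161, 222209, 353281, 606209, 737281, 9715776179242, 18511600765994, 24275583195142]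
theorem p405 : Pat 73 73 TBm TCm (C405.map Fm) R0Q021.P405 R0Q021.I405 := Vale.Agent.P032.Lt.pat_eq (E' := R0Q021.E405) (by decide +kernel) (pat_step (by decide +kernel) (q_cons (Vale.Agent.P032.Lt.q R0Q021.q405_0) q_nil))

theorem p406 : Pat 73 73 TBm TCm (CB.map Fm) R0Q021.P406 R0Q021.I406 := Vale.Agent.P032.Lt.pat_eq (E' := R0Q021.E) eB (pat_step (by decide +kernel) (q_cons (Vale.Agent.P032.Lt.q R0Q021.q406_0) (q_cons (Vale.Agent.P032.Lt.q R0Q021.q406_1) (q_cons (Vale.Agent.P032.Lt.q R0Q021.q406_2) (q_cons (Vale.Agent.P032.Lt.q R0Q021.q406_3) (q_cons (Vale.Agent.P032.Lt.q R0Q021.q406_4) (q_cons (Vale.Agent.P032.Lt.q R0Q021.q406_5) (q_cons (Vale.Agent.P032.Lt.q R0Q021.q406_6) (q_cons (Vale.Agent.P032.Lt.q R0Q021.q406_7) (q_cons (Vale.Agent.P032.Lt.q R0Q021.q406_8) (q_cons (Vale.Agent.P032.Lt.q R0Q021.q406_9) (q_cons (Vale.Agent.P032.Lt.q R0Q021.q406_10) (q_cons (Vale.Agent.P032.Lt.q R0Q021.q406_11) (q_cons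 (Vale.Agent.P032.Lt.q R0Q021.q406_12) (q_cons (Vale.Agent.P032.Lt.q R0Q021.q406_13) (q_cons (Vale.Agent.P032.Lt.q R0Q021.q406_14) q_nil))))))))))))))))

theorem p407 : Pat 73 73 TBm TCm (CB.map Fm) R0Q021.P407 R0Q021.I407 := Vale.Agent.P032.Lt.pat_eq (E' := R0Q021.E) eB (pat_step (by decide +kernel) (q_cons (Vale.Agent.P032.Lt.q R0Q021.q407_0) (q_cons (Vale.Agent.P032.Lt.q R0Q021.q407_1) (q_cons (Vale.Agent.P032.Lt.q R0Q021.q407_2) (q_cons (Vale.Agent.P032.Lt.q R0Q021.q407_3) (q_cons (Vale.Agent.P032.Lt.q R0Q021.q407_4) q_nil))))))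

def C408 : List ℕ := [0, 4, 8, 12, 16, 20, 24, 344065, 346113, 355329, 475137, 477185, 486401, 606209, 748545, 14041423110158, 14409635026950, 18803786471430, 18806608058374, 19355289868294, 23196133053490, 23376500708402, 23744815518770, 23925183173682]
theorem p408 : Pat 73 73 TBm TCm (C408.map Fm) R0Q021.P408 R0Q021.I408 := Vale.Agent.P032.Lt.pat_eq (E' := R0Q021.E408) (by decide +kernel) (pat_step (by decide +kernel) (q_cons (Vale.Agent.P032.Lt.q R0Q021.q408_0) (q_cons (Vale.Agent.P032.Lt.q R0Q021.q408_1) q_nil)))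

def C409 : List ℕ := [0, 4, 8, 12, 16, 20, 24, 84993, 347137, 353281, 609281, 737281, 9038435929130, 9117390562322, 18911853503506, 24275583195142, 24275583457286, 24275585292294, 24275585554438, 24278402553862, 24278402816006, 24278404651014, 24278404913158]
theorem p409 : Pat 73 73 TBm TCm (C409.map Fm) R0Q022.P409 R0Q022.I409 := Vale.Agent.P032.Lt.pat_eq (E' := R0Q022.E409) (by decide +kernel) (pat_step (by decide +kernel) (q_cons (Vale.Agent.P032.Lt.q R0Q022.q409_0) (q_cons (Vale.Agent.P032.Lt.q R0Q022.q409_1) (q_cons (Vale.Agent.P032.Lt.q R0Q022.q409_2) (q_cons (Vale.Agent.P032.Lt.q R0Q022.q409_3) (q_cons (Vale.Agent.P032.Lt.q R0Q022.q409_4) (q_cons (Vale.Agent.P032.Lt.q R0Q022.q409_5) (q_cons (Vale.Agent.P032.Lt.q R0Q022.q409_6) (q_cons (Vale.Agent.P032.Lt.q R0Q022.q409_7) (q_cons (Vale.Agent.P032.Lt.q R0Q022.q409_8) (q_cons (Vale.Agent.P032.Lt.q R0Q022.q409_9) (q_cons (Vale.Agent.P032.Lt.q R0Q022.q409_10)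 q_nil))))))))))))

def C410 : List ℕ := [0, 4, 8, 12, 16, 20, 24, 475137, 737281]
theorem p410 : Pat 73 73 TBm TCm (C410.map Fm) R0Q022.P410 R0Q022.I410 := Vale.Agent.P032.Lt.pat_eq (E' := R0Q022.E410) (by decide +kernel) (pat_step (by decide +kernel) (q_cons (Vale.Agent.P032.Lt.q R0Q022.q410_0) (q_cons (Vale.Agent.P032.Lt.q R0Q022.q410_1) (q_cons (Vale.Agent.P032.Lt.q R0Q022.q410_2) (q_cons (Vale.Agent.P032.Lt.q R0Q022.q410_3) (q_cons (Vale.Agent.P032.Lt.q R0Q022.q410_4) (q_cons (Vale.Agent.P032.Lt.q R0Q022.q410_5) (q_cons (Vale.Agent.P032.Lt.q R0Q022.q410_6) (q_cons (Vale.Agent.P032.Lt.q R0Q022.q410_7) (q_cons (Vale.Agent.P032.Lt.q R0Q022.q410_8) (q_cons (Vale.Agent.P032.Lt.q R0Q022.q410_9) (q_cons (Vale.Agent.P032.Lt.q R0Q022.q410_10) (q_cons (Vale.Agent.P032.Lt.q R0Q022.q410_11) (q_cons (Vale.Agent.P032.Lt.q R0Q022.q410_12) (q_cons (Vale.Agent.P032.Lt.q R0Q022.q410_13) (q_cons (Vale.Agent.P032.Lt.q R0Q022.q410_14)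 (q_cons (Vale.Agent.P032.Lt.q R0Q022.q410_15) (q_cons (Vale.Agent.P032.Lt.q R0Q022.q410_16) q_nil))))))))))))))))))

def C411 : List ℕ := [0, 4, 8, 12, 16, 20, 24, 82945, 212993, 223233, 344065, 476161, 478209, 607233, 738305, 13556548459530, 14650180854802, 24352696261642]
theorem p411 : Pat 73 73 TBm TCm (C411.map Fm) R0Q022.P411 R0Q022.I411 := Vale.Agent.P032.Lt.pat_eq (E' := R0Q022.E411) (by decide +kernel) (pat_step (by decide +kernel) (q_cons (Vale.Agent.P032.Lt.q R0Q022.q411_0) q_nil))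

def C412 : List ℕ := [0, 4, 8, 12, 16, 20, 24, 81921, 212993, 14041361114130]
theorem p412 : Pat 73 73 TBm TCm (C412.map Fm) R0Q022.P412 R0Q022.I412 := Vale.Agent.P032.Lt.pat_eq (E' := R0Q022.E412) (by decide +kernel) (pat_step (by decide +kernel) (q_cons (Vale.Agent.P032.Lt.q R0Q022.q412_0) (q_cons (Vale.Agent.P032.Lt.q R0Q022.q412_1) q_nil)))

theorem p413 : Pat 73 73 TBm TCm (CB.map Fm) R0Q022.P413 R0Q022.I413 := Vale.Agent.P032.Lt.pat_eq (E' := R0Q022.E) eB (pat_step (by decide +kernel) (q_cons (Vale.Agent.P032.Lt.q R0Q022.q413_0) (q_cons (Vale.Agent.P032.Lt.q R0Q022.q413_1) q_nil)))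

def C414 : List ℕ := [0, 4, 8, 12, 16, 20, 24, 84993, 741377]
theorem p414 : Pat 73 73 TBm TCm (C414.map Fm) R0Q022.P414 R0Q022.I414 := Vale.Agent.P032.Lt.pat_eq (E' := R0Q022.E414) (by decide +kernel) (pat_step (by decide +kernel) (q_cons (Vale.Agent.P032.Lt.q R0Q022.q414_0) (q_cons (Vale.Agent.P032.Lt.q R0Q022.q414_1) (q_cons (Vale.Agent.P032.Lt.q R0Q022.q414_2) (q_cons (Vale.Agent.P032.Lt.q R0Q022.q414_3) (q_cons (Vale.Agent.P032.Lt.q R0Q022.q414_4) (q_cons (Vale.Agent.P032.Lt.q R0Q022.q414_5) (q_cons (Vale.Agent.P032.Lt.q R0Q022.q414_6) (q_cons (Vale.Agent.P032.Lt.q R0Q022.q414_7) (q_cons (Vale.Agent.P032.Lt.q R0Q022.q414_8) q_nil))))))))))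

def C415 : List ℕ := [0, 4, 8, 12, 16, 20, 24, 82945, 84993, 216065, 606209, 737281, 9038397400082, 9042154972178, 9046926255122, 17842660662282, 19355364839470, 24278402684934, 24338609559558]
theorem p415 : Pat 73 73 TBm TCm (C415.map Fm) R0Q022.P415 R0Q022.I415 := Vale.Agent.P032.Lt.pat_eq (E' := R0Q022.E415) (by decide +kernel) (pat_step (by decide +kernel) (q_cons (Vale.Agent.P032.Lt.q R0Q022.q415_0) (q_cons (Vale.Agent.P032.Lt.q R0Q022.q415_1) (q_cons (Vale.Agent.P032.Lt.q R0Q022.q415_2) q_nil))))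

def C416 : List ℕ := [0, 4, 8, 12, 16, 20, 24, 82945, 89089, 212993, 606209, 737281, 9170004952098]
theorem p416 : Pat 73 73 TBm TCm (C416.map Fm) R0Q022.P416 R0Q022.I416 := Vale.Agent.P032.Lt.pat_eq (E' := R0Q022.E416) (by decide +kernel) (pat_step (by decide +kernel) (q_cons (Vale.Agent.P032.Lt.q R0Q022.q416_0) (q_cons (Vale.Agent.P032.Lt.q R0Q022.q416_1) (q_cons (Vale.Agent.P032.Lt.q R0Q022.q416_2) q_nil))))

def C417 : List ℕ := [0, 4, 8, 12, 16, 20, 24, 215041, 606209, 745473, 22165397522470]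
theorem p417 : Pat 73 73 TBm TCm (C417.map Fm) R0Q022.P417 R0Q022.I417 := Vale.Agent.P032.Lt.pat_eq (E' := R0Q022.E417) (by decide +kernel) (pat_step (by decide +kernel) (q_cons (Vale.Agent.P032.Lt.q R0Q022.q417_0) (q_cons (Vale.Agent.P032.Lt.q R0Q022.q417_1) (q_cons (Vale.Agent.P032.Lt.q R0Q022.q417_2) (q_cons (Vale.Agent.P032.Lt.q R0Q022.q417_3) q_nil)))))

def C418 : List ℕ := [0, 4, 8, 12, 16, 20, 24, 606209, 737281]
theorem p418 : Pat 73 73 TBm TCm (C418.map Fm) R0Q022.P418 R0Q022.I418 := Vale.Agent.P032.Lt.pat_eq (E' := R0Q022.E418) (by decide +kernel) (pat_step (by decide +kernel) (q_cons (Vale.Agent.P032.Lt.q R0Q022.q418_0) (q_cons (Vale.Agent.P032.Lt.q R0Q022.q418_1) (q_cons (Vale.Agent.P032.Lt.q R0Q022.q418_2) (q_cons (Vale.Agent.P032.Lt.q R0Q022.q418_3) (q_cons (Vale.Agent.P032.Lt.q R0Q022.q418_4) (q_cons (Vale.Agent.P032.Lt.q R0Q022.q418_5) (q_cons (Vale.Agent.P032.Lt.q R0Q022.q418_6) (q_cons (Vale.Agent.P032.Lt.q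 R0Q022.q418_7) q_nil)))))))))

def C419 : List ℕ := [0, 4, 8, 12, 16, 20, 24, 81921, 82945, 87041, 212993, 218113, 220161, 345089, 349185, 476161, 611329, 737281, 738305, 9715834897442, 9727135673370, 13491730340874, 17817309244442, 18505981717530, 22283799190538, 23184868989962, 23932660964362, 23932663061514]
theorem p419 : Pat 73 73 TBm TCm (C419.map Fm) R0Q022.P419 R0Q022.I419 := Vale.Agent.P032.Lt.pat_eq (E' := R0Q022.E419) (by decide +kernel) (pat_step (by decide +kernel) (q_cons (Vale.Agent.P032.Lt.q R0Q022.q419_0) (q_cons (Vale.Agent.P032.Lt.q R0Q022.q419_1) (q_cons (Vale.Agent.P032.Lt.q R0Q022.q419_2) (q_cons (Vale.Agent.P032.Lt.q R0Q022.q419_3) (q_cons (Vale.Agent.P032.Lt.q R0Q022.q419_4) (q_cons (Vale.Agent.P032.Lt.q R0Q022.q419_5) (q_cons (Vale.Agent.P032.Lt.q R0Q022.q419_6) (q_cons (Vale.Agent.P032.Lt.q R0Q022.q419_7) (q_cons (Vale.Agent.P032.Lt.q R0Q022.q419_8) (q_cons (Vale.Agent.P032.Lt.q R0Q022.q419_9)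 (q_cons (Vale.Agent.P032.Lt.q R0Q022.q419_10) q_nil))))))))))))

theorem p420 : Pat 73 73 TBm TCm (CB.map Fm) R0Q022.P420 R0Q022.I420 := Vale.Agent.P032.Lt.pat_eq (E' := R0Q022.E) eB (pat_step (by decide +kernel) (q_cons (Vale.Agent.P032.Lt.q R0Q022.q420_0) (q_cons (Vale.Agent.P032.Lt.q R0Q022.q420_1) (q_cons (Vale.Agent.P032.Lt.q R0Q022.q420_2) (q_cons (Vale.Agent.P032.Lt.q R0Q022.q420_3) (q_cons (Vale.Agent.P032.Lt.q R0Q022.q420_4) (q_cons (Vale.Agent.P032.Lt.q R0Q022.q420_5) q_nil)))))))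

def C421 : List ℕ := [0, 4, 8, 12, 16, 20, 24, 87041, 347137, 349185, 480257, 606209, 737281, 9042160479258, 9591774602258, 13921178184730, 24278400325638, 24285913892902, 24285981001766, 24406189754406]
theorem p421 : Pat 73 73 TBm TCm (C421.map Fm) R0Q022.P421 R0Q022.I421 := Vale.Agent.P032.Lt.pat_eq (E' := R0Q022.E421) (by decide +kernel) (pat_step (by decide +kernel) (q_cons (Vale.Agent.P032.Lt.q R0Q022.q421_0) q_nil))

def C422 : List ℕ := [0, 4, 8, 12, 16, 20, 24, 84993, 347137, 480257, 606209, 737281, 741377, 9046814843922, 9046926255122, 23811545065494, 24278391937030, 24278400325638, 24278404519942, 24278450657286, 24278459045894, 24278467434502, 24338613753862, 24338622142470]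
theorem p422 : Pat 73 73 TBm TCm (C422.map Fm) R0Q022.P422 R0Q022.I422 := Vale.Agent.P032.Lt.pat_eq (E' := R0Q022.E422) (by decide +kernel) (pat_step (by decide +kernel) (q_cons (Vale.Agent.P032.Lt.q R0Q022.q422_0) (q_cons (Vale.Agent.P032.Lt.q R0Q022.q422_1) (q_cons (Vale.Agent.P032.Lt.q R0Q022.q422_2) (q_cons (Vale.Agent.P032.Lt.q R0Q022.q422_3) (q_cons (Vale.Agent.P032.Lt.q R0Q022.q422_4) (q_cons (Vale.Agent.P032.Lt.q R0Q022.q422_5) (q_cons (Vale.Agent.P032.Lt.q R0Q022.q422_6) (q_cons (Vale.Agent.P032.Lt.q R0Q022.q422_7) (q_cons (Vale.Agent.P032.Lt.q R0Q022.q422_8) q_nil))))))))))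

theorem p423 : Pat 73 73 TBm TCm (CB.map Fm) R0Q022.P423 R0Q022.I423 := Vale.Agent.P032.Lt.pat_eq (E' := R0Q022.E) eB (pat_step (by decide +kernel) (q_cons (Vale.Agent.P032.Lt.q R0Q022.q423_0) (q_cons (Vale.Agent.P032.Lt.q R0Q022.q423_1) (q_cons (Vale.Agent.P032.Lt.q R0Q022.q423_2) q_nil))))

theorem p424 : Pat 73 73 TBm TCm (CB.map Fm) R0Q022.P424 R0Q022.I424 := Vale.Agent.P032.Lt.pat_eq (E' := R0Q022.E) eB (pat_step (by decide +kernel) (q_cons (Vale.Agent.P032.Lt.q R0Q022.q424_0) (q_cons (Vale.Agent.P032.Lt.q R0Q022.q424_1) (q_cons (Vale.Agent.P032.Lt.q R0Q022.q424_2) (q_cons (Vale.Agent.P032.Lt.q R0Q022.q424_3) (q_cons (Vale.Agent.P032.Lt.q R0Q022.q424_4) (q_cons (Vale.Agent.P032.Lt.q R0Q022.q424_5) (q_cons (Vale.Agent.P032.Lt.q R0Q022.q424_6) (q_cons (Vale.Agent.P032.Lt.q R0Q022.q424_7) (q_cons (Vale.Agent.P032.Lt.q R0Q022.q424_8) (q_cons (Vale.Agent.P032.Lt.q R0Q022.q424_9) (q_cons (Vale.Agent.P032.Lt.q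 R0Q022.q424_10) (q_cons (Vale.Agent.P032.Lt.q R0Q022.q424_11) (q_cons (Vale.Agent.P032.Lt.q R0Q022.q424_12) q_nil))))))))))))))

theorem p425 : Pat 73 73 TBm TCm (CB.map Fm) R0Q022.P425 R0Q022.I425 := Vale.Agent.P032.Lt.pat_eq (E' := R0Q022.E) eB (pat_step (by decide +kernel) (q_cons (Vale.Agent.P032.Lt.q R0Q022.q425_0) (q_cons (Vale.Agent.P032.Lt.q R0Q022.q425_1) (q_cons (Vale.Agent.P032.Lt.q R0Q022.q425_2) (q_cons (Vale.Agent.P032.Lt.q R0Q022.q425_3) (q_cons (Vale.Agent.P032.Lt.q R0Q022.q425_4) (q_cons (Vale.Agent.P032.Lt.q R0Q022.q425_5) (q_cons (Vale.Agent.P032.Lt.q R0Q022.q425_6) (q_cons (Vale.Agent.P032.Lt.q R0Q022.q425_7) q_nil)))))))))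

def C426 : List ℕ := [0, 4, 8, 12, 16, 20, 24, 482305, 606209, 13559348282402, 19602365432866]
theorem p426 : Pat 73 73 TBm TCm (C426.map Fm) R0Q022.P426 R0Q022.I426 := Vale.Agent.P032.Lt.pat_eq (E' := R0Q022.E426) (by decide +kernel) (pat_step (by decide +kernel) (q_cons (Vale.Agent.P032.Lt.q R0Q022.q426_0) (q_cons (Vale.Agent.P032.Lt.q R0Q022.q426_1) (q_cons (Vale.Agent.P032.Lt.q R0Q022.q426_2) q_nil))))

def C427 : List ℕ := [0, 4, 8, 12, 16, 20, 24, 475137, 606209, 613377, 14650142577714, 19044296246306, 19328106059782, 19332802369542, 19332808660998, 19388195756038, 19388197853190, 19392894162950]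
theorem p427 : Pat 73 73 TBm TCm (C427.map Fm) R0Q022.P427 R0Q022.I427 := Vale.Agent.P032.Lt.pat_eq (E' := R0Q022.E427) (by decide +kernel) (pat_step (by decide +kernel) (q_cons (Vale.Agent.P032.Lt.q R0Q022.q427_0) (q_cons (Vale.Agent.P032.Lt.q R0Q022.q427_1) (q_cons (Vale.Agent.P032.Lt.q R0Q022.q427_2) (q_cons (Vale.Agent.P032.Lt.q R0Q022.q427_3) (q_cons (Vale.Agent.P032.Lt.q R0Q022.q427_4) (q_cons (Vale.Agent.P032.Lt.q R0Q022.q427_5) q_nil)))))))

def C428 : List ℕ := [0, 4, 8, 12, 16, 20, 24, 84993, 212993, 214017, 216065, 347137, 476161, 478209, 606209, 607233, 737281, 740353, 14405925823506, 18325575785482, 18325665965074, 24352692328454, 24352692590598, 24352694687750, 24353630803974, 24353631066118, 24353631459334, 24353633032198, 24353633163270, 24353633425414]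
theorem p428 : Pat 73 73 TBm TCm (C428.map Fm) R0Q022.P428 R0Q022.I428 := Vale.Agent.P032.Lt.pat_eq (E' := R0Q022.E428) (by decide +kernel) (pat_step (by decide +kernel) (q_cons (Vale.Agent.P032.Lt.q R0Q022.q428_0) (q_cons (Vale.Agent.P032.Lt.q R0Q022.q428_1) (q_cons (Vale.Agent.P032.Lt.q R0Q022.q428_2) q_nil))))

theorem p429 : Pat 73 73 TBm TCm (CB.map Fm) R0Q022.P429 R0Q022.I429 := Vale.Agent.P032.Lt.pat_eq (E' := R0Q022.E) eB (pat_step (by decide +kernel) (q_cons (Vale.Agent.P032.Lt.q R0Q022.q429_0) q_nil))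

def C430 : List ℕ := [0, 4, 8, 12, 16, 20, 24, 84993, 91137, 737281, 9046926255122, 23725963958278, 24275572709382, 24275585292294, 24278391937030, 24278404519942, 24335794526214, 24338546644998, 24338613753862]
theorem p430 : Pat 73 73 TBm TCm (C430.map Fm) R0Q023.P430 R0Q023.I430 := Vale.Agent.P032.Lt.pat_eq (E' := R0Q023.E430) (by decide +kernel) (pat_step (by decide +kernel) (q_cons (Vale.Agent.P032.Lt.q R0Q023.q430_0) (q_cons (Vale.Agent.P032.Lt.q R0Q023.q430_1) (q_cons (Vale.Agent.P032.Lt.q R0Q023.q430_2) (q_cons (Vale.Agent.P032.Lt.q R0Q023.q430_3) (q_cons (Vale.Agent.P032.Lt.q R0Q023.q430_4) (q_cons (Vale.Agent.P032.Lt.q R0Q023.q430_5) (q_cons (Vale.Agent.P032.Lt.q R0Q023.q430_6) (q_cons (Vale.Agent.P032.Lt.q R0Q023.q430_7) q_nil)))))))))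

def C431 : List ℕ := [0, 4, 8, 12, 16, 20, 24, 617473, 13921152097290, 18791646319666]
theorem p431 : Pat 73 73 TBm TCm (C431.map Fm) R0Q023.P431 R0Q023.I431 := Vale.Agent.P032.Lt.pat_eq (E' := R0Q023.E431) (by decide +kernel) (pat_step (by decide +kernel) (q_cons (Vale.Agent.P032.Lt.q R0Q023.q431_0) (q_cons (Vale.Agent.P032.Lt.q R0Q023.q431_1) q_nil)))

theorem p432 : Pat 73 73 TBm TCm (CB.map Fm) R0Q023.P432 R0Q023.I432 := Vale.Agent.P032.Lt.pat_eq (E' := R0Q023.E) eB (pat_step (by decide +kernel) (q_cons (Vale.Agent.P032.Lt.q R0Q023.q432_0) (q_cons (Vale.Agent.P032.Lt.q R0Q023.q432_1) q_nil)))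

def C433 : List ℕ := [0, 4, 8, 12, 16, 20, 24, 91137, 221185, 483329, 484353, 614401, 615425, 746497, 13556618054698, 13928663173158, 17954530348074, 18325635942438, 18505982625830, 22215209208874, 22283794467882, 23744752340010, 23744806865962, 24285918219306, 24285972745258]
theorem p433 : Pat 73 73 TBm TCm (C433.map Fm) R0Q023.P433 R0Q023.I433 := Vale.Agent.P032.Lt.pat_eq (E' := R0Q023.E433) (by decide +kernel) (pat_step (by decide +kernel) (q_cons (Vale.Agent.P032.Lt.q R0Q023.q433_0) q_nil))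

def C434 : List ℕ := [0, 4, 8, 12, 16, 20, 24, 82945, 214017, 475137, 738305, 22232190376970, 22233131080714, 22780874284042]
theorem p434 : Pat 73 73 TBm TCm (C434.map Fm) R0Q023.P434 R0Q023.I434 := Vale.Agent.P032.Lt.pat_eq (E' := R0Q023.E434) (by decide +kernel) (pat_step (by decide +kernel) (q_cons (Vale.Agent.P032.Lt.q R0Q023.q434_0) q_nil))

def C435 : List ℕ := [0, 4, 8, 12, 16, 20, 24, 82945, 214017, 216065, 347137, 478209, 606209, 607233, 737281, 13924870349842, 14646475187218, 17963837774858]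
theorem p435 : Pat 73 73 TBm TCm (C435.map Fm) R0Q023.P435 R0Q023.I435 := Vale.Agent.P032.Lt.pat_eq (E' := R0Q023.E435) (by decide +kernel) (pat_step (by decide +kernel) (q_cons (Vale.Agent.P032.Lt.q R0Q023.q435_0) (q_cons (Vale.Agent.P032.Lt.q R0Q023.q435_1) (q_cons (Vale.Agent.P032.Lt.q R0Q023.q435_2) q_nil))))

def C436 : List ℕ := [0, 4, 8, 12, 16, 20, 24, 216065, 475137, 9727118631954, 19593916804122]
theorem p436 : Pat 73 73 TBm TCm (C436.map Fm) R0Q023.P436 R0Q023.I436 := Vale.Agent.P032.Lt.pat_eq (E' := R0Q023.E436) (by decide +kernel) (pat_step (by decide +kernel) (q_cons (Vale.Agent.P032.Lt.q R0Q023.q436_0) (q_cons (Vale.Agent.P032.Lt.q R0Q023.q436_1) (q_cons (Vale.Agent.P032.Lt.q R0Q023.q436_2) q_nil))))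

def C437 : List ℕ := [0, 4, 8, 12, 16, 20, 24, 93185, 212993, 220161, 222209, 353281, 486401, 606209, 613377, 615425, 737281, 13487966213170, 13513406501938, 18513479814186, 19603350832162, 22715049007110, 22715116115974, 22835358423046, 24278467434502, 24338546644998, 24338613753862]
theorem p437 : Pat 73 73 TBm TCm (C437.map Fm) R0Q023.P437 R0Q023.I437 := Vale.Agent.P032.Lt.pat_eq (E' := R0Q023.E437) (by decide +kernel) (pat_step (by decide +kernel) (q_cons (Vale.Agent.P032.Lt.q R0Q023.q437_0) q_nil))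

theorem p438 : Pat 73 73 TBm TCm (CB.map Fm) R0Q023.P438 R0Q023.I438 := Vale.Agent.P032.Lt.pat_eq (E' := R0Q023.E) eB (pat_step (by decide +kernel) (q_cons (Vale.Agent.P032.Lt.q R0Q023.q438_0) (q_cons (Vale.Agent.P032.Lt.q R0Q023.q438_1) (q_cons (Vale.Agent.P032.Lt.q R0Q023.q438_2) q_nil))))

theorem p439 : Pat 73 73 TBm TCm (CB.map Fm) R0Q023.P439 R0Q023.I439 := Vale.Agent.P032.Lt.pat_eq (E' := R0Q023.E) eB (pat_step (by decide +kernel) (q_cons (Vale.Agent.P032.Lt.q R0Q023.q439_0) (q_cons (Vale.Agent.P032.Lt.q R0Q023.q439_1) (q_cons (Vale.Agent.P032.Lt.q R0Q023.q439_2) (q_cons (Vale.Agent.P032.Lt.q R0Q023.q439_3) q_nil)))))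

def C440 : List ℕ := [0, 4, 8, 12, 16, 20, 24, 84993, 216065, 347137, 4649839584274, 9115398267922]
theorem p440 : Pat 73 73 TBm TCm (C440.map Fm) R0Q023.P440 R0Q023.I440 := Vale.Agent.P032.Lt.pat_eq (E' := R0Q023.E440) (by decide +kernel) (pat_step (by decide +kernel) (q_cons (Vale.Agent.P032.Lt.q R0Q023.q440_0) (q_cons (Vale.Agent.P032.Lt.q R0Q023.q440_1) (q_cons (Vale.Agent.P032.Lt.q R0Q023.q440_2) (q_cons (Vale.Agent.P032.Lt.q R0Q023.q440_3) (q_cons (Vale.Agent.P032.Lt.q R0Q023.q440_4) (q_cons (Vale.Agent.P032.Lt.q R0Q023.q440_5) (q_cons (Vale.Agent.P032.Lt.q R0Q023.q440_6) (q_cons (Vale.Agent.P032.Lt.q R0Q023.q440_7) (q_cons (Vale.Agent.P032.Lt.q R0Q023.q440_8) q_nil))))))))))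

def C441 : List ℕ := [0, 4, 8, 12, 16, 20, 24, 81921, 212993, 4651727804422, 4651729770502]
theorem p441 : Pat 73 73 TBm TCm (C441.map Fm) R0Q023.P441 R0Q023.I441 := Vale.Agent.P032.Lt.pat_eq (E' := R0Q023.E441) (by decide +kernel) (pat_step (by decide +kernel) (q_cons (Vale.Agent.P032.Lt.q R0Q023.q441_0) (q_cons (Vale.Agent.P032.Lt.q R0Q023.q441_1) (q_cons (Vale.Agent.P032.Lt.q R0Q023.q441_2) (q_cons (Vale.Agent.P032.Lt.q R0Q023.q441_3) (q_cons (Vale.Agent.P032.Lt.q R0Q023.q441_4) (q_cons (Vale.Agent.P032.Lt.q R0Q023.q441_5) (q_cons (Vale.Agent.P032.Lt.q R0Q023.q441_6) (q_cons (Vale.Agent.P032.Lt.q R0Q023.q441_7) q_nil)))))))))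

theorem p442 : Pat 73 73 TBm TCm (CB.map Fm) R0Q023.P442 R0Q023.I442 := Vale.Agent.P032.Lt.pat_eq (E' := R0Q023.E) eB (pat_step (by decide +kernel) (q_cons (Vale.Agent.P032.Lt.q R0Q023.q442_0) (q_cons (Vale.Agent.P032.Lt.q R0Q023.q442_1) (q_cons (Vale.Agent.P032.Lt.q R0Q023.q442_2) (q_cons (Vale.Agent.P032.Lt.q R0Q023.q442_3) (q_cons (Vale.Agent.P032.Lt.q R0Q023.q442_4) (q_cons (Vale.Agent.P032.Lt.q R0Q023.q442_5) (q_cons (Vale.Agent.P032.Lt.q R0Q023.q442_6) (q_cons (Vale.Agent.P032.Lt.q R0Q023.q442_7) (q_cons (Vale.Agent.P032.Lt.q R0Q023.q442_8) (q_cons (Vale.Agent.P032.Lt.q R0Q023.q442_9) (q_cons (Vale.Agent.P032.Lt.q R0Q023.q442_10) (q_cons (Vale.Agent.P032.Lt.q R0Q023.q442_11) (q_cons (Vale.Agent.P032.Lt.q R0Q023.q442_12) (q_cons (Vale.Agent.P032.Lt.q R0Q023.q442_13) (q_cons (Vale.Agent.P032.Lt.q R0Q023.q442_14) (q_cons (Vale.Agent.P032.Lt.q R0Q023.q442_15) (q_cons (Vale.Agent.P032.Lt.q R0Q023.q442_16)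 (q_cons (Vale.Agent.P032.Lt.q R0Q023.q442_17) (q_cons (Vale.Agent.P032.Lt.q R0Q023.q442_18) (q_cons (Vale.Agent.P032.Lt.q R0Q023.q442_19) (q_cons (Vale.Agent.P032.Lt.q R0Q023.q442_20) (q_cons (Vale.Agent.P032.Lt.q R0Q023.q442_21) q_nil)))))))))))))))))))))))

def C443 : List ℕ := [0, 4, 8, 12, 16, 20, 24, 87041, 216065, 218113, 349185, 742401, 4778628705306, 9169895123994, 18511677318162, 22157985279002, 23376482364442]
theorem p443 : Pat 73 73 TBm TCm (C443.map Fm) R0Q023.P443 R0Q023.I443 := Vale.Agent.P032.Lt.pat_eq (E' := R0Q023.E443) (by decide +kernel) (pat_step (by decide +kernel) (q_cons (Vale.Agent.P032.Lt.q R0Q023.q443_0) (q_cons (Vale.Agent.P032.Lt.q R0Q023.q443_1) q_nil)))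

def C444 : List ℕ := [0, 4, 8, 12, 16, 20, 24, 86017, 607233, 741377, 14612586654746, 18806607928330, 22233075247126]
theorem p444 : Pat 73 73 TBm TCm (C444.map Fm) R0Q023.P444 R0Q023.I444 := Vale.Agent.P032.Lt.pat_eq (E' := R0Q023.E444) (by decide +kernel) (pat_step (by decide +kernel) (q_cons (Vale.Agent.P032.Lt.q R0Q023.q444_0) (q_cons (Vale.Agent.P032.Lt.q R0Q023.q444_1) (q_cons (Vale.Agent.P032.Lt.q R0Q023.q444_2) q_nil))))

def C445 : List ℕ := [0, 4, 8, 12, 16, 20, 24, 344065, 349185, 355329, 606209, 737281, 9169959873562]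
theorem p445 : Pat 73 73 TBm TCm (C445.map Fm) R0Q023.P445 R0Q023.I445 := Vale.Agent.P032.Lt.pat_eq (E' := R0Q023.E445) (by decide +kernel) (pat_step (by decide +kernel) (q_cons (Vale.Agent.P032.Lt.q R0Q023.q445_0) (q_cons (Vale.Agent.P032.Lt.q R0Q023.q445_1) (q_cons (Vale.Agent.P032.Lt.q R0Q023.q445_2) (q_cons (Vale.Agent.P032.Lt.q R0Q023.q445_3) q_nil)))))

def C446 : List ℕ := [0, 4, 8, 12, 16, 20, 24, 613377, 17956321051682, 19602365432866]
theorem p446 : Pat 73 73 TBm TCm (C446.map Fm) R0Q023.P446 R0Q023.I446 := Vale.Agent.P032.Lt.pat_eq (E' := R0Q023.E446) (by decide +kernel) (pat_step (by decide +kernel) (q_cons (Vale.Agent.P032.Lt.q R0Q023.q446_0) (q_cons (Vale.Agent.P032.Lt.q R0Q023.q446_1) (q_cons (Vale.Agent.P032.Lt.q R0Q023.q446_2) q_nil))))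

def C447 : List ℕ := [0, 4, 8, 12, 16, 20, 24, 89089, 351233, 475137, 737281, 744449, 9177521144866, 22285740360738, 23305100936226, 23789851990022]
theorem p447 : Pat 73 73 TBm TCm (C447.map Fm) R0Q023.P447 R0Q023.I447 := Vale.Agent.P032.Lt.pat_eq (E' := R0Q023.E447) (by decide +kernel) (pat_step (by decide +kernel) (q_cons (Vale.Agent.P032.Lt.q R0Q023.q447_0) q_nil))

def C448 : List ℕ := [0, 4, 8, 12, 16, 20, 24, 475137, 480257, 607233, 611329, 19062227950602, 19328070413338, 19328072510490, 19353412392966, 19353479501830, 19355285805062, 19355289868294, 19355294193670, 19593955727366, 19594022836230, 19595896248326, 23744746444806]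
theorem p448 : Pat 73 73 TBm TCm (C448.map Fm) R0Q023.P448 R0Q023.I448 := Vale.Agent.P032.Lt.pat_eq (E' := R0Q023.E448) (by decide +kernel) (pat_step (by decide +kernel) (q_cons (Vale.Agent.P032.Lt.q R0Q023.q448_0) (q_cons (Vale.Agent.P032.Lt.q R0Q023.q448_1) (q_cons (Vale.Agent.P032.Lt.q R0Q023.q448_2) (q_cons (Vale.Agent.P032.Lt.q R0Q023.q448_3) (q_cons (Vale.Agent.P032.Lt.q R0Q023.q448_4) (q_cons (Vale.Agent.P032.Lt.q R0Q023.q448_5) (q_cons (Vale.Agent.P032.Lt.q R0Q023.q448_6) (q_cons (Vale.Agent.P032.Lt.q R0Q023.q448_7) (q_cons (Vale.Agent.P032.Lt.q R0Q023.q448_8) (q_cons (Vale.Agent.P032.Lt.q R0Q023.q448_9) (q_cons (Vale.Agent.P032.Lt.q R0Q023.q448_10) (q_cons (Vale.Agent.P032.Lt.q R0Q023.q448_11) (q_cons (Vale.Agent.P032.Lt.q R0Q023.q448_12) (q_cons (Vale.Agent.P032.Lt.q R0Q023.q448_13) (q_cons (Vale.Agent.P032.Lt.q R0Q023.q448_14) q_nil))))))))))))))))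

def C449 : List ℕ := [0, 4, 8, 12, 16, 20, 24, 84993, 214017, 216065, 347137, 349185, 606209, 616449, 737281, 9102290021402, 9599275981834, 18513484140590, 24275583195142, 24278402684934, 24278404519942, 24278404651014, 24285978906670, 24338542450694, 24338549004294]
theorem p449 : Pat 73 73 TBm TCm (C449.map Fm) R0Q023.P449 R0Q023.I449 := Vale.Agent.P032.Lt.pat_eq (E' := R0Q023.E449) (by decide +kernel) (pat_step (by decide +kernel) (q_cons (Vale.Agent.P032.Lt.q R0Q023.q449_0) q_nil))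

def C450 : List ℕ := [0, 4, 8, 12, 16, 20, 24, 89089, 9177407898658]
theorem p450 : Pat 73 73 TBm TCm (C450.map Fm) R0Q023.P450 R0Q023.I450 := Vale.Agent.P032.Lt.pat_eq (E' := R0Q023.E450) (by decide +kernel) (pat_step (by decide +kernel) (q_cons (Vale.Agent.P032.Lt.q R0Q023.q450_0) (q_cons (Vale.Agent.P032.Lt.q R0Q023.q450_1) (q_cons (Vale.Agent.P032.Lt.q R0Q023.q450_2) (q_cons (Vale.Agent.P032.Lt.q R0Q023.q450_3) (q_cons (Vale.Agent.P032.Lt.q R0Q023.q450_4) (q_cons (Vale.Agent.P032.Lt.q R0Q023.q450_5) (q_cons (Vale.Agent.P032.Lt.q R0Q023.q450_6) (q_cons (Vale.Agent.P032.Lt.q R0Q023.q450_7) (q_cons (Vale.Agent.P032.Lt.q R0Q023.q450_8) q_nil))))))))))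

def C451 : List ℕ := [0, 4, 8, 12, 16, 20, 24, 82945, 87041, 92161, 214017, 218113, 345089, 349185, 351233, 354305, 480257, 486401, 607233, 611329, 4641481907210, 4644301134858, 9098569797678, 9102248330274, 9591832927242, 9599324482586, 13491816852506, 14041436351514, 17962917387274, 18806693649418, 19044303848482, 19355285804082, 19594014321690]
theorem p451 : Pat 73 73 TBm TCm (C451.map Fm) R0Q023.P451 R0Q023.I451 := Vale.Agent.P032.Lt.pat_eq (E' := R0Q023.E451) (by decide +kernel) (pat_step (by decide +kernel) (q_cons (Vale.Agent.P032.Lt.q R0Q023.q451_0) (q_cons (Vale.Agent.P032.Lt.q R0Q023.q451_1) (q_cons (Vale.Agent.P032.Lt.q R0Q023.q451_2) (q_cons (Vale.Agent.P032.Lt.q R0Q023.q451_3) (q_cons (Vale.Agent.P032.Lt.q R0Q023.q451_4) (q_cons (Vale.Agent.P032.Lt.q R0Q023.q451_5) q_nil)))))))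

def C452 : List ℕ := [0, 4, 8, 12, 16, 20, 24, 14402193676294, 14402193807366, 14582492256262, 14582494222342, 14582494353414, 24275587783690]
theorem p452 : Pat 73 73 TBm TCm (C452.map Fm) R0Q023.P452 R0Q023.I452 := Vale.Agent.P032.Lt.pat_eq (E' := R0Q023.E452) (by decide +kernel) (pat_step (by decide +kernel) (q_cons (Vale.Agent.P032.Lt.q R0Q023.q452_0) (q_cons (Vale.Agent.P032.Lt.q R0Q023.q452_1) (q_cons (Vale.Agent.P032.Lt.q R0Q023.q452_2) (q_cons (Vale.Agent.P032.Lt.q R0Q023.q452_3) (q_cons (Vale.Agent.P032.Lt.q R0Q023.q452_4) q_nil))))))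

def C453 : List ℕ := [0, 4, 8, 12, 16, 20, 24, 89089, 91137, 222209, 348161, 353281, 484353, 606209, 737281, 741377, 9170004952098, 13559436626986, 14397483338794, 23376476465174, 24275585292294, 24278400325638, 24278402553862, 24278404519942, 24278404913158]
theorem p453 : Pat 73 73 TBm TCm (C453.map Fm) R0Q023.P453 R0Q023.I453 := Vale.Agent.P032.Lt.pat_eq (E' := R0Q023.E453) (by decide +kernel) (pat_step (by decide +kernel) (q_cons (Vale.Agent.P032.Lt.q R0Q023.q453_0) q_nil))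

def C454 : List ℕ := [0, 4, 8, 12, 16, 20, 24, 82945, 214017, 738305, 19602374088710, 19603316365318, 19603383474182, 22157902961674, 22703766068234]
theorem p454 : Pat 73 73 TBm TCm (C454.map Fm) R0Q023.P454 R0Q023.I454 := Vale.Agent.P032.Lt.pat_eq (E' := R0Q023.E454) (by decide +kernel) (pat_step (by decide +kernel) (q_cons (Vale.Agent.P032.Lt.q R0Q023.q454_0) (q_cons (Vale.Agent.P032.Lt.q R0Q023.q454_1) (q_cons (Vale.Agent.P032.Lt.q R0Q023.q454_2) q_nil))))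

theorem p455 : Pat 73 73 TBm TCm (CB.map Fm) R0Q024.P455 R0Q024.I455 := Vale.Agent.P032.Lt.pat_eq (E' := R0Q024.E) eB (pat_step (by decide +kernel) (q_cons (Vale.Agent.P032.Lt.q R0Q024.q455_0) (q_cons (Vale.Agent.P032.Lt.q R0Q024.q455_1) (q_cons (Vale.Agent.P032.Lt.q R0Q024.q455_2) (q_cons (Vale.Agent.P032.Lt.q R0Q024.q455_3) (q_cons (Vale.Agent.P032.Lt.q R0Q024.q455_4) (q_cons (Vale.Agent.P032.Lt.q R0Q024.q455_5) (q_cons (Vale.Agent.P032.Lt.q R0Q024.q455_6) (q_cons (Vale.Agent.P032.Lt.q R0Q024.q455_7) (q_cons (Vale.Agent.P032.Lt.q R0Q024.q455_8) (q_cons (Vale.Agent.P032.Lt.q R0Q024.q455_9) (q_cons (Vale.Agent.P032.Lt.q R0Q024.q455_10) (q_cons (Vale.Agent.P032.Lt.q R0Q024.q455_11) q_nil)))))))))))))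

def C456 : List ℕ := [0, 4, 8, 12, 16, 20, 24, 212993, 214017, 216065, 355329, 478209, 606209, 609281, 737281, 13928628446226, 14402189349938, 14582577976370, 19422965359634, 22832474314758, 22832474445830, 22832476542982, 22835293542406, 24275583457286, 24275585554438, 24278402553862, 24278404519942]
theorem p456 : Pat 73 73 TBm TCm (C456.map Fm) R0Q024.P456 R0Q024.I456 := Vale.Agent.P032.Lt.pat_eq (E' := R0Q024.E456) (by decide +kernel) (pat_step (by decide +kernel) (q_cons (Vale.Agent.P032.Lt.q R0Q024.q456_0) (q_cons (Vale.Agent.P032.Lt.q R0Q024.q456_1) q_nil)))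

theorem p457 : Pat 73 73 TBm TCm (CB.map Fm) R0Q024.P457 R0Q024.I457 := Vale.Agent.P032.Lt.pat_eq (E' := R0Q024.E) eB (pat_step (by decide +kernel) (q_cons (Vale.Agent.P032.Lt.q R0Q024.q457_0) (q_cons (Vale.Agent.P032.Lt.q R0Q024.q457_1) (q_cons (Vale.Agent.P032.Lt.q R0Q024.q457_2) (q_cons (Vale.Agent.P032.Lt.q R0Q024.q457_3) (q_cons (Vale.Agent.P032.Lt.q R0Q024.q457_4) (q_cons (Vale.Agent.P032.Lt.q R0Q024.q457_5) (q_cons (Vale.Agent.P032.Lt.q R0Q024.q457_6) (q_cons (Vale.Agent.P032.Lt.q R0Q024.q457_7) (q_cons (Vale.Agent.P032.Lt.q R0Q024.q457_8) (q_cons (Vale.Agent.P032.Lt.q R0Q024.q457_9) (q_cons (Vale.Agent.P032.Lt.q R0Q024.q457_10) (q_cons (Vale.Agent.P032.Lt.q R0Q024.q457_11) (q_cons (Vale.Agent.P032.Lt.q R0Q024.q457_12) (q_cons (Vale.Agent.P032.Lt.q R0Q024.q457_13) (q_cons (Vale.Agent.P032.Lt.q R0Q024.q457_14) (q_cons (Vale.Agent.P032.Lt.q R0Q024.q457_15) (q_cons (Vale.Agent.P032.Lt.q R0Q024.q457_16)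 (q_cons (Vale.Agent.P032.Lt.q R0Q024.q457_17) (q_cons (Vale.Agent.P032.Lt.q R0Q024.q457_18) (q_cons (Vale.Agent.P032.Lt.q R0Q024.q457_19) (q_cons (Vale.Agent.P032.Lt.q R0Q024.q457_20) (q_cons (Vale.Agent.P032.Lt.q R0Q024.q457_21) (q_cons (Vale.Agent.P032.Lt.q R0Q024.q457_22) (q_cons (Vale.Agent.P032.Lt.q R0Q024.q457_23) (q_cons (Vale.Agent.P032.Lt.q R0Q024.q457_24) q_nil))))))))))))))))))))))))))

def C458 : List ℕ := [0, 4, 8, 12, 16, 20, 24, 81921, 82945, 89089, 13376244374538, 13559362176034, 17956331537442]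
theorem p458 : Pat 73 73 TBm TCm (C458.map Fm) R0Q024.P458 R0Q024.I458 := Vale.Agent.P032.Lt.pat_eq (E' := R0Q024.E458) (by decide +kernel) (pat_step (by decide +kernel) (q_cons (Vale.Agent.P032.Lt.q R0Q024.q458_0) (q_cons (Vale.Agent.P032.Lt.q R0Q024.q458_1) (q_cons (Vale.Agent.P032.Lt.q R0Q024.q458_2) (q_cons (Vale.Agent.P032.Lt.q R0Q024.q458_3) (q_cons (Vale.Agent.P032.Lt.q R0Q024.q458_4) q_nil))))))

def C459 : List ℕ := [0, 4, 8, 12, 16, 20, 24, 607233, 613377, 737281, 18806612122634, 23931717638150, 23931717900294, 23931719473158, 23931719735302, 23932657686534, 23932657948678, 23932659652614]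
theorem p459 : Pat 73 73 TBm TCm (C459.map Fm) R0Q024.P459 R0Q024.I459 := Vale.Agent.P032.Lt.pat_eq (E' := R0Q024.E459) (by decide +kernel) (pat_step (by decide +kernel) (q_cons (Vale.Agent.P032.Lt.q R0Q024.q459_0) (q_cons (Vale.Agent.P032.Lt.q R0Q024.q459_1) (q_cons (Vale.Agent.P032.Lt.q R0Q024.q459_2) (q_cons (Vale.Agent.P032.Lt.q R0Q024.q459_3) (q_cons (Vale.Agent.P032.Lt.q R0Q024.q459_4) (q_cons (Vale.Agent.P032.Lt.q R0Q024.q459_5) (q_cons (Vale.Agent.P032.Lt.q R0Q024.q459_6) (q_cons (Vale.Agent.P032.Lt.q R0Q024.q459_7) q_nil)))))))))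

def C460 : List ℕ := [0, 4, 8, 12, 16, 20, 24, 349185, 355329, 737281, 9169895123994]
theorem p460 : Pat 73 73 TBm TCm (C460.map Fm) R0Q024.P460 R0Q024.I460 := Vale.Agent.P032.Lt.pat_eq (E' := R0Q024.E460) (by decide +kernel) (pat_step (by decide +kernel) (q_cons (Vale.Agent.P032.Lt.q R0Q024.q460_0) (q_cons (Vale.Agent.P032.Lt.q R0Q024.q460_1) q_nil)))

theorem p461 : Pat 73 73 TBm TCm (CB.map Fm) R0Q024.P461 R0Q024.I461 := Vale.Agent.P032.Lt.pat_eq (E' := R0Q024.E) eB (pat_step (by decide +kernel) (q_cons (Vale.Agent.P032.Lt.q R0Q024.q461_0) (q_cons (Vale.Agent.P032.Lt.q R0Q024.q461_1) (q_cons (Vale.Agent.P032.Lt.q R0Q024.q461_2) (q_cons (Vale.Agent.P032.Lt.q R0Q024.q461_3) (q_cons (Vale.Agent.P032.Lt.q R0Q024.q461_4) (q_cons (Vale.Agent.P032.Lt.q R0Q024.q461_5) (q_cons (Vale.Agent.P032.Lt.q R0Q024.q461_6) (q_cons (Vale.Agent.P032.Lt.q R0Q024.q461_7) (q_cons (Vale.Agent.P032.Lt.q R0Q024.q461_8) (q_cons (Vale.Agent.P032.Lt.q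 R0Q024.q461_9) (q_cons (Vale.Agent.P032.Lt.q R0Q024.q461_10) q_nil))))))))))))

def C462 : List ℕ := [0, 4, 8, 12, 16, 20, 24, 212993, 344065, 349185, 355329, 475137, 737281, 9169895123994, 9169958038554, 23729709864966, 23729722447878, 23789864572934, 23789872961542]
theorem p462 : Pat 73 73 TBm TCm (C462.map Fm) R0Q024.P462 R0Q024.I462 := Vale.Agent.P032.Lt.pat_eq (E' := R0Q024.E462) (by decide +kernel) (pat_step (by decide +kernel) (q_cons (Vale.Agent.P032.Lt.q R0Q024.q462_0) (q_cons (Vale.Agent.P032.Lt.q R0Q024.q462_1) (q_cons (Vale.Agent.P032.Lt.q R0Q024.q462_2) q_nil))))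

def C463 : List ℕ := [0, 4, 8, 12, 16, 20, 24, 84993, 216065, 347137, 349185, 476161, 478209, 609281, 745473, 4651725579282, 9169895123994, 13488039353354, 14041427698706, 14409729532946, 19061206641690, 22165460437030, 22285669189670, 22285736298534, 24406227503142]
theorem p463 : Pat 73 73 TBm TCm (C463.map Fm) R0Q024.P463 R0Q024.I463 := Vale.Agent.P032.Lt.pat_eq (E' := R0Q024.E463) (by decide +kernel) (pat_step (by decide +kernel) (q_cons (Vale.Agent.P032.Lt.q R0Q024.q463_0) (q_cons (Vale.Agent.P032.Lt.q R0Q024.q463_1) (q_cons (Vale.Agent.P032.Lt.q R0Q024.q463_2) q_nil))))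

theorem p464 : Pat 73 73 TBm TCm (CB.map Fm) R0Q024.P464 R0Q024.I464 := Vale.Agent.P032.Lt.pat_eq (E' := R0Q024.E) eB (pat_step (by decide +kernel) (q_cons (Vale.Agent.P032.Lt.q R0Q024.q464_0) (q_cons (Vale.Agent.P032.Lt.q R0Q024.q464_1) (q_cons (Vale.Agent.P032.Lt.q R0Q024.q464_2) (q_cons (Vale.Agent.P032.Lt.q R0Q024.q464_3) (q_cons (Vale.Agent.P032.Lt.q R0Q024.q464_4) (q_cons (Vale.Agent.P032.Lt.q R0Q024.q464_5) (q_cons (Vale.Agent.P032.Lt.q R0Q024.q464_6) q_nil))))))))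

theorem p465 : Pat 73 73 TBm TCm (CB.map Fm) R0Q024.P465 R0Q024.I465 := Vale.Agent.P032.Lt.pat_eq (E' := R0Q024.E) eB (pat_step (by decide +kernel) (q_cons (Vale.Agent.P032.Lt.q R0Q024.q465_0) (q_cons (Vale.Agent.P032.Lt.q R0Q024.q465_1) (q_cons (Vale.Agent.P032.Lt.q R0Q024.q465_2) (q_cons (Vale.Agent.P032.Lt.q R0Q024.q465_3) (q_cons (Vale.Agent.P032.Lt.q R0Q024.q465_4) (q_cons (Vale.Agent.P032.Lt.q R0Q024.q465_5) (q_cons (Vale.Agent.P032.Lt.q R0Q024.q465_6) (q_cons (Vale.Agent.P032.Lt.q R0Q024.q465_7) (q_cons (Vale.Agent.P032.Lt.q R0Q024.q465_8) (q_cons (Vale.Agent.P032.Lt.q R0Q024.q465_9) (q_cons (Vale.Agent.P032.Lt.q R0Q024.q465_10) (q_cons (Vale.Agent.P032.Lt.q R0Q024.q465_11) (q_cons (Vale.Agent.P032.Lt.q R0Q024.q465_12) (q_cons (Vale.Agent.P032.Lt.q R0Q024.q465_13) (q_cons (Vale.Agent.P032.Lt.q R0Q024.q465_14) (q_cons (Vale.Agent.P032.Lt.q R0Q024.q465_15) (q_cons (Vale.Agent.P032.Lt.q R0Q024.q465_16)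 (q_cons (Vale.Agent.P032.Lt.q R0Q024.q465_17) (q_cons (Vale.Agent.P032.Lt.q R0Q024.q465_18) (q_cons (Vale.Agent.P032.Lt.q R0Q024.q465_19) (q_cons (Vale.Agent.P032.Lt.q R0Q024.q465_20) (q_cons (Vale.Agent.P032.Lt.q R0Q024.q465_21) (q_cons (Vale.Agent.P032.Lt.q R0Q024.q465_22) (q_cons (Vale.Agent.P032.Lt.q R0Q024.q465_23) (q_cons (Vale.Agent.P032.Lt.q R0Q024.q465_24) (q_cons (Vale.Agent.P032.Lt.q R0Q024.q465_25) (q_cons (Vale.Agent.P032.Lt.q R0Q024.q465_26) (q_cons (Vale.Agent.P032.Lt.q R0Q024.q465_27) (q_cons (Vale.Agent.P032.Lt.q R0Q024.q465_28) (q_cons (Vale.Agent.P032.Lt.q R0Q024.q465_29) (q_cons (Vale.Agent.P032.Lt.q R0Q024.q465_30) (q_cons (Vale.Agent.P032.Lt.q R0Q024.q465_31) (q_cons (Vale.Agent.P032.Lt.q R0Q024.q465_32) (q_cons (Vale.Agent.P032.Lt.q R0Q024.q465_33) (q_cons (Vale.Agent.P032.Lt.q R0Q024.q465_34) (q_cons (Vale.Agent.P032.Lt.q R0Q024.q465_35) (q_cons (Vale.Agent.P032.Lt.q R0Q024.q465_36)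 (q_cons (Vale.Agent.P032.Lt.q R0Q024.q465_37) (q_cons (Vale.Agent.P032.Lt.q R0Q024.q465_38) q_nil))))))))))))))))))))))))))))))))))))))))

def C466 : List ℕ := [0, 4, 8, 12, 16, 20, 24, 81921, 91137, 212993, 355329, 484353, 486401, 617473, 748545, 13491782241322, 23184872136718, 23193226794034, 24335776175154]
theorem p466 : Pat 73 73 TBm TCm (C466.map Fm) R0Q024.P466 R0Q024.I466 := Vale.Agent.P032.Lt.pat_eq (E' := R0Q024.E466) (by decide +kernel) (pat_step (by decide +kernel) (q_cons (Vale.Agent.P032.Lt.q R0Q024.q466_0) (q_cons (Vale.Agent.P032.Lt.q R0Q024.q466_1) q_nil)))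

theorem p467 : Pat 73 73 TBm TCm (CB.map Fm) R0Q024.P467 R0Q024.I467 := Vale.Agent.P032.Lt.pat_eq (E' := R0Q024.E) eB (pat_step (by decide +kernel) (q_cons (Vale.Agent.P032.Lt.q R0Q024.q467_0) (q_cons (Vale.Agent.P032.Lt.q R0Q024.q467_1) (q_cons (Vale.Agent.P032.Lt.q R0Q024.q467_2) (q_cons (Vale.Agent.P032.Lt.q R0Q024.q467_3) (q_cons (Vale.Agent.P032.Lt.q R0Q024.q467_4) (q_cons (Vale.Agent.P032.Lt.q R0Q024.q467_5) q_nil)))))))

def C468 : List ℕ := [0, 4, 8, 12, 16, 20, 24, 93185, 344065, 475137, 617473, 748545, 22163577590834, 24285981398066]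
theorem p468 : Pat 73 73 TBm TCm (C468.map Fm) R0Q024.P468 R0Q024.I468 := Vale.Agent.P032.Lt.pat_eq (E' := R0Q024.E468) (by decide +kernel) (pat_step (by decide +kernel) (q_cons (Vale.Agent.P032.Lt.q R0Q024.q468_0) q_nil))

theorem p469 : Pat 73 73 TBm TCm (CB.map Fm) R0Q024.P469 R0Q024.I469 := Vale.Agent.P032.Lt.pat_eq (E' := R0Q024.E) eB (pat_step (by decide +kernel) (q_cons (Vale.Agent.P032.Lt.q R0Q024.q469_0) (q_cons (Vale.Agent.P032.Lt.q R0Q024.q469_1) (q_cons (Vale.Agent.P032.Lt.q R0Q024.q469_2) (q_cons (Vale.Agent.P032.Lt.q R0Q024.q469_3) q_nil)))))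

def C470 : List ℕ := [0, 4, 8, 12, 16, 20, 24, 214017, 345089, 607233, 738305, 9651895884810, 18310608673802, 18791586290698, 24335802131474]
theorem p470 : Pat 73 73 TBm TCm (C470.map Fm) R0Q024.P470 R0Q024.I470 := Vale.Agent.P032.Lt.pat_eq (E' := R0Q024.E470) (by decide +kernel) (pat_step (by decide +kernel) (q_cons (Vale.Agent.P032.Lt.q R0Q024.q470_0) (q_cons (Vale.Agent.P032.Lt.q R0Q024.q470_1) (q_cons (Vale.Agent.P032.Lt.q R0Q024.q470_2) q_nil))))

def C471 : List ℕ := [0, 4, 8, 12, 16, 20, 24, 355329, 606209, 737281]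
theorem p471 : Pat 73 73 TBm TCm (C471.map Fm) R0Q024.P471 R0Q024.I471 := Vale.Agent.P032.Lt.pat_eq (E' := R0Q024.E471) (by decide +kernel) (pat_step (by decide +kernel) (q_cons (Vale.Agent.P032.Lt.q R0Q024.q471_0) (q_cons (Vale.Agent.P032.Lt.q R0Q024.q471_1) (q_cons (Vale.Agent.P032.Lt.q R0Q024.q471_2) (q_cons (Vale.Agent.P032.Lt.q R0Q024.q471_3) (q_cons (Vale.Agent.P032.Lt.q R0Q024.q471_4) (q_cons (Vale.Agent.P032.Lt.q R0Q024.q471_5) (q_cons (Vale.Agent.P032.Lt.q R0Q024.q471_6) (q_cons (Vale.Agent.P032.Lt.q R0Q024.q471_7) (q_cons (Vale.Agent.P032.Lt.q R0Q024.q471_8) q_nil))))))))))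

def C472 : List ℕ := [0, 4, 8, 12, 16, 20, 24, 475137, 613377, 17956321051682, 19602365432866]
theorem p472 : Pat 73 73 TBm TCm (C472.map Fm) R0Q024.P472 R0Q024.I472 := Vale.Agent.P032.Lt.pat_eq (E' := R0Q024.E472) (by decide +kernel) (pat_step (by decide +kernel) (q_cons (Vale.Agent.P032.Lt.q R0Q024.q472_0) (q_cons (Vale.Agent.P032.Lt.q R0Q024.q472_1) (q_cons (Vale.Agent.P032.Lt.q R0Q024.q472_2) (q_cons (Vale.Agent.P032.Lt.q R0Q024.q472_3) (q_cons (Vale.Agent.P032.Lt.q R0Q024.q472_4) q_nil))))))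

def C473 : List ℕ := [0, 4, 8, 12, 16, 20, 24, 84993, 87041, 91137, 347137, 349185, 484353, 606209, 9046813008914, 9046814843922, 9177411316762, 13559436626986, 24278459045894, 24278467434502, 24338546644998, 24338613753862, 24338622142470]
theorem p473 : Pat 73 73 TBm TCm (C473.map Fm) R0Q025.P473 R0Q025.I473 := Vale.Agent.P032.Lt.pat_eq (E' := R0Q025.E473) (by decide +kernel) (pat_step (by decide +kernel) (q_cons (Vale.Agent.P032.Lt.q R0Q025.q473_0) (q_cons (Vale.Agent.P032.Lt.q R0Q025.q473_1) (q_cons (Vale.Agent.P032.Lt.q R0Q025.q473_2) (q_cons (Vale.Agent.P032.Lt.q R0Q025.q473_3) (q_cons (Vale.Agent.P032.Lt.q R0Q025.q473_4) (q_cons (Vale.Agent.P032.Lt.q R0Q025.q473_5) (q_cons (Vale.Agent.P032.Lt.q R0Q025.q473_6) (q_cons (Vale.Agent.P032.Lt.q R0Q025.q473_7) (q_cons (Vale.Agent.P032.Lt.q R0Q025.q473_8) (q_cons (Vale.Agent.P032.Lt.q R0Q025.q473_9) q_nil)))))))))))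

theorem p474 : Pat 73 73 TBm TCm (CB.map Fm) R0Q025.P474 R0Q025.I474 := Vale.Agent.P032.Lt.pat_eq (E' := R0Q025.E) eB (pat_step (by decide +kernel) (q_cons (Vale.Agent.P032.Lt.q R0Q025.q474_0) (q_cons (Vale.Agent.P032.Lt.q R0Q025.q474_1) (q_cons (Vale.Agent.P032.Lt.q R0Q025.q474_2) (q_cons (Vale.Agent.P032.Lt.q R0Q025.q474_3) (q_cons (Vale.Agent.P032.Lt.q R0Q025.q474_4) (q_cons (Vale.Agent.P032.Lt.q R0Q025.q474_5) (q_cons (Vale.Agent.P032.Lt.q R0Q025.q474_6) (q_cons (Vale.Agent.P032.Lt.q R0Q025.q474_7) (q_cons (Vale.Agent.P032.Lt.q R0Q025.q474_8) (q_cons (Vale.Agent.P032.Lt.q R0Q025.q474_9) q_nil)))))))))))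

def C475 : List ℕ := [0, 4, 8, 12, 16, 20, 24, 91137, 220161, 222209, 351233, 353281, 606209, 615425, 737281, 4704413895722, 13924837835810, 17954528513066, 24278404519942]
theorem p475 : Pat 73 73 TBm TCm (C475.map Fm) R0Q025.P475 R0Q025.I475 := Vale.Agent.P032.Lt.pat_eq (E' := R0Q025.E475) (by decide +kernel) (pat_step (by decide +kernel) (q_cons (Vale.Agent.P032.Lt.q R0Q025.q475_0) q_nil))

def C476 : List ℕ := [0, 4, 8, 12, 16, 20, 24, 93185, 344065, 617473, 748545, 14582492649478, 14671751108614, 14671753205766, 14672693385222, 17774121014322, 17954539000882, 22163531453490]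
theorem p476 : Pat 73 73 TBm TCm (C476.map Fm) R0Q025.P476 R0Q025.I476 := Vale.Agent.P032.Lt.pat_eq (E' := R0Q025.E476) (by decide +kernel) (pat_step (by decide +kernel) (q_cons (Vale.Agent.P032.Lt.q R0Q025.q476_0) (q_cons (Vale.Agent.P032.Lt.q R0Q025.q476_1) (q_cons (Vale.Agent.P032.Lt.q R0Q025.q476_2) (q_cons (Vale.Agent.P032.Lt.q R0Q025.q476_3) (q_cons (Vale.Agent.P032.Lt.q R0Q025.q476_4) (q_cons (Vale.Agent.P032.Lt.q R0Q025.q476_5) (q_cons (Vale.Agent.P032.Lt.q R0Q025.q476_6) q_nil))))))))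

def C477 : List ℕ := [0, 4, 8, 12, 16, 20, 24, 84993, 91137, 212993, 475137, 613377, 737281, 9046813008914, 9046926255122, 23931717638150, 23931717900294, 23931719473158, 23931719735302, 23931719866374, 23932657686534, 23932657948678, 23932660045830]
theorem p477 : Pat 73 73 TBm TCm (C477.map Fm) R0Q025.P477 R0Q025.I477 := Vale.Agent.P032.Lt.pat_eq (E' := R0Q025.E477) (by decide +kernel) (pat_step (by decide +kernel) (q_cons (Vale.Agent.P032.Lt.q R0Q025.q477_0) (q_cons (Vale.Agent.P032.Lt.q R0Q025.q477_1) (q_cons (Vale.Agent.P032.Lt.q R0Q025.q477_2) (q_cons (Vale.Agent.P032.Lt.q R0Q025.q477_3) (q_cons (Vale.Agent.P032.Lt.q R0Q025.q477_4) (q_cons (Vale.Agent.P032.Lt.q R0Q025.q477_5) (q_cons (Vale.Agent.P032.Lt.q R0Q025.q477_6) (q_cons (Vale.Agent.P032.Lt.q R0Q025.q477_7) (q_cons (Vale.Agent.P032.Lt.q R0Q025.q477_8) (q_cons (Vale.Agent.P032.Lt.q R0Q025.q477_9) (q_cons (Vale.Agent.P032.Lt.q R0Q025.q477_10) (q_cons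 (Vale.Agent.P032.Lt.q R0Q025.q477_11) (q_cons (Vale.Agent.P032.Lt.q R0Q025.q477_12) (q_cons (Vale.Agent.P032.Lt.q R0Q025.q477_13) (q_cons (Vale.Agent.P032.Lt.q R0Q025.q477_14) (q_cons (Vale.Agent.P032.Lt.q R0Q025.q477_15) (q_cons (Vale.Agent.P032.Lt.q R0Q025.q477_16) (q_cons (Vale.Agent.P032.Lt.q R0Q025.q477_17) (q_cons (Vale.Agent.P032.Lt.q R0Q025.q477_18) q_nil))))))))))))))))))))

def C478 : List ℕ := [0, 4, 8, 12, 16, 20, 24, 606209, 737281, 9587108441114, 17963835409442]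
theorem p478 : Pat 73 73 TBm TCm (C478.map Fm) R0Q025.P478 R0Q025.I478 := Vale.Agent.P032.Lt.pat_eq (E' := R0Q025.E478) (by decide +kernel) (pat_step (by decide +kernel) (q_cons (Vale.Agent.P032.Lt.q R0Q025.q478_0) (q_cons (Vale.Agent.P032.Lt.q R0Q025.q478_1) (q_cons (Vale.Agent.P032.Lt.q R0Q025.q478_2) (q_cons (Vale.Agent.P032.Lt.q R0Q025.q478_3) q_nil)))))

def C479 : List ℕ := [0, 4, 8, 12, 16, 20, 24, 355329, 606209, 737281]
theorem p479 : Pat 73 73 TBm TCm (C479.map Fm) R0Q025.P479 R0Q025.I479 := Vale.Agent.P032.Lt.pat_eq (E' := R0Q025.E479) (by decide +kernel) (pat_step (by decide +kernel) (q_cons (Vale.Agent.P032.Lt.q R0Q025.q479_0) (q_cons (Vale.Agent.P032.Lt.q R0Q025.q479_1) (q_cons (Vale.Agent.P032.Lt.q R0Q025.q479_2) (q_cons (Vale.Agent.P032.Lt.q R0Q025.q479_3) (q_cons (Vale.Agent.P032.Lt.q R0Q025.q479_4) (q_cons (Vale.Agent.P032.Lt.q R0Q025.q479_5) (q_cons (Vale.Agent.P032.Lt.q R0Q025.q479_6) q_nil))))))))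

def C480 : List ℕ := [0, 4, 8, 12, 16, 20, 24, 84993, 216065, 347137, 476161, 740353, 9102284514322, 9651904013330, 14650174299146, 19332810890250]
theorem p480 : Pat 73 73 TBm TCm (C480.map Fm) R0Q025.P480 R0Q025.I480 := Vale.Agent.P032.Lt.pat_eq (E' := R0Q025.E480) (by decide +kernel) (pat_step (by decide +kernel) (q_cons (Vale.Agent.P032.Lt.q R0Q025.q480_0) (q_cons (Vale.Agent.P032.Lt.q R0Q025.q480_1) (q_cons (Vale.Agent.P032.Lt.q R0Q025.q480_2) q_nil))))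

def C481 : List ℕ := [0, 4, 8, 12, 16, 20, 24, 81921, 212993, 742401, 22707569781786, 23729742638106]
theorem p481 : Pat 73 73 TBm TCm (C481.map Fm) R0Q025.P481 R0Q025.I481 := Vale.Agent.P032.Lt.pat_eq (E' := R0Q025.E481) (by decide +kernel) (pat_step (by decide +kernel) (q_cons (Vale.Agent.P032.Lt.q R0Q025.q481_0) q_nil))

def C482 : List ℕ := [0, 4, 8, 12, 16, 20, 24, 212993, 349185, 355329, 475137, 478209, 606209, 737281, 9102290021402, 9591824274482, 18806684996658, 19594009076754, 23742918124562, 24275583457286, 24275585292294, 24275585554438, 24278402816006, 24278403078150, 24278404519942]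
theorem p482 : Pat 73 73 TBm TCm (C482.map Fm) R0Q025.P482 R0Q025.I482 := Vale.Agent.P032.Lt.pat_eq (E' := R0Q025.E482) (by decide +kernel) (pat_step (by decide +kernel) (q_cons (Vale.Agent.P032.Lt.q R0Q025.q482_0) (q_cons (Vale.Agent.P032.Lt.q R0Q025.q482_1) (q_cons (Vale.Agent.P032.Lt.q R0Q025.q482_2) (q_cons (Vale.Agent.P032.Lt.q R0Q025.q482_3) q_nil)))))

theorem p483 : Pat 73 73 TBm TCm (CB.map Fm) R0Q025.P483 R0Q025.I483 := Vale.Agent.P032.Lt.pat_eq (E' := R0Q025.E) eB (pat_step (by decide +kernel) (q_cons (Vale.Agent.P032.Lt.q R0Q025.q483_0) (q_cons (Vale.Agent.P032.Lt.q R0Q025.q483_1) (q_cons (Vale.Agent.P032.Lt.q R0Q025.q483_2) (q_cons (Vale.Agent.P032.Lt.q R0Q025.q483_3) q_nil)))))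

def C484 : List ℕ := [0, 4, 8, 12, 16, 20, 24, 82945, 89089, 606209, 737281, 9170004952098, 17963948655650]
theorem p484 : Pat 73 73 TBm TCm (C484.map Fm) R0Q025.P484 R0Q025.I484 := Vale.Agent.P032.Lt.pat_eq (E' := R0Q025.E484) (by decide +kernel) (pat_step (by decide +kernel) (q_cons (Vale.Agent.P032.Lt.q R0Q025.q484_0) (q_cons (Vale.Agent.P032.Lt.q R0Q025.q484_1) (q_cons (Vale.Agent.P032.Lt.q R0Q025.q484_2) (q_cons (Vale.Agent.P032.Lt.q R0Q025.q484_3) (q_cons (Vale.Agent.P032.Lt.q R0Q025.q484_4) (q_cons (Vale.Agent.P032.Lt.q R0Q025.q484_5) (q_cons (Vale.Agent.P032.Lt.q R0Q025.q484_6) q_nil))))))))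

def C485 : List ℕ := [0, 4, 8, 12, 16, 20, 24, 212993, 344065, 349185, 355329, 606209, 737281, 9169895123994]
theorem p485 : Pat 73 73 TBm TCm (C485.map Fm) R0Q025.P485 R0Q025.I485 := Vale.Agent.P032.Lt.pat_eq (E' := R0Q025.E485) (by decide +kernel) (pat_step (by decide +kernel) (q_cons (Vale.Agent.P032.Lt.q R0Q025.q485_0) (q_cons (Vale.Agent.P032.Lt.q R0Q025.q485_1) q_nil)))

def C486 : List ℕ := [0, 4, 8, 12, 16, 20, 24, 82945, 87041, 214017, 216065, 347137, 349185, 476161, 611329, 4651767522322, 9169895123994, 13491800071178, 14036721425418, 19061206641690]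
theorem p486 : Pat 73 73 TBm TCm (C486.map Fm) R0Q025.P486 R0Q025.I486 := Vale.Agent.P032.Lt.pat_eq (E' := R0Q025.E486) (by decide +kernel) (pat_step (by decide +kernel) (q_cons (Vale.Agent.P032.Lt.q R0Q025.q486_0) (q_cons (Vale.Agent.P032.Lt.q R0Q025.q486_1) q_nil)))

def C487 : List ℕ := [0, 4, 8, 12, 16, 20, 24, 82945, 212993, 351233, 475137, 737281, 23373686195234, 23931717638150, 23931719473158, 23931719735302, 23932657686534, 23932657948678, 23932659783686, 23932660045830]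
theorem p487 : Pat 73 73 TBm TCm (C487.map Fm) R0Q025.P487 R0Q025.I487 := Vale.Agent.P032.Lt.pat_eq (E' := R0Q025.E487) (by decide +kernel) (pat_step (by decide +kernel) (q_cons (Vale.Agent.P032.Lt.q R0Q025.q487_0) (q_cons (Vale.Agent.P032.Lt.q R0Q025.q487_1) (q_cons (Vale.Agent.P032.Lt.q R0Q025.q487_2) (q_cons (Vale.Agent.P032.Lt.q R0Q025.q487_3) (q_cons (Vale.Agent.P032.Lt.q R0Q025.q487_4) (q_cons (Vale.Agent.P032.Lt.q R0Q025.q487_5) (q_cons (Vale.Agent.P032.Lt.q R0Q025.q487_6) (q_cons (Vale.Agent.P032.Lt.q R0Q025.q487_7) (q_cons (Vale.Agent.P032.Lt.q R0Q025.q487_8) (q_cons (Vale.Agent.P032.Lt.q R0Q025.q487_9) (q_cons (Vale.Agent.P032.Lt.q R0Q025.q487_10) (q_cons (Vale.Agent.P032.Lt.q R0Q025.q487_11) (q_cons (Vale.Agent.P032.Lt.q R0Q025.q487_12) q_nil))))))))))))))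

theorem p488 : Pat 73 73 TBm TCm (CB.map Fm) R0Q025.P488 R0Q025.I488 := Vale.Agent.P032.Lt.pat_eq (E' := R0Q025.E) eB (pat_step (by decide +kernel) (q_cons (Vale.Agent.P032.Lt.q R0Q025.q488_0) (q_cons (Vale.Agent.P032.Lt.q R0Q025.q488_1) (q_cons (Vale.Agent.P032.Lt.q R0Q025.q488_2) (q_cons (Vale.Agent.P032.Lt.q R0Q025.q488_3) (q_cons (Vale.Agent.P032.Lt.q R0Q025.q488_4) (q_cons (Vale.Agent.P032.Lt.q R0Q025.q488_5) q_nil)))))))

theorem p489 : Pat 73 73 TBm TCm (CB.map Fm) R0Q025.P489 R0Q025.I489 := Vale.Agent.P032.Lt.pat_eq (E' := R0Q025.E) eB (pat_step (by decide +kernel) (q_cons (Vale.Agent.P032.Lt.q R0Q025.q489_0) (q_cons (Vale.Agent.P032.Lt.q R0Q025.q489_1) (q_cons (Vale.Agent.P032.Lt.q R0Q025.q489_2) (q_cons (Vale.Agent.P032.Lt.q R0Q025.q489_3) (q_cons (Vale.Agent.P032.Lt.q R0Q025.q489_4) (q_cons (Vale.Agent.P032.Lt.q R0Q025.q489_5) (q_cons (Vale.Agent.P032.Lt.q R0Q025.q489_6) q_nil))))))))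

theorem p490 : Pat 73 73 TBm TCm (CB.map Fm) R0Q025.P490 R0Q025.I490 := Vale.Agent.P032.Lt.pat_eq (E' := R0Q025.E) eB (pat_step (by decide +kernel) (q_cons (Vale.Agent.P032.Lt.q R0Q025.q490_0) q_nil))

def C491 : List ℕ := [0, 4, 8, 12, 16, 20, 24, 89089, 91137, 222209, 353281, 475137, 606209, 615425, 617473, 9177407898658, 17817293247538]
theorem p491 : Pat 73 73 TBm TCm (C491.map Fm) R0Q025.P491 R0Q025.I491 := Vale.Agent.P032.Lt.pat_eq (E' := R0Q025.E491) (by decide +kernel) (pat_step (by decide +kernel) (q_cons (Vale.Agent.P032.Lt.q R0Q025.q491_0) q_nil))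

def C492 : List ℕ := [0, 4, 8, 12, 16, 20, 24, 82945, 87041, 89089, 349185, 475137, 737281, 741377, 9169895123994, 9169896959002, 9177521144866, 17774140152842, 23373660121110, 23729709864966, 23729718253574, 23789864572934, 23789872961542, 23789923293190]
theorem p492 : Pat 73 73 TBm TCm (C492.map Fm) R0Q025.P492 R0Q025.I492 := Vale.Agent.P032.Lt.pat_eq (E' := R0Q025.E492) (by decide +kernel) (pat_step (by decide +kernel) (q_cons (Vale.Agent.P032.Lt.q R0Q025.q492_0) (q_cons (Vale.Agent.P032.Lt.q R0Q025.q492_1) (q_cons (Vale.Agent.P032.Lt.q R0Q025.q492_2) (q_cons (Vale.Agent.P032.Lt.q R0Q025.q492_3) (q_cons (Vale.Agent.P032.Lt.q R0Q025.q492_4) (q_cons (Vale.Agent.P032.Lt.q R0Q025.q492_5) (q_cons (Vale.Agent.P032.Lt.q R0Q025.q492_6) (q_cons (Vale.Agent.P032.Lt.q R0Q025.q492_7) q_nil)))))))))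

def C493 : List ℕ := [0, 4, 8, 12, 16, 20, 24, 82945, 84993, 214017, 216065, 476161, 478209, 606209, 741377, 9046926255122, 9715755998218, 13376227859466, 14105242199058, 24404318054422]
theorem p493 : Pat 73 73 TBm TCm (C493.map Fm) R0Q025.P493 R0Q025.I493 := Vale.Agent.P032.Lt.pat_eq (E' := R0Q025.E493) (by decide +kernel) (pat_step (by decide +kernel) (q_cons (Vale.Agent.P032.Lt.q R0Q025.q493_0) q_nil))

def C494 : List ℕ := [0, 4, 8, 12, 16, 20, 24, 216065]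
theorem p494 : Pat 73 73 TBm TCm (C494.map Fm) R0Q026.P494 R0Q026.I494 := Vale.Agent.P032.Lt.pat_eq (E' := R0Q026.E494) (by decide +kernel) (pat_step (by decide +kernel) (q_cons (Vale.Agent.P032.Lt.q R0Q026.q494_0) (q_cons (Vale.Agent.P032.Lt.q R0Q026.q494_1) (q_cons (Vale.Agent.P032.Lt.q R0Q026.q494_2) (q_cons (Vale.Agent.P032.Lt.q R0Q026.q494_3) (q_cons (Vale.Agent.P032.Lt.q R0Q026.q494_4) (q_cons (Vale.Agent.P032.Lt.q R0Q026.q494_5) (q_cons (Vale.Agent.P032.Lt.q R0Q026.q494_6) (q_cons (Vale.Agent.P032.Lt.q R0Q026.q494_7) (q_cons (Vale.Agent.P032.Lt.q R0Q026.q494_8) (q_cons (Vale.Agent.P032.Lt.q R0Q026.q494_9) (q_cons (Vale.Agent.P032.Lt.q R0Q026.q494_10) (q_cons (Vale.Agent.P032.Lt.q R0Q026.q494_11) q_nil)))))))))))))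

theorem p495 : Pat 73 73 TBm TCm (CB.map Fm) R0Q026.P495 R0Q026.I495 := Vale.Agent.P032.Lt.pat_eq (E' := R0Q026.E) eB (pat_step (by decide +kernel) (q_cons (Vale.Agent.P032.Lt.q R0Q026.q495_0) (q_cons (Vale.Agent.P032.Lt.q R0Q026.q495_1) (q_cons (Vale.Agent.P032.Lt.q R0Q026.q495_2) (q_cons (Vale.Agent.P032.Lt.q R0Q026.q495_3) (q_cons (Vale.Agent.P032.Lt.q R0Q026.q495_4) (q_cons (Vale.Agent.P032.Lt.q R0Q026.q495_5) q_nil)))))))

def C496 : List ℕ := [0, 4, 8, 12, 16, 20, 24, 82945, 212993, 222209, 353281, 355329, 475137, 737281, 4718424837162, 9115399572522, 14041411181578, 18786940046378, 18786947126322, 23729720743942, 23729722841094]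
theorem p496 : Pat 73 73 TBm TCm (C496.map Fm) R0Q026.P496 R0Q026.I496 := Vale.Agent.P032.Lt.pat_eq (E' := R0Q026.E496) (by decide +kernel) (pat_step (by decide +kernel) (q_cons (Vale.Agent.P032.Lt.q R0Q026.q496_0) (q_cons (Vale.Agent.P032.Lt.q R0Q026.q496_1) (q_cons (Vale.Agent.P032.Lt.q R0Q026.q496_2) (q_cons (Vale.Agent.P032.Lt.q R0Q026.q496_3) (q_cons (Vale.Agent.P032.Lt.q R0Q026.q496_4) q_nil))))))

def C497 : List ℕ := [0, 4, 8, 12, 16, 20, 24, 91137, 212993, 222209, 353281, 475137, 737281, 4718424837162, 9115399572522, 23725961730054, 23725964089350]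
theorem p497 : Pat 73 73 TBm TCm (C497.map Fm) R0Q026.P497 R0Q026.I497 := Vale.Agent.P032.Lt.pat_eq (E' := R0Q026.E497) (by decide +kernel) (pat_step (by decide +kernel) (q_cons (Vale.Agent.P032.Lt.q R0Q026.q497_0) (q_cons (Vale.Agent.P032.Lt.q R0Q026.q497_1) (q_cons (Vale.Agent.P032.Lt.q R0Q026.q497_2) q_nil))))

def C498 : List ℕ := [0, 4, 8, 12, 16, 20, 24, 91137, 93185, 222209, 224257, 344065, 353281, 355329, 475137, 484353, 486401, 613377, 615425, 617473, 737281, 4641407325234, 4649936180274, 9042137273394, 13371464307762, 17760972653602, 17774120750122, 17775999798314, 17821102195746, 17842706009130, 17843645533226, 17956434297890, 17963950490658, 18325648921650, 18393294656562, 19047174067250, 19047220986914, 19062253372450, 19595856139314, 19595903058978, 19603419251746]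
theorem p498 : Pat 73 73 TBm TCm (C498.map Fm) R0Q026.P498 R0Q026.I498 := Vale.Agent.P032.Lt.pat_eq (E' := R0Q026.E498) (by decide +kernel) (pat_step (by decide +kernel) (q_cons (Vale.Agent.P032.Lt.q R0Q026.q498_0) q_nil))

def C499 : List ℕ := [0, 4, 8, 12, 16, 20, 24, 222209, 745473, 9599319493674, 9719532440618, 19603385177138, 22157877135398, 22157944244262, 22218023454758]
theorem p499 : Pat 73 73 TBm TCm (C499.map Fm) R0Q026.P499 R0Q026.I499 := Vale.Agent.P032.Lt.pat_eq (E' := R0Q026.E499) (by decide +kernel) (pat_step (by decide +kernel) (q_cons (Vale.Agent.P032.Lt.q R0Q026.q499_0) (q_cons (Vale.Agent.P032.Lt.q R0Q026.q499_1) (q_cons (Vale.Agent.P032.Lt.q R0Q026.q499_2) (q_cons (Vale.Agent.P032.Lt.q R0Q026.q499_3) (q_cons (Vale.Agent.P032.Lt.q R0Q026.q499_4) (q_cons (Vale.Agent.P032.Lt.q R0Q026.q499_5) (q_cons (Vale.Agent.P032.Lt.q R0Q026.q499_6) (q_cons (Vale.Agent.P032.Lt.q R0Q026.q499_7) (q_cons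 (Vale.Agent.P032.Lt.q R0Q026.q499_8) (q_cons (Vale.Agent.P032.Lt.q R0Q026.q499_9) (q_cons (Vale.Agent.P032.Lt.q R0Q026.q499_10) (q_cons (Vale.Agent.P032.Lt.q R0Q026.q499_11) q_nil)))))))))))))

def C500 : List ℕ := [0, 4, 8, 12, 16, 20, 24, 344065, 478209, 14646422758418]
theorem p500 : Pat 73 73 TBm TCm (C500.map Fm) R0Q026.P500 R0Q026.I500 := Vale.Agent.P032.Lt.pat_eq (E' := R0Q026.E500) (by decide +kernel) (pat_step (by decide +kernel) (q_cons (Vale.Agent.P032.Lt.q R0Q026.q500_0) (q_cons (Vale.Agent.P032.Lt.q R0Q026.q500_1) (q_cons (Vale.Agent.P032.Lt.q R0Q026.q500_2) q_nil))))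

theorem p501 : Pat 73 73 TBm TCm (CB.map Fm) R0Q026.P501 R0Q026.I501 := Vale.Agent.P032.Lt.pat_eq (E' := R0Q026.E) eB (pat_step (by decide +kernel) (q_cons (Vale.Agent.P032.Lt.q R0Q026.q501_0) (q_cons (Vale.Agent.P032.Lt.q R0Q026.q501_1) (q_cons (Vale.Agent.P032.Lt.q R0Q026.q501_2) q_nil))))

def C502 : List ℕ := [0, 4, 8, 12, 16, 20, 24, 212993, 214017, 216065, 486401, 606209, 9719602439186, 14109008419850, 14402189743154, 18305910529034, 18310608673802, 18365999957026]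
theorem p502 : Pat 73 73 TBm TCm (C502.map Fm) R0Q026.P502 R0Q026.I502 := Vale.Agent.P032.Lt.pat_eq (E' := R0Q026.E502) (by decide +kernel) (pat_step (by decide +kernel) (q_cons (Vale.Agent.P032.Lt.q R0Q026.q502_0) (q_cons (Vale.Agent.P032.Lt.q R0Q026.q502_1) q_nil)))

theorem p503 : Pat 73 73 TBm TCm (CB.map Fm) R0Q026.P503 R0Q026.I503 := Vale.Agent.P032.Lt.pat_eq (E' := R0Q026.E) eB (pat_step (by decide +kernel) (q_cons (Vale.Agent.P032.Lt.q R0Q026.q503_0) (q_cons (Vale.Agent.P032.Lt.q R0Q026.q503_1) (q_cons (Vale.Agent.P032.Lt.q R0Q026.q503_2) (q_cons (Vale.Agent.P032.Lt.q R0Q026.q503_3) q_nil)))))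

def C504 : List ℕ := [0, 4, 8, 12, 16, 20, 24, 89089, 91137, 222209, 348161, 353281, 484353, 606209, 737281, 741377, 9170004952098, 13559436626986, 14397483338794, 18391344963598, 23376476465174, 24275585292294, 24278400325638, 24278402553862, 24278404519942, 24278404913158]
theorem p504 : Pat 73 73 TBm TCm (C504.map Fm) R0Q026.P504 R0Q026.I504 := Vale.Agent.P032.Lt.pat_eq (E' := R0Q026.E504) (by decide +kernel) (pat_step (by decide +kernel) (q_cons (Vale.Agent.P032.Lt.q R0Q026.q504_0) q_nil))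

def C505 : List ℕ := [0, 4, 8, 12, 16, 20, 24, 82945, 89089, 606209, 737281, 9170004952098, 13556633263114, 17842660662282, 17963948655650, 24278467434502, 24338546644998, 24338555033606, 24338613753862, 24338622142470]
theorem p505 : Pat 73 73 TBm TCm (C505.map Fm) R0Q026.P505 R0Q026.I505 := Vale.Agent.P032.Lt.pat_eq (E' := R0Q026.E505) (by decide +kernel) (pat_step (by decide +kernel) (q_cons (Vale.Agent.P032.Lt.q R0Q026.q505_0) (q_cons (Vale.Agent.P032.Lt.q R0Q026.q505_1) (q_cons (Vale.Agent.P032.Lt.q R0Q026.q505_2) (q_cons (Vale.Agent.P032.Lt.q R0Q026.q505_3) (q_cons (Vale.Agent.P032.Lt.q R0Q026.q505_4) (q_cons (Vale.Agent.P032.Lt.q R0Q026.q505_5) q_nil)))))))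

theorem p506 : Pat 73 73 TBm TCm (CB.map Fm) R0Q026.P506 R0Q026.I506 := Vale.Agent.P032.Lt.pat_eq (E' := R0Q026.E) eB (pat_step (by decide +kernel) (q_cons (Vale.Agent.P032.Lt.q R0Q026.q506_0) (q_cons (Vale.Agent.P032.Lt.q R0Q026.q506_1) (q_cons (Vale.Agent.P032.Lt.q R0Q026.q506_2) (q_cons (Vale.Agent.P032.Lt.q R0Q026.q506_3) (q_cons (Vale.Agent.P032.Lt.q R0Q026.q506_4) (q_cons (Vale.Agent.P032.Lt.q R0Q026.q506_5) (q_cons (Vale.Agent.P032.Lt.q R0Q026.q506_6) (q_cons (Vale.Agent.P032.Lt.q R0Q026.q506_7) (q_cons (Vale.Agent.P032.Lt.q R0Q026.q506_8) q_nil))))))))))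

theorem p507 : Pat 73 73 TBm TCm (CB.map Fm) R0Q026.P507 R0Q026.I507 := Vale.Agent.P032.Lt.pat_eq (E' := R0Q026.E) eB (pat_step (by decide +kernel) (q_cons (Vale.Agent.P032.Lt.q R0Q026.q507_0) (q_cons (Vale.Agent.P032.Lt.q R0Q026.q507_1) (q_cons (Vale.Agent.P032.Lt.q R0Q026.q507_2) (q_cons (Vale.Agent.P032.Lt.q R0Q026.q507_3) q_nil)))))

theorem p508 : Pat 73 73 TBm TCm (CB.map Fm) R0Q026.P508 R0Q026.I508 := Vale.Agent.P032.Lt.pat_eq (E' := R0Q026.E) eB (pat_step (by decide +kernel) (q_cons (Vale.Agent.P032.Lt.q R0Q026.q508_0) (q_cons (Vale.Agent.P032.Lt.q R0Q026.q508_1) (q_cons (Vale.Agent.P032.Lt.q R0Q026.q508_2) (q_cons (Vale.Agent.P032.Lt.q R0Q026.q508_3) (q_cons (Vale.Agent.P032.Lt.q R0Q026.q508_4) (q_cons (Vale.Agent.P032.Lt.q R0Q026.q508_5) (q_cons (Vale.Agent.P032.Lt.q R0Q026.q508_6) (q_cons (Vale.Agent.P032.Lt.q R0Q026.q508_7) (q_cons (Vale.Agent.P032.Lt.q R0Q026.q508_8) (q_cons (Vale.Agent.P032.Lt.q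 R0Q026.q508_9) (q_cons (Vale.Agent.P032.Lt.q R0Q026.q508_10) (q_cons (Vale.Agent.P032.Lt.q R0Q026.q508_11) (q_cons (Vale.Agent.P032.Lt.q R0Q026.q508_12) (q_cons (Vale.Agent.P032.Lt.q R0Q026.q508_13) (q_cons (Vale.Agent.P032.Lt.q R0Q026.q508_14) q_nil))))))))))))))))

theorem p509 : Pat 73 73 TBm TCm (CB.map Fm) R0Q026.P509 R0Q026.I509 := Vale.Agent.P032.Lt.pat_eq (E' := R0Q026.E) eB (pat_step (by decide +kernel) (q_cons (Vale.Agent.P032.Lt.q R0Q026.q509_0) (q_cons (Vale.Agent.P032.Lt.q R0Q026.q509_1) q_nil)))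

theorem p510 : Pat 73 73 TBm TCm (CB.map Fm) R0Q026.P510 R0Q026.I510 := Vale.Agent.P032.Lt.pat_eq (E' := R0Q026.E) eB (pat_step (by decide +kernel) (q_cons (Vale.Agent.P032.Lt.q R0Q026.q510_0) (q_cons (Vale.Agent.P032.Lt.q R0Q026.q510_1) (q_cons (Vale.Agent.P032.Lt.q R0Q026.q510_2) (q_cons (Vale.Agent.P032.Lt.q R0Q026.q510_3) (q_cons (Vale.Agent.P032.Lt.q R0Q026.q510_4) (q_cons (Vale.Agent.P032.Lt.q R0Q026.q510_5) (q_cons (Vale.Agent.P032.Lt.q R0Q026.q510_6) (q_cons (Vale.Agent.P032.Lt.q R0Q026.q510_7) q_nil)))))))))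

def C511 : List ℕ := [0, 4, 8, 12, 16, 20, 24, 475137, 737281, 23925156042758, 23925214763014]
theorem p511 : Pat 73 73 TBm TCm (C511.map Fm) R0Q026.P511 R0Q026.I511 := Vale.Agent.P032.Lt.pat_eq (E' := R0Q026.E511) (by decide +kernel) (pat_step (by decide +kernel) (q_cons (Vale.Agent.P032.Lt.q R0Q026.q511_0) (q_cons (Vale.Agent.P032.Lt.q R0Q026.q511_1) (q_cons (Vale.Agent.P032.Lt.q R0Q026.q511_2) (q_cons (Vale.Agent.P032.Lt.q R0Q026.q511_3) (q_cons (Vale.Agent.P032.Lt.q R0Q026.q511_4) (q_cons (Vale.Agent.P032.Lt.q R0Q026.q511_5) q_nil)))))))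

def L : List (List ℕ) := [R0Q021.P384, R0Q021.P385, R0Q021.P386, R0Q021.P387, R0Q021.P388, R0Q021.P389, R0Q021.P390, R0Q021.P391, R0Q021.P392, R0Q021.P393, R0Q021.P394, R0Q021.P395, R0Q021.P396, R0Q021.P397, R0Q021.P398, R0Q021.P399, R0Q021.P400, R0Q021.P401, R0Q021.P402, R0Q021.P403, R0Q021.P404, R0Q021.P405, R0Q021.P406, R0Q021.P407, R0Q021.P408, R0Q022.P409, R0Q022.P410, R0Q022.P411, R0Q022.P412, R0Q022.P413, R0Q022.P414, R0Q022.P415, R0Q022.P416, R0Q022.P417, R0Q022.P418, R0Q022.P419, R0Q022.P420, R0Q022.P421, R0Q022.P422, R0Q022.P423, R0Q022.P424, R0Q022.P425, R0Q022.P426, R0Q022.P427, R0Q022.P428, R0Q022.P429, R0Q023.P430, R0Q023.P431, R0Q023.P432, R0Q023.P433, R0Q023.P434, R0Q023.P435, R0Q023.P436, R0Q023.P437, R0Q023.P438, R0Q023.P439, R0Q023.P440, R0Q023.P441, R0Q023.P442, R0Q023.P443, R0Q023.P444, R0Q023.P445, R0Q023.P446, R0Q023.P447, R0Q023.P448, R0Q023.P449, R0Q023.P450, R0Q023.P451, R0Q023.P452,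 R0Q023.P453, R0Q023.P454, R0Q024.P455, R0Q024.P456, R0Q024.P457, R0Q024.P458, R0Q024.P459, R0Q024.P460, R0Q024.P461, R0Q024.P462, R0Q024.P463, R0Q024.P464, R0Q024.P465, R0Q024.P466, R0Q024.P467, R0Q024.P468, R0Q024.P469, R0Q024.P470, R0Q024.P471, R0Q024.P472, R0Q025.P473, R0Q025.P474, R0Q025.P475, R0Q025.P476, R0Q025.P477, R0Q025.P478, R0Q025.P479, R0Q025.P480, R0Q025.P481, R0Q025.P482, R0Q025.P483, R0Q025.P484, R0Q025.P485, R0Q025.P486, R0Q025.P487, R0Q025.P488, R0Q025.P489, R0Q025.P490, R0Q025.P491, R0Q025.P492, R0Q025.P493, R0Q026.P494, R0Q026.P495, R0Q026.P496, R0Q026.P497, R0Q026.P498, R0Q026.P499, R0Q026.P500, R0Q026.P501, R0Q026.P502, R0Q026.P503, R0Q026.P504, R0Q026.P505, R0Q026.P506, R0Q026.P507, R0Q026.P508, R0Q026.P509, R0Q026.P510, R0Q026.P511]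

theorem all : ∀ P ∈ L, CrtF 73 73 TBm TCm (Vale.Agent.P032.Fam.fam3 (Vale.Agent.P032.Fam.im0)) P := crtF_cons p384 (crtF_cons p385 (crtF_cons p386 (crtF_cons p387 (crtF_cons p388 (crtF_cons p389 (crtF_cons p390 (crtF_cons p391 (crtF_cons p392 (crtF_cons p393 (crtF_cons p394 (crtF_cons p395 (crtF_cons p396 (crtF_cons p397 (crtF_cons p398 (crtF_cons p399 (crtF_cons p400 (crtF_cons p401 (crtF_cons p402 (crtF_cons p403 (crtF_cons p404 (crtF_cons p405 (crtF_cons p406 (crtF_cons p407 (crtF_cons p408 (crtF_cons p409 (crtF_cons p410 (crtF_cons p411 (crtF_cons p412 (crtF_cons p413 (crtF_cons p414 (crtF_cons p415 (crtF_cons p416 (crtF_cons p417 (crtF_cons p418 (crtF_cons p419 (crtF_cons p420 (crtF_cons p421 (crtF_cons p422 (crtF_cons p423 (crtF_cons p424 (crtF_cons p425 (crtF_cons p426 (crtF_cons p427 (crtF_cons p428 (crtF_cons p429 (crtF_cons p430 (crtF_cons p431 (crtF_cons p432 (crtF_cons p433 (crtF_cons p434 (crtF_cons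 p435 (crtF_cons p436 (crtF_cons p437 (crtF_cons p438 (crtF_cons p439 (crtF_cons p440 (crtF_cons p441 (crtF_cons p442 (crtF_cons p443 (crtF_cons p444 (crtF_cons p445 (crtF_cons p446 (crtF_cons p447 (crtF_cons p448 (crtF_cons p449 (crtF_cons p450 (crtF_cons p451 (crtF_cons p452 (crtF_cons p453 (crtF_cons p454 (crtF_cons p455 (crtF_cons p456 (crtF_cons p457 (crtF_cons p458 (crtF_cons p459 (crtF_cons p460 (crtF_cons p461 (crtF_cons p462 (crtF_cons p463 (crtF_cons p464 (crtF_cons p465 (crtF_cons p466 (crtF_cons p467 (crtF_cons p468 (crtF_cons p469 (crtF_cons p470 (crtF_cons p471 (crtF_cons p472 (crtF_cons p473 (crtF_cons p474 (crtF_cons p475 (crtF_cons p476 (crtF_cons p477 (crtF_cons p478 (crtF_cons p479 (crtF_cons p480 (crtF_cons p481 (crtF_cons p482 (crtF_cons p483 (crtF_cons p484 (crtF_cons p485 (crtF_cons p486 (crtF_cons p487 (crtF_cons p488 (crtF_cons p489 (crtF_cons p490 (crtF_cons p491 (crtF_cons p492 (crtF_cons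 p493 (crtF_cons p494 (crtF_cons p495 (crtF_cons p496 (crtF_cons p497 (crtF_cons p498 (crtF_cons p499 (crtF_cons p500 (crtF_cons p501 (crtF_cons p502 (crtF_cons p503 (crtF_cons p504 (crtF_cons p505 (crtF_cons p506 (crtF_cons p507 (crtF_cons p508 (crtF_cons p509 (crtF_cons p510 (crtF_cons p511 crtF_nil)))))))))))))))))))))))))))))))))))))))))))))))))))))))))))))))))))))))))))))))))))))))))))))))))))))))))))))))))))))))))))))))

theorem ch : chT 73 73 TCm s0_003 L = true := by decide +kernel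

end Vale.Agent.P032X.Cert.X3.A.R0H003
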