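import Vale.Agent.P032X.H892.LtH
import Vale.Agent.P032X.H286.W73
import Vale.Agent.P032X.Cert.X3.A.R0T
import Vale.Agent.P032X.Cert.X3.A.R0Q027
import Vale.Agent.P032X.Cert.X3.A.R0Q028
import Vale.Agent.P032X.Cert.X3.A.R0Q029
import Vale.Agent.P032X.Cert.X3.A.R0Q030

set_option maxRecDepth 1000000

namespace Vale.Agent.P032X.Cert.X3.A.R0H004

open Vale.Agent.P032.H820.K Vale.Agent.P032.H357.MK Vale.Agent.P032.H286.E Vale.Agent.P032.H61 Vale.Agent.P032X.Cert.X3.A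

noncomputable abbrev Fm : ℕ → List ℕ := Vale.Agent.P032.Fam.fam3 (Vale.Agent.P032.Fam.im0)

def CB : List ℕ := [0, 4, 8, 12, 16, 20, 24]

theorem eB : Vale.Agent.P032.Lt.eqLL (CB.map Fm) R0Q027.E = true := by decide +kernel

theorem p512 : Pat 73 73 TBm TCm (CB.map Fm) R0Q027.P512 R0Q027.I512 := Vale.Agent.P032.Lt.pat_eq (E' := R0Q027.E) eB (pat_step (by decide +kernel) (q_cons (Vale.Agent.P032.Lt.q R0Q027.q512_0) (q_cons (Vale.Agent.P032.Lt.q R0Q027.q512_1) (q_cons (Vale.Agent.P032.Lt.q R0Q027.q512_2) (q_cons (Vale.Agent.P032.Lt.q R0Q027.q512_3) (q_cons (Vale.Agent.P032.Lt.q R0Q027.q512_4) (q_cons (Vale.Agent.P032.Lt.q R0Q027.q512_5) (q_cons (Vale.Agent.P032.Lt.q R0Q027.q512_6) q_nil))))))))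

def C513 : List ℕ := [0, 4, 8, 12, 16, 20, 24, 84993, 216065, 347137, 475137, 478209, 609281, 13376225894414, 13921101505554, 14124086810630, 17760938583058, 18310558082066, 18791653139474]
theorem p513 : Pat 73 73 TBm TCm (C513.map Fm) R0Q027.P513 R0Q027.I513 := Vale.Agent.P032.Lt.pat_eq (E' := R0Q027.E513) (by decide +kernel) (pat_step (by decide +kernel) (q_cons (Vale.Agent.P032.Lt.q R0Q027.q513_0) q_nil))

theorem p514 : Pat 73 73 TBm TCm (CB.map Fm) R0Q027.P514 R0Q027.I514 := Vale.Agent.P032.Lt.pat_eq (E' := R0Q027.E) eB (pat_step (by decide +kernel) (q_cons (Vale.Agent.P032.Lt.q R0Q027.q514_0) (q_cons (Vale.Agent.P032.Lt.q R0Q027.q514_1) (q_cons (Vale.Agent.P032.Lt.q R0Q027.q514_2) (q_cons (Vale.Agent.P032.Lt.q R0Q027.q514_3) (q_cons (Vale.Agent.P032.Lt.q R0Q027.q514_4) (q_cons (Vale.Agent.P032.Lt.q R0Q027.q514_5) (q_cons (Vale.Agent.P032.Lt.q R0Q027.q514_6) (q_cons (Vale.Agent.P032.Lt.q R0Q027.q514_7)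 (q_cons (Vale.Agent.P032.Lt.q R0Q027.q514_8) (q_cons (Vale.Agent.P032.Lt.q R0Q027.q514_9) (q_cons (Vale.Agent.P032.Lt.q R0Q027.q514_10) q_nil))))))))))))

theorem p515 : Pat 73 73 TBm TCm (CB.map Fm) R0Q027.P515 R0Q027.I515 := Vale.Agent.P032.Lt.pat_eq (E' := R0Q027.E) eB (pat_step (by decide +kernel) (q_cons (Vale.Agent.P032.Lt.q R0Q027.q515_0) (q_cons (Vale.Agent.P032.Lt.q R0Q027.q515_1) (q_cons (Vale.Agent.P032.Lt.q R0Q027.q515_2) (q_cons (Vale.Agent.P032.Lt.q R0Q027.q515_3) (q_cons (Vale.Agent.P032.Lt.q R0Q027.q515_4) (q_cons (Vale.Agent.P032.Lt.q R0Q027.q515_5) (q_cons (Vale.Agent.P032.Lt.q R0Q027.q515_6) (q_cons (Vale.Agent.P032.Lt.q R0Q027.q515_7) (q_cons (Vale.Agent.P032.Lt.q R0Q027.q515_8) q_nil))))))))))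

def C516 : List ℕ := [0, 4, 8, 12, 16, 20, 24, 617473, 18305910789170, 19355367068722]
theorem p516 : Pat 73 73 TBm TCm (C516.map Fm) R0Q027.P516 R0Q027.I516 := Vale.Agent.P032.Lt.pat_eq (E' := R0Q027.E516) (by decide +kernel) (pat_step (by decide +kernel) (q_cons (Vale.Agent.P032.Lt.q R0Q027.q516_0) (q_cons (Vale.Agent.P032.Lt.q R0Q027.q516_1) (q_cons (Vale.Agent.P032.Lt.q R0Q027.q516_2) (q_cons (Vale.Agent.P032.Lt.q R0Q027.q516_3) q_nil)))))

def C517 : List ℕ := [0, 4, 8, 12, 16, 20, 24, 486401, 606209, 737281, 19355367068722]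
theorem p517 : Pat 73 73 TBm TCm (C517.map Fm) R0Q027.P517 R0Q027.I517 := Vale.Agent.P032.Lt.pat_eq (E' := R0Q027.E517) (by decide +kernel) (pat_step (by decide +kernel) (q_cons (Vale.Agent.P032.Lt.q R0Q027.q517_0) (q_cons (Vale.Agent.P032.Lt.q R0Q027.q517_1) (q_cons (Vale.Agent.P032.Lt.q R0Q027.q517_2) q_nil))))

def C518 : List ℕ := [0, 4, 8, 12, 16, 20, 24, 224257, 355329, 486401, 613377, 615425, 4649936180274, 14397490549810, 18911889671202]
theorem p518 : Pat 73 73 TBm TCm (C518.map Fm) R0Q027.P518 R0Q027.I518 := Vale.Agent.P032.Lt.pat_eq (E' := R0Q027.E518) (by decide +kernel) (pat_step (by decide +kernel) (q_cons (Vale.Agent.P032.Lt.q R0Q027.q518_0) q_nil))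

def C519 : List ℕ := [0, 4, 8, 12, 16, 20, 24, 212993, 344065, 475137, 607233, 608257, 739329, 17963902650406, 18325621922826, 18907228618782, 24353541545998]
theorem p519 : Pat 73 73 TBm TCm (C519.map Fm) R0Q027.P519 R0Q027.I519 := Vale.Agent.P032.Lt.pat_eq (E' := R0Q027.E519) (by decide +kernel) (pat_step (by decide +kernel) (q_cons (Vale.Agent.P032.Lt.q R0Q027.q519_0) q_nil))

def C520 : List ℕ := [0, 4, 8, 12, 16, 20, 24, 81921, 82945, 89089, 345089, 476161, 613377, 9115437849610, 9175550614538, 13376244374538, 17775968076834, 17956331537442, 24285893581834, 24285960690698]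
theorem p520 : Pat 73 73 TBm TCm (C520.map Fm) R0Q027.P520 R0Q027.I520 := Vale.Agent.P032.Lt.pat_eq (E' := R0Q027.E520) (by decide +kernel) (pat_step (by decide +kernel) (q_cons (Vale.Agent.P032.Lt.q R0Q027.q520_0) (q_cons (Vale.Agent.P032.Lt.q R0Q027.q520_1) (q_cons (Vale.Agent.P032.Lt.q R0Q027.q520_2) (q_cons (Vale.Agent.P032.Lt.q R0Q027.q520_3) q_nil)))))

def C521 : List ℕ := [0, 4, 8, 12, 16, 20, 24, 82945, 89089, 9169891705890, 9170004952098, 13376227859466, 17842660662282, 22155078097930]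
theorem p521 : Pat 73 73 TBm TCm (C521.map Fm) R0Q027.P521 R0Q027.I521 := Vale.Agent.P032.Lt.pat_eq (E' := R0Q027.E521) (by decide +kernel) (pat_step (by decide +kernel) (q_cons (Vale.Agent.P032.Lt.q R0Q027.q521_0) (q_cons (Vale.Agent.P032.Lt.q R0Q027.q521_1) (q_cons (Vale.Agent.P032.Lt.q R0Q027.q521_2) (q_cons (Vale.Agent.P032.Lt.q R0Q027.q521_3) (q_cons (Vale.Agent.P032.Lt.q R0Q027.q521_4) (q_cons (Vale.Agent.P032.Lt.q R0Q027.q521_5) (q_cons (Vale.Agent.P032.Lt.q R0Q027.q521_6) (q_cons (Vale.Agent.P032.Lt.q R0Q027.q521_7) q_nil)))))))))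

def C522 : List ℕ := [0, 4, 8, 12, 16, 20, 24, 220161, 9715799245858]
theorem p522 : Pat 73 73 TBm TCm (C522.map Fm) R0Q027.P522 R0Q027.I522 := Vale.Agent.P032.Lt.pat_eq (E' := R0Q027.E522) (by decide +kernel) (pat_step (by decide +kernel) (q_cons (Vale.Agent.P032.Lt.q R0Q027.q522_0) (q_cons (Vale.Agent.P032.Lt.q R0Q027.q522_1) (q_cons (Vale.Agent.P032.Lt.q R0Q027.q522_2) (q_cons (Vale.Agent.P032.Lt.q R0Q027.q522_3) q_nil)))))

def C523 : List ℕ := [0, 4, 8, 12, 16, 20, 24, 87041, 349185, 355329, 476161, 478209, 480257, 486401, 607233, 611329, 617473, 9102290021402, 9587127440434, 13921178315802, 18310634892314, 19332810890250]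
theorem p523 : Pat 73 73 TBm TCm (C523.map Fm) R0Q027.P523 R0Q027.I523 := Vale.Agent.P032.Lt.pat_eq (E' := R0Q027.E523) (by decide +kernel) (pat_step (by decide +kernel) (q_cons (Vale.Agent.P032.Lt.q R0Q027.q523_0) (q_cons (Vale.Agent.P032.Lt.q R0Q027.q523_1) q_nil)))

def C524 : List ℕ := [0, 4, 8, 12, 16, 20, 24, 84993, 212993, 349185, 486401, 9038400153622, 9167092933650, 9167093064722, 9587106343962, 14409649574962, 17842660662282]
theorem p524 : Pat 73 73 TBm TCm (C524.map Fm) R0Q027.P524 R0Q027.I524 := Vale.Agent.P032.Lt.pat_eq (E' := R0Q027.E524) (by decide +kernel) (pat_step (by decide +kernel) (q_cons (Vale.Agent.P032.Lt.q R0Q027.q524_0) (q_cons (Vale.Agent.P032.Lt.q R0Q027.q524_1) (q_cons (Vale.Agent.P032.Lt.q R0Q027.q524_2) (q_cons (Vale.Agent.P032.Lt.q R0Q027.q524_3) (q_cons (Vale.Agent.P032.Lt.q R0Q027.q524_4) q_nil))))))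

theorem p525 : Pat 73 73 TBm TCm (CB.map Fm) R0Q027.P525 R0Q027.I525 := Vale.Agent.P032.Lt.pat_eq (E' := R0Q027.E) eB (pat_step (by decide +kernel) (q_cons (Vale.Agent.P032.Lt.q R0Q027.q525_0) (q_cons (Vale.Agent.P032.Lt.q R0Q027.q525_1) (q_cons (Vale.Agent.P032.Lt.q R0Q027.q525_2) (q_cons (Vale.Agent.P032.Lt.q R0Q027.q525_3) (q_cons (Vale.Agent.P032.Lt.q R0Q027.q525_4) (q_cons (Vale.Agent.P032.Lt.q R0Q027.q525_5) (q_cons (Vale.Agent.P032.Lt.q R0Q027.q525_6) (q_cons (Vale.Agent.P032.Lt.q R0Q027.q525_7) (q_cons (Vale.Agent.P032.Lt.q R0Q027.q525_8) (q_cons (Vale.Agent.P032.Lt.q R0Q027.q525_9) q_nil)))))))))))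

def C526 : List ℕ := [0, 4, 8, 12, 16, 20, 24, 82945, 212993, 475137, 737281, 13379005793314, 23931717638150, 23931719473158, 23931719735302, 23932657686534, 23932657948678, 23932658210822, 23932659652614, 23932659783686, 23932660045830]
theorem p526 : Pat 73 73 TBm TCm (C526.map Fm) R0Q027.P526 R0Q027.I526 := Vale.Agent.P032.Lt.pat_eq (E' := R0Q027.E526) (by decide +kernel) (pat_step (by decide +kernel) (q_cons (Vale.Agent.P032.Lt.q R0Q027.q526_0) (q_cons (Vale.Agent.P032.Lt.q R0Q027.q526_1) (q_cons (Vale.Agent.P032.Lt.q R0Q027.q526_2) (q_cons (Vale.Agent.P032.Lt.q R0Q027.q526_3) (q_cons (Vale.Agent.P032.Lt.q R0Q027.q526_4) (q_cons (Vale.Agent.P032.Lt.q R0Q027.q526_5) (q_cons (Vale.Agent.P032.Lt.q R0Q027.q526_6) (q_cons (Vale.Agent.P032.Lt.q R0Q027.q526_7) (q_cons (Vale.Agent.P032.Lt.q R0Q027.q526_8) (q_cons (Vale.Agent.P032.Lt.q R0Q027.q526_9) (q_cons (Vale.Agent.P032.Lt.q R0Q027.q526_10) (q_cons (Vale.Agent.P032.Lt.q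 R0Q027.q526_11) (q_cons (Vale.Agent.P032.Lt.q R0Q027.q526_12) (q_cons (Vale.Agent.P032.Lt.q R0Q027.q526_13) (q_cons (Vale.Agent.P032.Lt.q R0Q027.q526_14) q_nil))))))))))))))))

def C527 : List ℕ := [0, 4, 8, 12, 16, 20, 24, 82945, 212993, 214017, 344065, 475137, 607233, 738305, 9587047094278, 22232190376970, 22782752676874, 24278407928842]
theorem p527 : Pat 73 73 TBm TCm (C527.map Fm) R0Q027.P527 R0Q027.I527 := Vale.Agent.P032.Lt.pat_eq (E' := R0Q027.E527) (by decide +kernel) (pat_step (by decide +kernel) (q_cons (Vale.Agent.P032.Lt.q R0Q027.q527_0) q_nil))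

def C528 : List ℕ := [0, 4, 8, 12, 16, 20, 24, 82945, 84993, 212993, 214017, 345089, 346113, 475137, 606209, 738305, 739329, 9115465112586, 9599322119178, 17963882341394, 18511661717510, 19353404004358, 22767624739850, 22835351867438, 23188560894986, 23373651468302]
theorem p528 : Pat 73 73 TBm TCm (C528.map Fm) R0Q027.P528 R0Q027.I528 := Vale.Agent.P032.Lt.pat_eq (E' := R0Q027.E528) (by decide +kernel) (pat_step (by decide +kernel) (q_cons (Vale.Agent.P032.Lt.q R0Q027.q528_0) q_nil))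

theorem p529 : Pat 73 73 TBm TCm (CB.map Fm) R0Q027.P529 R0Q027.I529 := Vale.Agent.P032.Lt.pat_eq (E' := R0Q027.E) eB (pat_step (by decide +kernel) (q_cons (Vale.Agent.P032.Lt.q R0Q027.q529_0) q_nil))

theorem p530 : Pat 73 73 TBm TCm (CB.map Fm) R0Q027.P530 R0Q027.I530 := Vale.Agent.P032.Lt.pat_eq (E' := R0Q027.E) eB (pat_step (by decide +kernel) (q_cons (Vale.Agent.P032.Lt.q R0Q027.q530_0) (q_cons (Vale.Agent.P032.Lt.q R0Q027.q530_1) q_nil)))

def C531 : List ℕ := [0, 4, 8, 12, 16, 20, 24, 212993, 215041, 344065, 475137, 748545, 14036703205382, 14577869084678, 22155142190130, 22163577590834, 24285980742706, 24353626477618]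
theorem p531 : Pat 73 73 TBm TCm (C531.map Fm) R0Q027.P531 R0Q027.I531 := Vale.Agent.P032.Lt.pat_eq (E' := R0Q027.E531) (by decide +kernel) (pat_step (by decide +kernel) (q_cons (Vale.Agent.P032.Lt.q R0Q027.q531_0) q_nil))

theorem p532 : Pat 73 73 TBm TCm (CB.map Fm) R0Q027.P532 R0Q027.I532 := Vale.Agent.P032.Lt.pat_eq (E' := R0Q027.E) eB (pat_step (by decide +kernel) (q_cons (Vale.Agent.P032.Lt.q R0Q027.q532_0) (q_cons (Vale.Agent.P032.Lt.q R0Q027.q532_1) (q_cons (Vale.Agent.P032.Lt.q R0Q027.q532_2) (q_cons (Vale.Agent.P032.Lt.q R0Q027.q532_3) (q_cons (Vale.Agent.P032.Lt.q R0Q027.q532_4) (q_cons (Vale.Agent.P032.Lt.q R0Q027.q532_5) (q_cons (Vale.Agent.P032.Lt.q R0Q027.q532_6) q_nil))))))))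

def C533 : List ℕ := [0, 4, 8, 12, 16, 20, 24, 212993, 475137, 4651727804422, 4651729901574]
theorem p533 : Pat 73 73 TBm TCm (C533.map Fm) R0Q027.P533 R0Q027.I533 := Vale.Agent.P032.Lt.pat_eq (E' := R0Q027.E533) (by decide +kernel) (pat_step (by decide +kernel) (q_cons (Vale.Agent.P032.Lt.q R0Q027.q533_0) (q_cons (Vale.Agent.P032.Lt.q R0Q027.q533_1) (q_cons (Vale.Agent.P032.Lt.q R0Q027.q533_2) q_nil))))

def C534 : List ℕ := [0, 4, 8, 12, 16, 20, 24, 84993, 347137, 353281, 606209, 737281, 745473, 9046818507818, 9115511514130, 9664149408810, 22165393328166, 22165426882598, 22165493991462, 24412753975302]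
theorem p534 : Pat 73 73 TBm TCm (C534.map Fm) R0Q028.P534 R0Q028.I534 := Vale.Agent.P032.Lt.pat_eq (E' := R0Q028.E534) (by decide +kernel) (pat_step (by decide +kernel) (q_cons (Vale.Agent.P032.Lt.q R0Q028.q534_0) (q_cons (Vale.Agent.P032.Lt.q R0Q028.q534_1) (q_cons (Vale.Agent.P032.Lt.q R0Q028.q534_2) (q_cons (Vale.Agent.P032.Lt.q R0Q028.q534_3) (q_cons (Vale.Agent.P032.Lt.q R0Q028.q534_4) (q_cons (Vale.Agent.P032.Lt.q R0Q028.q534_5) (q_cons (Vale.Agent.P032.Lt.q R0Q028.q534_6) (q_cons (Vale.Agent.P032.Lt.q R0Q028.q534_7) (q_cons (Vale.Agent.P032.Lt.q R0Q028.q534_8) (q_cons (Vale.Agent.P032.Lt.q R0Q028.q534_9) (q_cons (Vale.Agent.P032.Lt.q R0Q028.q534_10) (q_cons (Vale.Agent.P032.Lt.q R0Q028.q534_11) (q_cons (Vale.Agent.P032.Lt.q R0Q028.q534_12) (q_cons (Vale.Agent.P032.Lt.q R0Q028.q534_13) (q_cons (Vale.Agent.P032.Lt.q R0Q028.q534_14) (q_cons (Vale.Agent.P032.Lt.q R0Q028.q534_15) q_nil)))))))))))))))))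

def C535 : List ℕ := [0, 4, 8, 12, 16, 20, 24, 84993, 347137, 349185, 478209, 480257, 482305, 606209, 4649840239634, 14036626785314, 14646475187218]
theorem p535 : Pat 73 73 TBm TCm (C535.map Fm) R0Q028.P535 R0Q028.I535 := Vale.Agent.P032.Lt.pat_eq (E' := R0Q028.E535) (by decide +kernel) (pat_step (by decide +kernel) (q_cons (Vale.Agent.P032.Lt.q R0Q028.q535_0) (q_cons (Vale.Agent.P032.Lt.q R0Q028.q535_1) (q_cons (Vale.Agent.P032.Lt.q R0Q028.q535_2) (q_cons (Vale.Agent.P032.Lt.q R0Q028.q535_3) (q_cons (Vale.Agent.P032.Lt.q R0Q028.q535_4) q_nil))))))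

def C536 : List ℕ := [0, 4, 8, 12, 16, 20, 24, 349185, 475137, 606209, 613377, 737281, 9724212243482, 18365953819682, 23744809359366, 23744817747974, 24285918746630, 24285920712710]
theorem p536 : Pat 73 73 TBm TCm (C536.map Fm) R0Q028.P536 R0Q028.I536 := Vale.Agent.P032.Lt.pat_eq (E' := R0Q028.E536) (by decide +kernel) (pat_step (by decide +kernel) (q_cons (Vale.Agent.P032.Lt.q R0Q028.q536_0) (q_cons (Vale.Agent.P032.Lt.q R0Q028.q536_1) (q_cons (Vale.Agent.P032.Lt.q R0Q028.q536_2) q_nil))))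

def C537 : List ℕ := [0, 4, 8, 12, 16, 20, 24, 212993, 475137, 611329, 737281]
theorem p537 : Pat 73 73 TBm TCm (C537.map Fm) R0Q028.P537 R0Q028.I537 := Vale.Agent.P032.Lt.pat_eq (E' := R0Q028.E537) (by decide +kernel) (pat_step (by decide +kernel) (q_cons (Vale.Agent.P032.Lt.q R0Q028.q537_0) (q_cons (Vale.Agent.P032.Lt.q R0Q028.q537_1) (q_cons (Vale.Agent.P032.Lt.q R0Q028.q537_2) (q_cons (Vale.Agent.P032.Lt.q R0Q028.q537_3) (q_cons (Vale.Agent.P032.Lt.q R0Q028.q537_4) (q_cons (Vale.Agent.P032.Lt.q R0Q028.q537_5) (q_cons (Vale.Agent.P032.Lt.q R0Q028.q537_6) (q_cons (Vale.Agent.P032.Lt.q R0Q028.q537_7) (q_cons (Vale.Agent.P032.Lt.q R0Q028.q537_8) (q_cons (Vale.Agent.P032.Lt.q R0Q028.q537_9) q_nil)))))))))))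

def C538 : List ℕ := [0, 4, 8, 12, 16, 20, 24, 344065, 348161, 617473, 748545, 9117348883482, 14402128795654, 14402191710214, 14402195904518, 14409658095622, 14582559365126, 14650151098374, 24285980742706, 24285983364146]
theorem p538 : Pat 73 73 TBm TCm (C538.map Fm) R0Q028.P538 R0Q028.I538 := Vale.Agent.P032.Lt.pat_eq (E' := R0Q028.E538) (by decide +kernel) (pat_step (by decide +kernel) (q_cons (Vale.Agent.P032.Lt.q R0Q028.q538_0) (q_cons (Vale.Agent.P032.Lt.q R0Q028.q538_1) (q_cons (Vale.Agent.P032.Lt.q R0Q028.q538_2) (q_cons (Vale.Agent.P032.Lt.q R0Q028.q538_3) (q_cons (Vale.Agent.P032.Lt.q R0Q028.q538_4) (q_cons (Vale.Agent.P032.Lt.q R0Q028.q538_5) q_nil)))))))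

theorem p539 : Pat 73 73 TBm TCm (CB.map Fm) R0Q028.P539 R0Q028.I539 := Vale.Agent.P032.Lt.pat_eq (E' := R0Q028.E) eB (pat_step (by decide +kernel) (q_cons (Vale.Agent.P032.Lt.q R0Q028.q539_0) (q_cons (Vale.Agent.P032.Lt.q R0Q028.q539_1) (q_cons (Vale.Agent.P032.Lt.q R0Q028.q539_2) (q_cons (Vale.Agent.P032.Lt.q R0Q028.q539_3) (q_cons (Vale.Agent.P032.Lt.q R0Q028.q539_4) (q_cons (Vale.Agent.P032.Lt.q R0Q028.q539_5) (q_cons (Vale.Agent.P032.Lt.q R0Q028.q539_6) q_nil))))))))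

def C540 : List ℕ := [0, 4, 8, 12, 16, 20, 24, 82945, 89089, 212993, 475137, 737281, 9177521144866]
theorem p540 : Pat 73 73 TBm TCm (C540.map Fm) R0Q028.P540 R0Q028.I540 := Vale.Agent.P032.Lt.pat_eq (E' := R0Q028.E540) (by decide +kernel) (pat_step (by decide +kernel) (q_cons (Vale.Agent.P032.Lt.q R0Q028.q540_0) (q_cons (Vale.Agent.P032.Lt.q R0Q028.q540_1) (q_cons (Vale.Agent.P032.Lt.q R0Q028.q540_2) q_nil))))

def C541 : List ℕ := [0, 4, 8, 12, 16, 20, 24, 214017, 344065, 476161, 738305, 22835299834890, 23931723799562]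
theorem p541 : Pat 73 73 TBm TCm (C541.map Fm) R0Q028.P541 R0Q028.I541 := Vale.Agent.P032.Lt.pat_eq (E' := R0Q028.E541) (by decide +kernel) (pat_step (by decide +kernel) (q_cons (Vale.Agent.P032.Lt.q R0Q028.q541_0) (q_cons (Vale.Agent.P032.Lt.q R0Q028.q541_1) q_nil)))

def C542 : List ℕ := [0, 4, 8, 12, 16, 20, 24, 81921, 344065, 349185, 355329, 475137, 737281, 9724212243482, 9724279352346, 18806685258802]
theorem p542 : Pat 73 73 TBm TCm (C542.map Fm) R0Q028.P542 R0Q028.I542 := Vale.Agent.P032.Lt.pat_eq (E' := R0Q028.E542) (by decide +kernel) (pat_step (by decide +kernel) (q_cons (Vale.Agent.P032.Lt.q R0Q028.q542_0) (q_cons (Vale.Agent.P032.Lt.q R0Q028.q542_1) (q_cons (Vale.Agent.P032.Lt.q R0Q028.q542_2) q_nil))))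

def C543 : List ℕ := [0, 4, 8, 12, 16, 20, 24, 218113, 349185, 480257, 742401, 9724283546650, 14122195840026, 22832498568218, 22840954285082, 23193238072346, 23390572604442, 23742859668506, 23931738483738]
theorem p543 : Pat 73 73 TBm TCm (C543.map Fm) R0Q028.P543 R0Q028.I543 := Vale.Agent.P032.Lt.pat_eq (E' := R0Q028.E543) (by decide +kernel) (pat_step (by decide +kernel) (q_cons (Vale.Agent.P032.Lt.q R0Q028.q543_0) q_nil))

def C544 : List ℕ := [0, 4, 8, 12, 16, 20, 24, 82945, 347137, 349185, 478209, 606209, 609281, 737281, 9102290021402, 13379046431754, 24275583195142, 24275583457286, 24275585554438, 24278404519942]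
theorem p544 : Pat 73 73 TBm TCm (C544.map Fm) R0Q028.P544 R0Q028.I544 := Vale.Agent.P032.Lt.pat_eq (E' := R0Q028.E544) (by decide +kernel) (pat_step (by decide +kernel) (q_cons (Vale.Agent.P032.Lt.q R0Q028.q544_0) q_nil))

def C545 : List ℕ := [0, 4, 8, 12, 16, 20, 24, 349185, 355329, 9724283546650, 18806685258802]
theorem p545 : Pat 73 73 TBm TCm (C545.map Fm) R0Q028.P545 R0Q028.I545 := Vale.Agent.P032.Lt.pat_eq (E' := R0Q028.E545) (by decide +kernel) (pat_step (by decide +kernel) (q_cons (Vale.Agent.P032.Lt.q R0Q028.q545_0) (q_cons (Vale.Agent.P032.Lt.q R0Q028.q545_1) (q_cons (Vale.Agent.P032.Lt.q R0Q028.q545_2) (q_cons (Vale.Agent.P032.Lt.q R0Q028.q545_3) (q_cons (Vale.Agent.P032.Lt.q R0Q028.q545_4) q_nil))))))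

def C546 : List ℕ := [0, 4, 8, 12, 16, 20, 24, 82945, 214017, 346113, 486401, 606209, 737281, 19047199891470, 24353623070726]
theorem p546 : Pat 73 73 TBm TCm (C546.map Fm) R0Q028.P546 R0Q028.I546 := Vale.Agent.P032.Lt.pat_eq (E' := R0Q028.E546) (by decide +kernel) (pat_step (by decide +kernel) (q_cons (Vale.Agent.P032.Lt.q R0Q028.q546_0) (q_cons (Vale.Agent.P032.Lt.q R0Q028.q546_1) q_nil)))

def C547 : List ℕ := [0, 4, 8, 12, 16, 20, 24, 216065, 478209]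
theorem p547 : Pat 73 73 TBm TCm (C547.map Fm) R0Q028.P547 R0Q028.I547 := Vale.Agent.P032.Lt.pat_eq (E' := R0Q028.E547) (by decide +kernel) (pat_step (by decide +kernel) (q_cons (Vale.Agent.P032.Lt.q R0Q028.q547_0) (q_cons (Vale.Agent.P032.Lt.q R0Q028.q547_1) (q_cons (Vale.Agent.P032.Lt.q R0Q028.q547_2) (q_cons (Vale.Agent.P032.Lt.q R0Q028.q547_3) (q_cons (Vale.Agent.P032.Lt.q R0Q028.q547_4) (q_cons (Vale.Agent.P032.Lt.q R0Q028.q547_5) (q_cons (Vale.Agent.P032.Lt.q R0Q028.q547_6) (q_cons (Vale.Agent.P032.Lt.q R0Q028.q547_7) (q_cons (Vale.Agent.P032.Lt.q R0Q028.q547_8) (q_cons (Vale.Agent.P032.Lt.q R0Q028.q547_9) (q_cons (Vale.Agent.P032.Lt.q R0Q028.q547_10) (q_cons (Vale.Agent.P032.Lt.q R0Q028.q547_11) (q_cons (Vale.Agent.P032.Lt.q R0Q028.q547_12) (q_cons (Vale.Agent.P032.Lt.q R0Q028.q547_13) (q_cons (Vale.Agent.P032.Lt.q R0Q028.q547_14) (q_cons (Vale.Agent.P032.Lt.q R0Q028.q547_15) (q_cons (Vale.Agent.P032.Lt.q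 R0Q028.q547_16) (q_cons (Vale.Agent.P032.Lt.q R0Q028.q547_17) (q_cons (Vale.Agent.P032.Lt.q R0Q028.q547_18) (q_cons (Vale.Agent.P032.Lt.q R0Q028.q547_19) q_nil)))))))))))))))))))))

def C548 : List ℕ := [0, 4, 8, 12, 16, 20, 24, 222209, 353281, 486401, 606209, 615425, 737281, 13487966213170, 18513477979178, 24278404519942, 24278467434502, 24338546644998, 24338613753862]
theorem p548 : Pat 73 73 TBm TCm (C548.map Fm) R0Q028.P548 R0Q028.I548 := Vale.Agent.P032.Lt.pat_eq (E' := R0Q028.E548) (by decide +kernel) (pat_step (by decide +kernel) (q_cons (Vale.Agent.P032.Lt.q R0Q028.q548_0) q_nil))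

def C549 : List ℕ := [0, 4, 8, 12, 16, 20, 24, 82945, 87041, 349185, 611329, 617473, 743425, 9049703148570, 9167092800522, 18941012831258, 19422922888242, 23931760361502, 23931762458654, 23932699099166]
theorem p549 : Pat 73 73 TBm TCm (C549.map Fm) R0Q028.P549 R0Q028.I549 := Vale.Agent.P032.Lt.pat_eq (E' := R0Q028.E549) (by decide +kernel) (pat_step (by decide +kernel) (q_cons (Vale.Agent.P032.Lt.q R0Q028.q549_0) (q_cons (Vale.Agent.P032.Lt.q R0Q028.q549_1) (q_cons (Vale.Agent.P032.Lt.q R0Q028.q549_2) q_nil))))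

def C550 : List ℕ := [0, 4, 8, 12, 16, 20, 24, 91137, 606209, 615425, 746497, 17954528513066, 17962898775050, 22782656334890, 24338546644998, 24338555033606, 24338613753862, 24338622142470]
theorem p550 : Pat 73 73 TBm TCm (C550.map Fm) R0Q028.P550 R0Q028.I550 := Vale.Agent.P032.Lt.pat_eq (E' := R0Q028.E550) (by decide +kernel) (pat_step (by decide +kernel) (q_cons (Vale.Agent.P032.Lt.q R0Q028.q550_0) (q_cons (Vale.Agent.P032.Lt.q R0Q028.q550_1) (q_cons (Vale.Agent.P032.Lt.q R0Q028.q550_2) (q_cons (Vale.Agent.P032.Lt.q R0Q028.q550_3) (q_cons (Vale.Agent.P032.Lt.q R0Q028.q550_4) (q_cons (Vale.Agent.P032.Lt.q R0Q028.q550_5) (q_cons (Vale.Agent.P032.Lt.q R0Q028.q550_6) (q_cons (Vale.Agent.P032.Lt.q R0Q028.q550_7) q_nil)))))))))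

def C551 : List ℕ := [0, 4, 8, 12, 16, 20, 24, 84993, 478209, 13556549641234, 19422940191754, 19603307846666]
theorem p551 : Pat 73 73 TBm TCm (C551.map Fm) R0Q028.P551 R0Q028.I551 := Vale.Agent.P032.Lt.pat_eq (E' := R0Q028.E551) (by decide +kernel) (pat_step (by decide +kernel) (q_cons (Vale.Agent.P032.Lt.q R0Q028.q551_0) (q_cons (Vale.Agent.P032.Lt.q R0Q028.q551_1) (q_cons (Vale.Agent.P032.Lt.q R0Q028.q551_2) q_nil))))

def C552 : List ℕ := [0, 4, 8, 12, 16, 20, 24, 606209, 737281]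
theorem p552 : Pat 73 73 TBm TCm (C552.map Fm) R0Q028.P552 R0Q028.I552 := Vale.Agent.P032.Lt.pat_eq (E' := R0Q028.E552) (by decide +kernel) (pat_step (by decide +kernel) (q_cons (Vale.Agent.P032.Lt.q R0Q028.q552_0) (q_cons (Vale.Agent.P032.Lt.q R0Q028.q552_1) (q_cons (Vale.Agent.P032.Lt.q R0Q028.q552_2) (q_cons (Vale.Agent.P032.Lt.q R0Q028.q552_3) (q_cons (Vale.Agent.P032.Lt.q R0Q028.q552_4) (q_cons (Vale.Agent.P032.Lt.q R0Q028.q552_5) q_nil)))))))

def C553 : List ℕ := [0, 4, 8, 12, 16, 20, 24, 84993, 216065, 347137, 9102284514322, 9651904013330, 19422016400410]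
theorem p553 : Pat 73 73 TBm TCm (C553.map Fm) R0Q028.P553 R0Q028.I553 := Vale.Agent.P032.Lt.pat_eq (E' := R0Q028.E553) (by decide +kernel) (pat_step (by decide +kernel) (q_cons (Vale.Agent.P032.Lt.q R0Q028.q553_0) (q_cons (Vale.Agent.P032.Lt.q R0Q028.q553_1) q_nil)))

def C554 : List ℕ := [0, 4, 8, 12, 16, 20, 24, 93185, 355329, 9167071433778]
theorem p554 : Pat 73 73 TBm TCm (C554.map Fm) R0Q028.P554 R0Q028.I554 := Vale.Agent.P032.Lt.pat_eq (E' := R0Q028.E554) (by decide +kernel) (pat_step (by decide +kernel) (q_cons (Vale.Agent.P032.Lt.q R0Q028.q554_0) q_nil))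

def C555 : List ℕ := [0, 4, 8, 12, 16, 20, 24, 212993, 345089, 476161, 478209, 607233, 738305, 13921102029842, 19593930300426, 23188625906698, 23729695317002, 24275642306606]
theorem p555 : Pat 73 73 TBm TCm (C555.map Fm) R0Q028.P555 R0Q028.I555 := Vale.Agent.P032.Lt.pat_eq (E' := R0Q028.E555) (by decide +kernel) (pat_step (by decide +kernel) (q_cons (Vale.Agent.P032.Lt.q R0Q028.q555_0) q_nil))

theorem p556 : Pat 73 73 TBm TCm (CB.map Fm) R0Q028.P556 R0Q028.I556 := Vale.Agent.P032.Lt.pat_eq (E' := R0Q028.E) eB (pat_step (by decide +kernel) (q_cons (Vale.Agent.P032.Lt.q R0Q028.q556_0) (q_cons (Vale.Agent.P032.Lt.q R0Q028.q556_1) (q_cons (Vale.Agent.P032.Lt.q R0Q028.q556_2) (q_cons (Vale.Agent.P032.Lt.q R0Q028.q556_3) (q_cons (Vale.Agent.P032.Lt.q R0Q028.q556_4) (q_cons (Vale.Agent.P032.Lt.q R0Q028.q556_5) (q_cons (Vale.Agent.P032.Lt.q R0Q028.q556_6) (q_cons (Vale.Agent.P032.Lt.q R0Q028.q556_7) (q_cons (Vale.Agent.P032.Lt.q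 R0Q028.q556_8) (q_cons (Vale.Agent.P032.Lt.q R0Q028.q556_9) (q_cons (Vale.Agent.P032.Lt.q R0Q028.q556_10) q_nil))))))))))))

theorem p557 : Pat 73 73 TBm TCm (CB.map Fm) R0Q028.P557 R0Q028.I557 := Vale.Agent.P032.Lt.pat_eq (E' := R0Q028.E) eB (pat_step (by decide +kernel) (q_cons (Vale.Agent.P032.Lt.q R0Q028.q557_0) (q_cons (Vale.Agent.P032.Lt.q R0Q028.q557_1) (q_cons (Vale.Agent.P032.Lt.q R0Q028.q557_2) (q_cons (Vale.Agent.P032.Lt.q R0Q028.q557_3) (q_cons (Vale.Agent.P032.Lt.q R0Q028.q557_4) q_nil))))))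

def C558 : List ℕ := [0, 4, 8, 12, 16, 20, 24, 475137, 737281]
theorem p558 : Pat 73 73 TBm TCm (C558.map Fm) R0Q028.P558 R0Q028.I558 := Vale.Agent.P032.Lt.pat_eq (E' := R0Q028.E558) (by decide +kernel) (pat_step (by decide +kernel) (q_cons (Vale.Agent.P032.Lt.q R0Q028.q558_0) (q_cons (Vale.Agent.P032.Lt.q R0Q028.q558_1) (q_cons (Vale.Agent.P032.Lt.q R0Q028.q558_2) (q_cons (Vale.Agent.P032.Lt.q R0Q028.q558_3) q_nil)))))

def C559 : List ℕ := [0, 4, 8, 12, 16, 20, 24, 89089, 475137, 9170004952098]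
theorem p559 : Pat 73 73 TBm TCm (C559.map Fm) R0Q029.P559 R0Q029.I559 := Vale.Agent.P032.Lt.pat_eq (E' := R0Q029.E559) (by decide +kernel) (pat_step (by decide +kernel) (q_cons (Vale.Agent.P032.Lt.q R0Q029.q559_0) (q_cons (Vale.Agent.P032.Lt.q R0Q029.q559_1) (q_cons (Vale.Agent.P032.Lt.q R0Q029.q559_2) q_nil))))

def C560 : List ℕ := [0, 4, 8, 12, 16, 20, 24, 475137, 737281]
theorem p560 : Pat 73 73 TBm TCm (C560.map Fm) R0Q029.P560 R0Q029.I560 := Vale.Agent.P032.Lt.pat_eq (E' := R0Q029.E560) (by decide +kernel) (pat_step (by decide +kernel) (q_cons (Vale.Agent.P032.Lt.q R0Q029.q560_0) (q_cons (Vale.Agent.P032.Lt.q R0Q029.q560_1) (q_cons (Vale.Agent.P032.Lt.q R0Q029.q560_2) (q_cons (Vale.Agent.P032.Lt.q R0Q029.q560_3) (q_cons (Vale.Agent.P032.Lt.q R0Q029.q560_4) (q_cons (Vale.Agent.P032.Lt.q R0Q029.q560_5) q_nil)))))))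

def C561 : List ℕ := [0, 4, 8, 12, 16, 20, 24, 347137, 349185, 613377, 9167073143834, 9719610827794, 14577862667290, 17817340953634]
theorem p561 : Pat 73 73 TBm TCm (C561.map Fm) R0Q029.P561 R0Q029.I561 := Vale.Agent.P032.Lt.pat_eq (E' := R0Q029.E561) (by decide +kernel) (pat_step (by decide +kernel) (q_cons (Vale.Agent.P032.Lt.q R0Q029.q561_0) q_nil))

def C562 : List ℕ := [0, 4, 8, 12, 16, 20, 24, 82945, 84993, 91137, 606209, 24412753713158, 24412753975302, 24412756072454, 24413694023686, 24413694285830, 24413696382982]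
theorem p562 : Pat 73 73 TBm TCm (C562.map Fm) R0Q029.P562 R0Q029.I562 := Vale.Agent.P032.Lt.pat_eq (E' := R0Q029.E562) (by decide +kernel) (pat_step (by decide +kernel) (q_cons (Vale.Agent.P032.Lt.q R0Q029.q562_0) (q_cons (Vale.Agent.P032.Lt.q R0Q029.q562_1) (q_cons (Vale.Agent.P032.Lt.q R0Q029.q562_2) (q_cons (Vale.Agent.P032.Lt.q R0Q029.q562_3) (q_cons (Vale.Agent.P032.Lt.q R0Q029.q562_4) (q_cons (Vale.Agent.P032.Lt.q R0Q029.q562_5) (q_cons (Vale.Agent.P032.Lt.q R0Q029.q562_6) (q_cons (Vale.Agent.P032.Lt.q R0Q029.q562_7) q_nil)))))))))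

def C563 : List ℕ := [0, 4, 8, 12, 16, 20, 24, 606209, 737281]
theorem p563 : Pat 73 73 TBm TCm (C563.map Fm) R0Q029.P563 R0Q029.I563 := Vale.Agent.P032.Lt.pat_eq (E' := R0Q029.E563) (by decide +kernel) (pat_step (by decide +kernel) (q_cons (Vale.Agent.P032.Lt.q R0Q029.q563_0) (q_cons (Vale.Agent.P032.Lt.q R0Q029.q563_1) (q_cons (Vale.Agent.P032.Lt.q R0Q029.q563_2) (q_cons (Vale.Agent.P032.Lt.q R0Q029.q563_3) (q_cons (Vale.Agent.P032.Lt.q R0Q029.q563_4) q_nil))))))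

def C564 : List ℕ := [0, 4, 8, 12, 16, 20, 24, 82945, 84993, 347137, 349185, 606209, 609281, 737281, 9102291987482, 9169958038554]
theorem p564 : Pat 73 73 TBm TCm (C564.map Fm) R0Q029.P564 R0Q029.I564 := Vale.Agent.P032.Lt.pat_eq (E' := R0Q029.E564) (by decide +kernel) (pat_step (by decide +kernel) (q_cons (Vale.Agent.P032.Lt.q R0Q029.q564_0) q_nil))

def C565 : List ℕ := [0, 4, 8, 12, 16, 20, 24, 81921, 212993, 606209, 4779591161862]
theorem p565 : Pat 73 73 TBm TCm (C565.map Fm) R0Q029.P565 R0Q029.I565 := Vale.Agent.P032.Lt.pat_eq (E' := R0Q029.E565) (by decide +kernel) (pat_step (by decide +kernel) (q_cons (Vale.Agent.P032.Lt.q R0Q029.q565_0) (q_cons (Vale.Agent.P032.Lt.q R0Q029.q565_1) (q_cons (Vale.Agent.P032.Lt.q R0Q029.q565_2) q_nil))))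

def C566 : List ℕ := [0, 4, 8, 12, 16, 20, 24, 220161, 222209, 486401, 606209, 737281, 9715820217378, 14105230920746, 14397490549810, 24353631459334]
theorem p566 : Pat 73 73 TBm TCm (C566.map Fm) R0Q029.P566 R0Q029.I566 := Vale.Agent.P032.Lt.pat_eq (E' := R0Q029.E566) (by decide +kernel) (pat_step (by decide +kernel) (q_cons (Vale.Agent.P032.Lt.q R0Q029.q566_0) q_nil))

def C567 : List ℕ := [0, 4, 8, 12, 16, 20, 24, 216065, 741377, 17842660662282, 24404318054422]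
theorem p567 : Pat 73 73 TBm TCm (C567.map Fm) R0Q029.P567 R0Q029.I567 := Vale.Agent.P032.Lt.pat_eq (E' := R0Q029.E567) (by decide +kernel) (pat_step (by decide +kernel) (q_cons (Vale.Agent.P032.Lt.q R0Q029.q567_0) (q_cons (Vale.Agent.P032.Lt.q R0Q029.q567_1) q_nil)))

def C568 : List ℕ := [0, 4, 8, 12, 16, 20, 24, 81921, 212993, 344065, 475137, 9175602911238, 14124078159878, 14672758396934]
theorem p568 : Pat 73 73 TBm TCm (C568.map Fm) R0Q029.P568 R0Q029.I568 := Vale.Agent.P032.Lt.pat_eq (E' := R0Q029.E568) (by decide +kernel) (pat_step (by decide +kernel) (q_cons (Vale.Agent.P032.Lt.q R0Q029.q568_0) q_nil))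

def C569 : List ℕ := [0, 4, 8, 12, 16, 20, 24, 349185, 475137, 607233, 613377, 737281, 18503168115746, 18803792894986, 18806612122634, 19388202173474]
theorem p569 : Pat 73 73 TBm TCm (C569.map Fm) R0Q029.P569 R0Q029.I569 := Vale.Agent.P032.Lt.pat_eq (E' := R0Q029.E569) (by decide +kernel) (pat_step (by decide +kernel) (q_cons (Vale.Agent.P032.Lt.q R0Q029.q569_0) (q_cons (Vale.Agent.P032.Lt.q R0Q029.q569_1) (q_cons (Vale.Agent.P032.Lt.q R0Q029.q569_2) (q_cons (Vale.Agent.P032.Lt.q R0Q029.q569_3) (q_cons (Vale.Agent.P032.Lt.q R0Q029.q569_4) (q_cons (Vale.Agent.P032.Lt.q R0Q029.q569_5) (q_cons (Vale.Agent.P032.Lt.q R0Q029.q569_6) (q_cons (Vale.Agent.P032.Lt.q R0Q029.q569_7) (q_cons (Vale.Agent.P032.Lt.q R0Q029.q569_8) (q_cons (Vale.Agent.P032.Lt.q R0Q029.q569_9) (q_cons (Vale.Agent.P032.Lt.q R0Q029.q569_10) (q_cons (Vale.Agent.P032.Lt.q R0Q029.q569_11) q_nil)))))))))))))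

def C570 : List ℕ := [0, 4, 8, 12, 16, 20, 24, 84993, 214017, 216065, 347137, 475137, 478209, 609281, 611329, 737281, 4641480465418, 9666901009426, 17821073632282, 17843577119762, 18325575785482, 18325665965074, 19392889840658, 23744742250502, 23744754833414, 23744754964486, 23744800970758, 23925164431366]
theorem p570 : Pat 73 73 TBm TCm (C570.map Fm) R0Q029.P570 R0Q029.I570 := Vale.Agent.P032.Lt.pat_eq (E' := R0Q029.E570) (by decide +kernel) (pat_step (by decide +kernel) (q_cons (Vale.Agent.P032.Lt.q R0Q029.q570_0) q_nil))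

def C571 : List ℕ := [0, 4, 8, 12, 16, 20, 24, 613377, 17956434297890]
theorem p571 : Pat 73 73 TBm TCm (C571.map Fm) R0Q029.P571 R0Q029.I571 := Vale.Agent.P032.Lt.pat_eq (E' := R0Q029.E571) (by decide +kernel) (pat_step (by decide +kernel) (q_cons (Vale.Agent.P032.Lt.q R0Q029.q571_0) (q_cons (Vale.Agent.P032.Lt.q R0Q029.q571_1) (q_cons (Vale.Agent.P032.Lt.q R0Q029.q571_2) (q_cons (Vale.Agent.P032.Lt.q R0Q029.q571_3) (q_cons (Vale.Agent.P032.Lt.q R0Q029.q571_4) q_nil))))))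

def C572 : List ℕ := [0, 4, 8, 12, 16, 20, 24, 82945, 347137, 606209, 737281, 4641385962506]
theorem p572 : Pat 73 73 TBm TCm (C572.map Fm) R0Q029.P572 R0Q029.I572 := Vale.Agent.P032.Lt.pat_eq (E' := R0Q029.E572) (by decide +kernel) (pat_step (by decide +kernel) (q_cons (Vale.Agent.P032.Lt.q R0Q029.q572_0) (q_cons (Vale.Agent.P032.Lt.q R0Q029.q572_1) (q_cons (Vale.Agent.P032.Lt.q R0Q029.q572_2) (q_cons (Vale.Agent.P032.Lt.q R0Q029.q572_3) (q_cons (Vale.Agent.P032.Lt.q R0Q029.q572_4) q_nil))))))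

theorem p573 : Pat 73 73 TBm TCm (CB.map Fm) R0Q029.P573 R0Q029.I573 := Vale.Agent.P032.Lt.pat_eq (E' := R0Q029.E) eB (pat_step (by decide +kernel) (q_cons (Vale.Agent.P032.Lt.q R0Q029.q573_0) (q_cons (Vale.Agent.P032.Lt.q R0Q029.q573_1) (q_cons (Vale.Agent.P032.Lt.q R0Q029.q573_2) (q_cons (Vale.Agent.P032.Lt.q R0Q029.q573_3) (q_cons (Vale.Agent.P032.Lt.q R0Q029.q573_4) (q_cons (Vale.Agent.P032.Lt.q R0Q029.q573_5) (q_cons (Vale.Agent.P032.Lt.q R0Q029.q573_6) (q_cons (Vale.Agent.P032.Lt.q R0Q029.q573_7) (q_cons (Vale.Agent.P032.Lt.q R0Q029.q573_8) (q_cons (Vale.Agent.P032.Lt.q R0Q029.q573_9) q_nil)))))))))))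

theorem p574 : Pat 73 73 TBm TCm (CB.map Fm) R0Q029.P574 R0Q029.I574 := Vale.Agent.P032.Lt.pat_eq (E' := R0Q029.E) eB (pat_step (by decide +kernel) (q_cons (Vale.Agent.P032.Lt.q R0Q029.q574_0) (q_cons (Vale.Agent.P032.Lt.q R0Q029.q574_1) (q_cons (Vale.Agent.P032.Lt.q R0Q029.q574_2) (q_cons (Vale.Agent.P032.Lt.q R0Q029.q574_3) (q_cons (Vale.Agent.P032.Lt.q R0Q029.q574_4) q_nil))))))

def C575 : List ℕ := [0, 4, 8, 12, 16, 20, 24, 212993, 349185, 355329, 606209, 737281, 9169895123994, 14397490549810]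
theorem p575 : Pat 73 73 TBm TCm (C575.map Fm) R0Q029.P575 R0Q029.I575 := Vale.Agent.P032.Lt.pat_eq (E' := R0Q029.E575) (by decide +kernel) (pat_step (by decide +kernel) (q_cons (Vale.Agent.P032.Lt.q R0Q029.q575_0) (q_cons (Vale.Agent.P032.Lt.q R0Q029.q575_1) (q_cons (Vale.Agent.P032.Lt.q R0Q029.q575_2) (q_cons (Vale.Agent.P032.Lt.q R0Q029.q575_3) (q_cons (Vale.Agent.P032.Lt.q R0Q029.q575_4) (q_cons (Vale.Agent.P032.Lt.q R0Q029.q575_5) (q_cons (Vale.Agent.P032.Lt.q R0Q029.q575_6) q_nil))))))))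

def C576 : List ℕ := [0, 4, 8, 12, 16, 20, 24, 475137, 607233, 613377, 17956434297890, 19422940191754, 19602478679074]
theorem p576 : Pat 73 73 TBm TCm (C576.map Fm) R0Q029.P576 R0Q029.I576 := Vale.Agent.P032.Lt.pat_eq (E' := R0Q029.E576) (by decide +kernel) (pat_step (by decide +kernel) (q_cons (Vale.Agent.P032.Lt.q R0Q029.q576_0) (q_cons (Vale.Agent.P032.Lt.q R0Q029.q576_1) (q_cons (Vale.Agent.P032.Lt.q R0Q029.q576_2) (q_cons (Vale.Agent.P032.Lt.q R0Q029.q576_3) q_nil)))))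

def C577 : List ℕ := [0, 4, 8, 12, 16, 20, 24, 222209, 613377, 24404347405346]
theorem p577 : Pat 73 73 TBm TCm (C577.map Fm) R0Q029.P577 R0Q029.I577 := Vale.Agent.P032.Lt.pat_eq (E' := R0Q029.E577) (by decide +kernel) (pat_step (by decide +kernel) (q_cons (Vale.Agent.P032.Lt.q R0Q029.q577_0) q_nil))

def C578 : List ℕ := [0, 4, 8, 12, 16, 20, 24, 82945, 344065, 607233, 738305, 742401, 14582494353414, 17962917387274, 23742926777370, 23923348958234, 23931693394970, 23931806641178, 24278405831690, 24404322380826]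
theorem p578 : Pat 73 73 TBm TCm (C578.map Fm) R0Q029.P578 R0Q029.I578 := Vale.Agent.P032.Lt.pat_eq (E' := R0Q029.E578) (by decide +kernel) (pat_step (by decide +kernel) (q_cons (Vale.Agent.P032.Lt.q R0Q029.q578_0) (q_cons (Vale.Agent.P032.Lt.q R0Q029.q578_1) (q_cons (Vale.Agent.P032.Lt.q R0Q029.q578_2) (q_cons (Vale.Agent.P032.Lt.q R0Q029.q578_3) (q_cons (Vale.Agent.P032.Lt.q R0Q029.q578_4) (q_cons (Vale.Agent.P032.Lt.q R0Q029.q578_5) (q_cons (Vale.Agent.P032.Lt.q R0Q029.q578_6) (q_cons (Vale.Agent.P032.Lt.q R0Q029.q578_7) (q_cons (Vale.Agent.P032.Lt.q R0Q029.q578_8) q_nil))))))))))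

def C579 : List ℕ := [0, 4, 8, 12, 16, 20, 24, 82945, 218113, 345089, 476161, 480257, 482305, 611329, 738305, 13921136624674, 14122229394458, 18941012569114, 19593950620698, 22218001046538, 22715011390474, 23376465714186]
theorem p579 : Pat 73 73 TBm TCm (C579.map Fm) R0Q029.P579 R0Q029.I579 := Vale.Agent.P032.Lt.pat_eq (E' := R0Q029.E579) (by decide +kernel) (pat_step (by decide +kernel) (q_cons (Vale.Agent.P032.Lt.q R0Q029.q579_0) (q_cons (Vale.Agent.P032.Lt.q R0Q029.q579_1) (q_cons (Vale.Agent.P032.Lt.q R0Q029.q579_2) (q_cons (Vale.Agent.P032.Lt.q R0Q029.q579_3) (q_cons (Vale.Agent.P032.Lt.q R0Q029.q579_4) (q_cons (Vale.Agent.P032.Lt.q R0Q029.q579_5) (q_cons (Vale.Agent.P032.Lt.q R0Q029.q579_6) (q_cons (Vale.Agent.P032.Lt.q R0Q029.q579_7) (q_cons (Vale.Agent.P032.Lt.q R0Q029.q579_8) (q_cons (Vale.Agent.P032.Lt.q R0Q029.q579_9) q_nil)))))))))))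

theorem p580 : Pat 73 73 TBm TCm (CB.map Fm) R0Q029.P580 R0Q029.I580 := Vale.Agent.P032.Lt.pat_eq (E' := R0Q029.E) eB (pat_step (by decide +kernel) (q_cons (Vale.Agent.P032.Lt.q R0Q029.q580_0) (q_cons (Vale.Agent.P032.Lt.q R0Q029.q580_1) (q_cons (Vale.Agent.P032.Lt.q R0Q029.q580_2) (q_cons (Vale.Agent.P032.Lt.q R0Q029.q580_3) (q_cons (Vale.Agent.P032.Lt.q R0Q029.q580_4) (q_cons (Vale.Agent.P032.Lt.q R0Q029.q580_5) (q_cons (Vale.Agent.P032.Lt.q R0Q029.q580_6) q_nil))))))))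

def C581 : List ℕ := [0, 4, 8, 12, 16, 20, 24, 84993, 91137, 212993, 478209, 484353, 606209, 737281, 9046813008914, 13559436626986, 17954528513066]
theorem p581 : Pat 73 73 TBm TCm (C581.map Fm) R0Q029.P581 R0Q029.I581 := Vale.Agent.P032.Lt.pat_eq (E' := R0Q029.E581) (by decide +kernel) (pat_step (by decide +kernel) (q_cons (Vale.Agent.P032.Lt.q R0Q029.q581_0) (q_cons (Vale.Agent.P032.Lt.q R0Q029.q581_1) (q_cons (Vale.Agent.P032.Lt.q R0Q029.q581_2) (q_cons (Vale.Agent.P032.Lt.q R0Q029.q581_3) q_nil)))))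

def C582 : List ℕ := [0, 4, 8, 12, 16, 20, 24, 84993, 216065, 478209, 480257, 483329, 609281, 614401, 4701617873938, 13559351700506]
theorem p582 : Pat 73 73 TBm TCm (C582.map Fm) R0Q029.P582 R0Q029.I582 := Vale.Agent.P032.Lt.pat_eq (E' := R0Q029.E582) (by decide +kernel) (pat_step (by decide +kernel) (q_cons (Vale.Agent.P032.Lt.q R0Q029.q582_0) (q_cons (Vale.Agent.P032.Lt.q R0Q029.q582_1) q_nil)))

theorem p583 : Pat 73 73 TBm TCm (CB.map Fm) R0Q029.P583 R0Q029.I583 := Vale.Agent.P032.Lt.pat_eq (E' := R0Q029.E) eB (pat_step (by decide +kernel) (q_cons (Vale.Agent.P032.Lt.q R0Q029.q583_0) (q_cons (Vale.Agent.P032.Lt.q R0Q029.q583_1) (q_cons (Vale.Agent.P032.Lt.q R0Q029.q583_2) (q_cons (Vale.Agent.P032.Lt.q R0Q029.q583_3) (q_cons (Vale.Agent.P032.Lt.q R0Q029.q583_4) (q_cons (Vale.Agent.P032.Lt.q R0Q029.q583_5) (q_cons (Vale.Agent.P032.Lt.q R0Q029.q583_6) q_nil))))))))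

def C584 : List ℕ := [0, 4, 8, 12, 16, 20, 24, 216065, 347137, 9591774471186]
theorem p584 : Pat 73 73 TBm TCm (C584.map Fm) R0Q029.P584 R0Q029.I584 := Vale.Agent.P032.Lt.pat_eq (E' := R0Q029.E584) (by decide +kernel) (pat_step (by decide +kernel) (q_cons (Vale.Agent.P032.Lt.q R0Q029.q584_0) (q_cons (Vale.Agent.P032.Lt.q R0Q029.q584_1) (q_cons (Vale.Agent.P032.Lt.q R0Q029.q584_2) q_nil))))

theorem p585 : Pat 73 73 TBm TCm (CB.map Fm) R0Q030.P585 R0Q030.I585 := Vale.Agent.P032.Lt.pat_eq (E' := R0Q030.E) eB (pat_step (by decide +kernel) (q_cons (Vale.Agent.P032.Lt.q R0Q030.q585_0) (q_cons (Vale.Agent.P032.Lt.q R0Q030.q585_1) (q_cons (Vale.Agent.P032.Lt.q R0Q030.q585_2) (q_cons (Vale.Agent.P032.Lt.q R0Q030.q585_3) (q_cons (Vale.Agent.P032.Lt.q R0Q030.q585_4) (q_cons (Vale.Agent.P032.Lt.q R0Q030.q585_5) (q_cons (Vale.Agent.P032.Lt.q R0Q030.q585_6) (q_cons (Vale.Agent.P032.Lt.q R0Q030.q585_7) q_nil)))))))))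

def C586 : List ℕ := [0, 4, 8, 12, 16, 20, 24, 613377, 744449, 22232120378402, 24275629327394]
theorem p586 : Pat 73 73 TBm TCm (C586.map Fm) R0Q030.P586 R0Q030.I586 := Vale.Agent.P032.Lt.pat_eq (E' := R0Q030.E586) (by decide +kernel) (pat_step (by decide +kernel) (q_cons (Vale.Agent.P032.Lt.q R0Q030.q586_0) (q_cons (Vale.Agent.P032.Lt.q R0Q030.q586_1) q_nil)))

def C587 : List ℕ := [0, 4, 8, 12, 16, 20, 24, 82945, 212993, 214017, 216065, 475137, 476161, 607233, 737281, 13513333627914, 14062015437834, 19353410952202]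
theorem p587 : Pat 73 73 TBm TCm (C587.map Fm) R0Q030.P587 R0Q030.I587 := Vale.Agent.P032.Lt.pat_eq (E' := R0Q030.E587) (by decide +kernel) (pat_step (by decide +kernel) (q_cons (Vale.Agent.P032.Lt.q R0Q030.q587_0) q_nil))

theorem p588 : Pat 73 73 TBm TCm (CB.map Fm) R0Q030.P588 R0Q030.I588 := Vale.Agent.P032.Lt.pat_eq (E' := R0Q030.E) eB (pat_step (by decide +kernel) (q_cons (Vale.Agent.P032.Lt.q R0Q030.q588_0) (q_cons (Vale.Agent.P032.Lt.q R0Q030.q588_1) (q_cons (Vale.Agent.P032.Lt.q R0Q030.q588_2) (q_cons (Vale.Agent.P032.Lt.q R0Q030.q588_3) (q_cons (Vale.Agent.P032.Lt.q R0Q030.q588_4) (q_cons (Vale.Agent.P032.Lt.q R0Q030.q588_5) (q_cons (Vale.Agent.P032.Lt.q R0Q030.q588_6) (q_cons (Vale.Agent.P032.Lt.q R0Q030.q588_7) (q_cons (Vale.Agent.P032.Lt.q R0Q030.q588_8) (q_cons (Vale.Agent.P032.Lt.q R0Q030.q588_9) q_nil)))))))))))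

def C589 : List ℕ := [0, 4, 8, 12, 16, 20, 24, 606209, 737281, 24275583457286, 24275585292294, 24278404913158]
theorem p589 : Pat 73 73 TBm TCm (C589.map Fm) R0Q030.P589 R0Q030.I589 := Vale.Agent.P032.Lt.pat_eq (E' := R0Q030.E589) (by decide +kernel) (pat_step (by decide +kernel) (q_cons (Vale.Agent.P032.Lt.q R0Q030.q589_0) (q_cons (Vale.Agent.P032.Lt.q R0Q030.q589_1) (q_cons (Vale.Agent.P032.Lt.q R0Q030.q589_2) (q_cons (Vale.Agent.P032.Lt.q R0Q030.q589_3) (q_cons (Vale.Agent.P032.Lt.q R0Q030.q589_4) q_nil))))))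

def C590 : List ℕ := [0, 4, 8, 12, 16, 20, 24, 82945, 84993, 9115416878090, 9115513611282, 13513329171466, 13513425904658, 17774100571154, 17842685830162]
theorem p590 : Pat 73 73 TBm TCm (C590.map Fm) R0Q030.P590 R0Q030.I590 := Vale.Agent.P032.Lt.pat_eq (E' := R0Q030.E590) (by decide +kernel) (pat_step (by decide +kernel) (q_cons (Vale.Agent.P032.Lt.q R0Q030.q590_0) q_nil))

def C591 : List ℕ := [0, 4, 8, 12, 16, 20, 24, 82945, 476161, 13491800071178]
theorem p591 : Pat 73 73 TBm TCm (C591.map Fm) R0Q030.P591 R0Q030.I591 := Vale.Agent.P032.Lt.pat_eq (E' := R0Q030.E591) (by decide +kernel) (pat_step (by decide +kernel) (q_cons (Vale.Agent.P032.Lt.q R0Q030.q591_0) (q_cons (Vale.Agent.P032.Lt.q R0Q030.q591_1) q_nil)))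

def C592 : List ℕ := [0, 4, 8, 12, 16, 20, 24, 615425, 617473, 17817293247538, 17956399174706, 18365966142506, 18907132021802]
theorem p592 : Pat 73 73 TBm TCm (C592.map Fm) R0Q030.P592 R0Q030.I592 := Vale.Agent.P032.Lt.pat_eq (E' := R0Q030.E592) (by decide +kernel) (pat_step (by decide +kernel) (q_cons (Vale.Agent.P032.Lt.q R0Q030.q592_0) q_nil))

def C593 : List ℕ := [0, 4, 8, 12, 16, 20, 24, 355329, 606209, 737281]
theorem p593 : Pat 73 73 TBm TCm (C593.map Fm) R0Q030.P593 R0Q030.I593 := Vale.Agent.P032.Lt.pat_eq (E' := R0Q030.E593) (by decide +kernel) (pat_step (by decide +kernel) (q_cons (Vale.Agent.P032.Lt.q R0Q030.q593_0) (q_cons (Vale.Agent.P032.Lt.q R0Q030.q593_1) (q_cons (Vale.Agent.P032.Lt.q R0Q030.q593_2) (q_cons (Vale.Agent.P032.Lt.q R0Q030.q593_3) q_nil)))))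

def C594 : List ℕ := [0, 4, 8, 12, 16, 20, 24, 349185, 482305, 606209, 737281, 14036626785314]
theorem p594 : Pat 73 73 TBm TCm (C594.map Fm) R0Q030.P594 R0Q030.I594 := Vale.Agent.P032.Lt.pat_eq (E' := R0Q030.E594) (by decide +kernel) (pat_step (by decide +kernel) (q_cons (Vale.Agent.P032.Lt.q R0Q030.q594_0) (q_cons (Vale.Agent.P032.Lt.q R0Q030.q594_1) (q_cons (Vale.Agent.P032.Lt.q R0Q030.q594_2) (q_cons (Vale.Agent.P032.Lt.q R0Q030.q594_3) (q_cons (Vale.Agent.P032.Lt.q R0Q030.q594_4) q_nil))))))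

theorem p595 : Pat 73 73 TBm TCm (CB.map Fm) R0Q030.P595 R0Q030.I595 := Vale.Agent.P032.Lt.pat_eq (E' := R0Q030.E) eB (pat_step (by decide +kernel) (q_cons (Vale.Agent.P032.Lt.q R0Q030.q595_0) (q_cons (Vale.Agent.P032.Lt.q R0Q030.q595_1) (q_cons (Vale.Agent.P032.Lt.q R0Q030.q595_2) q_nil))))

def C596 : List ℕ := [0, 4, 8, 12, 16, 20, 24, 220161, 351233, 482305, 613377, 744449, 19062184952866, 22715033666594, 22782679401506, 23196070003746, 23331361473570, 23744752075810, 23812397810722, 24278447899682, 24285964092450, 24338577441826, 24353609827362, 24406223176738, 24413739369506]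
theorem p596 : Pat 73 73 TBm TCm (C596.map Fm) R0Q030.P596 R0Q030.I596 := Vale.Agent.P032.Lt.pat_eq (E' := R0Q030.E596) (by decide +kernel) (pat_step (by decide +kernel) (q_cons (Vale.Agent.P032.Lt.q R0Q030.q596_0) q_nil))

def L : List (List ℕ) := [R0Q027.P512, R0Q027.P513, R0Q027.P514, R0Q027.P515, R0Q027.P516, R0Q027.P517, R0Q027.P518, R0Q027.P519, R0Q027.P520, R0Q027.P521, R0Q027.P522, R0Q027.P523, R0Q027.P524, R0Q027.P525, R0Q027.P526, R0Q027.P527, R0Q027.P528, R0Q027.P529, R0Q027.P530, R0Q027.P531, R0Q027.P532, R0Q027.P533, R0Q028.P534, R0Q028.P535, R0Q028.P536, R0Q028.P537, R0Q028.P538, R0Q028.P539, R0Q028.P540, R0Q028.P541, R0Q028.P542, R0Q028.P543, R0Q028.P544, R0Q028.P545, R0Q028.P546, R0Q028.P547, R0Q028.P548, R0Q028.P549, R0Q028.P550, R0Q028.P551, R0Q028.P552, R0Q028.P553, R0Q028.P554, R0Q028.P555, R0Q028.P556, R0Q028.P557, R0Q028.P558, R0Q029.P559, R0Q029.P560, R0Q029.P561, R0Q029.P562, R0Q029.P563,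 R0Q029.P564, R0Q029.P565, R0Q029.P566, R0Q029.P567, R0Q029.P568, R0Q029.P569, R0Q029.P570, R0Q029.P571, R0Q029.P572, R0Q029.P573, R0Q029.P574, R0Q029.P575, R0Q029.P576, R0Q029.P577, R0Q029.P578, R0Q029.P579, R0Q029.P580, R0Q029.P581, R0Q029.P582, R0Q029.P583, R0Q029.P584, R0Q030.P585, R0Q030.P586, R0Q030.P587, R0Q030.P588, R0Q030.P589, R0Q030.P590, R0Q030.P591, R0Q030.P592, R0Q030.P593, R0Q030.P594, R0Q030.P595, R0Q030.P596]

theorem all : ∀ P ∈ L, CrtF 73 73 TBm TCm (Vale.Agent.P032.Fam.fam3 (Vale.Agent.P032.Fam.im0)) P := crtF_cons p512 (crtF_cons p513 (crtF_cons p514 (crtF_cons p515 (crtF_cons p516 (crtF_cons p517 (crtF_cons p518 (crtF_cons p519 (crtF_cons p520 (crtF_cons p521 (crtF_cons p522 (crtF_cons p523 (crtF_cons p524 (crtF_cons p525 (crtF_cons p526 (crtF_cons p527 (crtF_cons p528 (crtF_cons p529 (crtF_cons p530 (crtF_cons p531 (crtF_cons p532 (crtF_cons p533 (crtF_cons p534 (crtF_cons p535 (crtF_cons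 p536 (crtF_cons p537 (crtF_cons p538 (crtF_cons p539 (crtF_cons p540 (crtF_cons p541 (crtF_cons p542 (crtF_cons p543 (crtF_cons p544 (crtF_cons p545 (crtF_cons p546 (crtF_cons p547 (crtF_cons p548 (crtF_cons p549 (crtF_cons p550 (crtF_cons p551 (crtF_cons p552 (crtF_cons p553 (crtF_cons p554 (crtF_cons p555 (crtF_cons p556 (crtF_cons p557 (crtF_cons p558 (crtF_cons p559 (crtF_cons p560 (crtF_cons p561 (crtF_cons p562 (crtF_cons p563 (crtF_cons p564 (crtF_cons p565 (crtF_cons p566 (crtF_cons p567 (crtF_cons p568 (crtF_cons p569 (crtF_cons p570 (crtF_cons p571 (crtF_cons p572 (crtF_cons p573 (crtF_cons p574 (crtF_cons p575 (crtF_cons p576 (crtF_cons p577 (crtF_cons p578 (crtF_cons p579 (crtF_cons p580 (crtF_cons p581 (crtF_cons p582 (crtF_cons p583 (crtF_cons p584 (crtF_cons p585 (crtF_cons p586 (crtF_cons p587 (crtF_cons p588 (crtF_cons p589 (crtF_cons p590 (crtF_cons p591 (crtF_cons p592 (crtF_cons p593 (crtF_cons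 p594 (crtF_cons p595 (crtF_cons p596 crtF_nil))))))))))))))))))))))))))))))))))))))))))))))))))))))))))))))))))))))))))))))))))))

theorem ch : chT 73 73 TCm s0_004 L = true := by decide +kernel

end Vale.Agent.P032X.Cert.X3.A.R0H004
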