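import Vale.Agent.P032X.H286.W73
import Vale.Agent.P032X.Cert.X3.A.R0T
import Vale.Agent.P032X.Cert.X3.A.R0H000
import Vale.Agent.P032X.Cert.X3.A.R0H001
import Vale.Agent.P032X.Cert.X3.A.R0H002
import Vale.Agent.P032X.Cert.X3.A.R0H003
import Vale.Agent.P032X.Cert.X3.A.R0H004

namespace Vale.Agent.P032X.Cert.X3.A

open Vale.Agent.P032.H820.K Vale.Agent.P032.H357.MK Vale.Agent.P032.H286.E Vale.Agent.P032.H61 Vale.Agent.P032.H61.TF Vale.Agent.P032.BlkE Vale.Agent.P032.BlkS Vale.Agent.P032.H357 Vale.Agent.P032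

theorem d0 : Fam.DQ Fam.Q3 tr0 := ⟨⟨⟨dq3_of R0H000.ch R0H000.all, dq3_of R0H001.ch R0H001.all⟩, dq3_of R0H002.ch R0H002.all⟩, ⟨dq3_of R0H003.ch R0H003.all, dq3_of R0H004.ch R0H004.all⟩⟩

end Vale.Agent.P032X.Cert.X3.A
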