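import Vale.Agent.P032X.Cert.X3.A.T1
import Vale.Agent.P032X.Cert.X3.A.R0

namespace Vale.Agent.P032X.Cert.X3.A

open Vale.Agent.P032.H820.K Vale.Agent.P032.H357.MK Vale.Agent.P032.H286.E Vale.Agent.P032.H61 Vale.Agent.P032.H61.TF Vale.Agent.P032.BlkE Vale.Agent.P032.BlkS Vale.Agent.P032.H357 Vale.Agent.P032

theorem d : Fam.DQ Fam.Q3 t1 := d0

end Vale.Agent.P032X.Cert.X3.A
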